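import Vale.Agent.P205.Tori.Calc

/-!
P205, Klein bottle: the connection of the coframe `e^s (I + γ p pᵀ)`, `p = ∇u`, and its curvature.
-/

namespace P205.Klein.Frame

open P205.Tori

variable (u s w γ θ : ℝ × ℝ → ℝ)

noncomputable def fQ (z : ℝ × ℝ) : ℝ := dx u z * dx u z + dy u z * dy u z
noncomputable def fσ (z : ℝ × ℝ) : ℝ := 1 + γ z * fQ u z
noncomputable def fξ (z : ℝ × ℝ) : ℝ := dy u z * dx s z - dx u z * (dy s z - dy w z)
noncomputable def fV1 (z : ℝ × ℝ) : ℝ := dx (dx u) z * dy u z - dx u z * dy (dx u) z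
noncomputable def fV2 (z : ℝ × ℝ) : ℝ := dy u z * dy (dx u) z - dx u z * dy (dy u) z
noncomputable def fχ (ε : ℝ) (z : ℝ × ℝ) : ℝ := ε * Real.exp (-2 * w z)
noncomputable def fN1 (ε : ℝ) (z : ℝ × ℝ) : ℝ :=
  -dy s z + γ z * fV1 u z + fχ w ε z * (fξ u s w z * dx u z)
noncomputable def fN2 (ε : ℝ) (z : ℝ × ℝ) : ℝ :=
  dx s z + γ z * fV2 u z + fχ w ε z * (fξ u s w z * dy u z)
noncomputable def fT1 (ε : ℝ) (z : ℝ × ℝ) : ℝ := fN1 u s w γ ε z * (fσ u γ z)⁻¹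
noncomputable def fT2 (ε : ℝ) (z : ℝ × ℝ) : ℝ := fN2 u s w γ ε z * (fσ u γ z)⁻¹
noncomputable def fgx (z : ℝ × ℝ) : ℝ :=
  -(γ z * γ z * (dx u z * dx (dx u) z + dy u z * dy (dx u) z))
noncomputable def fgy (ε : ℝ) (z : ℝ × ℝ) : ℝ :=
  -(dy w z * fχ w ε z + γ z * γ z * (dx u z * dy (dx u) z + dy u z * dy (dy u) z))

noncomputable def fA11 (z : ℝ × ℝ) : ℝ := 1 + γ z * (dx u z * dx u z)
noncomputable def fA12 (z : ℝ × ℝ) : ℝ := γ z * (dx u z * dy u z)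
noncomputable def fA22 (z : ℝ × ℝ) : ℝ := 1 + γ z * (dy u z * dy u z)

noncomputable def r11 (z : ℝ × ℝ) : ℝ :=
  Real.exp (s z) * (Real.cos (θ z) * fA11 u γ z - Real.sin (θ z) * fA12 u γ z)
noncomputable def r12 (z : ℝ × ℝ) : ℝ :=
  Real.exp (s z) * (Real.cos (θ z) * fA12 u γ z - Real.sin (θ z) * fA22 u γ z)
noncomputable def r21 (z : ℝ × ℝ) : ℝ :=
  Real.exp (s z) * (Real.sin (θ z) * fA11 u γ z + Real.cos (θ z) * fA12 u γ z)
noncomputable def r22 (z : ℝ × ℝ) : ℝ :=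
  Real.exp (s z) * (Real.sin (θ z) * fA12 u γ z + Real.cos (θ z) * fA22 u γ z)

/-- The right-hand side of the equation for `Δ s`. -/
noncomputable def fG (ε : ℝ) (z : ℝ × ℝ) : ℝ :=
  let a := dx u z
  let b := dy u z
  let A := dx (dx u) z
  let B := dy (dx u) z
  let C := dy (dy u) z
  let p := dx s z
  let r := dy s z - dy w z
  let ξx := B * p + b * dx (dx s) z - A * r - a * dy (dx s) z
  let ξy := C * p + b * dy (dx s) z - B * r - a * (dy (dy s) z - dy (dy w) z)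
  let η := -(a * dy w z)
  let σ := fσ u γ z
  let χ := fχ w ε z;
  -(χ * (fQ u z * (dx (dx s) z + dy (dy s) z)))
    - χ * (σ * σ * (b * ξx - a * ξy - (fξ u s w z * η + fξ u s w z * η)))
    + (σ * σ * (γ z * (A * C - B * B)) + σ * σ * (γ z * (A * C - B * B)))
    - σ * (fgx u γ z * fV2 u z - fgy u w γ ε z * fV1 u z)
    + χ * (a * A + b * B) * fN2 u s w γ ε z
    - χ * (a * B + b * C - dy w z * fQ u z) * fN1 u s w γ ε z

/-- The hypotheses on the functions. -/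
structure Hyp (ε : ℝ) : Prop where
  hu : ContDiff ℝ (⊤ : ℕ∞) u
  hs : ContDiff ℝ (⊤ : ℕ∞) s
  hw : ContDiff ℝ (⊤ : ℕ∞) w
  hγ : ContDiff ℝ (⊤ : ℕ∞) γ
  wx : ∀ z, dx w z = 0
  eq : ∀ z, 2 * γ z + γ z * γ z * fQ u z = fχ w ε z
  ne : ∀ z, fσ u γ z ≠ 0

variable {u s w γ θ} {ε : ℝ}

theorem Hyp.dd {h : ℝ × ℝ → ℝ} (hh : ContDiff ℝ (⊤ : ℕ∞) h) (z : ℝ × ℝ) :
    HasFDerivAt h (fderiv ℝ h z) z := (hh.differentiable (by simp) z).hasFDerivAt

variable (H : Hyp u s w γ ε)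
include H

theorem sym (z : ℝ × ℝ) : dx (dy u) z = dy (dx u) z ∧ dx (dy s) z = dy (dx s) z ∧
    dx (dy (dy u)) z = dy (dy (dx u)) z ∧ dx (dy (dx u)) z = dy (dx (dx u)) z ∧
    dx (dy w) z = 0 := by
  refine ⟨congrFun (dx_dy H.hu) z, congrFun (dx_dy H.hs) z, ?_,
    congrFun (dx_dy (contDiff_dx H.hu)) z, ?_⟩
  · rw [dx_dy (contDiff_dy H.hu), dx_dy H.hu]
  · rw [dx_dy H.hw, show dx w = fun _ => 0 from funext H.wx]; simp [dy]

theorem hasFDerivAt_Q (z : ℝ × ℝ) :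
    HasFDerivAt (fQ u) ((dx u z • fderiv ℝ (dx u) z + dx u z • fderiv ℝ (dx u) z)
      + (dy u z • fderiv ℝ (dy u) z + dy u z • fderiv ℝ (dy u) z)) z :=
  ((Hyp.dd (contDiff_dx H.hu) z).mul (Hyp.dd (contDiff_dx H.hu) z)).add
    ((Hyp.dd (contDiff_dy H.hu) z).mul (Hyp.dd (contDiff_dy H.hu) z))

/-- The derivative of `γ`. -/
theorem deriv_gam (z : ℝ × ℝ) : dx γ z = fgx u γ z * (fσ u γ z)⁻¹ ∧
    dy γ z = fgy u w γ ε z * (fσ u γ z)⁻¹ := by
  have hg := Hyp.dd H.hγ z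
  have l : HasFDerivAt (fun y => 2 * γ y + γ y * γ y * fQ u y) _ z :=
    (hg.const_mul 2).add ((hg.mul hg).mul (hasFDerivAt_Q H z))
  have r : HasFDerivAt (fχ w ε) _ z := ((Hyp.dd H.hw z).const_mul (-2)).exp.const_mul ε
  have e := l.unique (r.congr_of_eventuallyEq (Filter.Eventually.of_forall H.eq))
  have e1 := congrArg (fun T : ℝ × ℝ →L[ℝ] ℝ => T (1, 0)) e
  have e2 := congrArg (fun T : ℝ × ℝ →L[ℝ] ℝ => T (0, 1)) e
  simp only [add_apply, smul_apply, smul_eq_mul, Pi.mul_apply] at e1 e2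
  obtain ⟨c1, -⟩ := sym H z
  have wx := H.wx z
  have hne := H.ne z
  simp only [dx, dy] at c1 wx e1 e2 ⊢
  rw [← div_eq_mul_inv, ← div_eq_mul_inv, eq_div_iff hne, eq_div_iff hne]
  simp only [fgx, fgy, fσ, fχ, fQ, dx, dy] at *
  rw [wx] at e1
  rw [c1] at e1
  constructor
  · linear_combination e1 / 2
  · linear_combination e2 / 2

theorem hasFDerivAt_sig (z : ℝ × ℝ) : ∃ T : ℝ × ℝ →L[ℝ] ℝ, HasFDerivAt (fσ u γ) T z ∧
    ∀ e, T e = fderiv ℝ γ z e * fQ u z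
      + γ z * (2 * (dx u z * fderiv ℝ (dx u) z e + dy u z * fderiv ℝ (dy u) z e)) :=
  ⟨_, ((Hyp.dd H.hγ z).mul (hasFDerivAt_Q H z)).const_add 1, fun e => by
    simp only [add_apply, smul_apply, smul_eq_mul]; ring⟩

theorem smooth_T : ContDiff ℝ (⊤ : ℕ∞) (fT1 u s w γ ε) ∧ ContDiff ℝ (⊤ : ℕ∞) (fT2 u s w γ ε) := by
  have ha := contDiff_dx H.hu
  have hb := contDiff_dy H.hu
  have hA := contDiff_dx ha
  have hB := contDiff_dy ha
  have hC := contDiff_dy hb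
  have hp := contDiff_dx H.hs
  have hr := contDiff_dy H.hs
  have hwy := contDiff_dy H.hw
  have hγ := H.hγ
  have hw := H.hw
  have hne := H.ne
  unfold fT1 fT2 fN1 fN2 fV1 fV2 fξ fχ
  exact ⟨ContDiff.mul (by fun_prop) (ContDiff.inv (by unfold fσ fQ; fun_prop) hne),
    ContDiff.mul (by fun_prop) (ContDiff.inv (by unfold fσ fQ; fun_prop) hne)⟩

/-- The curvature of the connection form. -/
theorem curl (z : ℝ × ℝ) :
    (dx (fT2 u s w γ ε) z - dy (fT1 u s w γ ε) z) * fσ u γ z ^ 3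
      = dx (dx s) z + dy (dy s) z - fG u s w γ ε z := by
  obtain ⟨c1, c2, c3, c4, c5⟩ := sym H z
  obtain ⟨gx, gy⟩ := deriv_gam H z
  obtain ⟨T, hT, eT⟩ := hasFDerivAt_sig H z
  have ha := Hyp.dd (contDiff_dx H.hu) z
  have hb := Hyp.dd (contDiff_dy H.hu) z
  have hA := Hyp.dd (contDiff_dx (contDiff_dx H.hu)) z
  have hB := Hyp.dd (contDiff_dy (contDiff_dx H.hu)) z
  have hC := Hyp.dd (contDiff_dy (contDiff_dy H.hu)) z
  have hp := Hyp.dd (contDiff_dx H.hs) z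
  have hr := Hyp.dd (contDiff_dy H.hs) z
  have hwy := Hyp.dd (contDiff_dy H.hw) z
  have hg := Hyp.dd H.hγ z
  have hX : HasFDerivAt (fχ w ε) ((-2 * fχ w ε z) • fderiv ℝ w z) z :=
    (((Hyp.dd H.hw z).const_mul (-2)).exp.const_mul ε).congr_fderiv
      (ContinuousLinearMap.ext fun e => by simp [fχ]; ring)
  have hξ : HasFDerivAt (fξ u s w) _ z := (hb.mul hp).sub (ha.mul (hr.sub hwy))
  have hi := (hasDerivAt_inv (H.ne z)).comp_hasFDerivAt z hT
  have h1 : HasFDerivAt (fT1 u s w γ ε) _ z :=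
    ((hr.neg.add (hg.mul ((hA.mul hb).sub (ha.mul hB)))).add (hX.mul (hξ.mul ha))).mul hi
  have h2 : HasFDerivAt (fT2 u s w γ ε) _ z :=
    ((hp.add (hg.mul ((hb.mul hB).sub (ha.mul hC)))).add (hX.mul (hξ.mul hb))).mul hi
  have he := H.eq z
  have wx := H.wx z
  rw [dx, dy, h1.fderiv, h2.fderiv]
  simp only [dx, dy] at c1 c2 c3 c4 c5 gx gy wx he
  simp only [smul_apply, add_apply, sub_apply, neg_apply, smul_eq_mul, Pi.add_apply, Pi.sub_apply,
    Pi.mul_apply, Pi.neg_apply, Function.comp_apply, eT, fN1, fN2, fV1, fV2, fξ, fG, fgx, fgy,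
    dx, dy, c1, c2, c3, c4, c5, wx, gx, gy]
  have hne := H.ne z
  field_simp
  simp only [fσ, fQ, dx, dy] at he ⊢
  rw [← he]
  ring

variable {m : ℝ} (hθ : ContDiff ℝ (⊤ : ℕ∞) θ)
  (tx : ∀ z, dx θ z = fT1 u s w γ ε z) (ty : ∀ z, dy θ z = fT2 u s w γ ε z - m)
include hθ tx ty

/-- The coframe is closed up to the mean of the connection. -/
theorem closed (z : ℝ × ℝ) :
    dx (r12 u s γ θ) z - dy (r11 u s γ θ) z = -(m * r21 u s γ θ z) ∧
    dx (r22 u s γ θ) z - dy (r21 u s γ θ) z = m * r11 u s γ θ z := by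
  obtain ⟨c1, c2, -, -, -⟩ := sym H z
  obtain ⟨gx, gy⟩ := deriv_gam H z
  have ha := Hyp.dd (contDiff_dx H.hu) z
  have hb := Hyp.dd (contDiff_dy H.hu) z
  have hg := Hyp.dd H.hγ z
  have he := (Hyp.dd H.hs z).exp
  have hc := (Hyp.dd hθ z).cos
  have hn := (Hyp.dd hθ z).sin
  have a11 := (hg.mul (ha.mul ha)).const_add 1
  have a12 := hg.mul (ha.mul hb)
  have a22 := (hg.mul (hb.mul hb)).const_add 1
  have h11 : HasFDerivAt (r11 u s γ θ) _ z := he.mul ((hc.mul a11).sub (hn.mul a12))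
  have h12 : HasFDerivAt (r12 u s γ θ) _ z := he.mul ((hc.mul a12).sub (hn.mul a22))
  have h21 : HasFDerivAt (r21 u s γ θ) _ z := he.mul ((hn.mul a11).add (hc.mul a12))
  have h22 : HasFDerivAt (r22 u s γ θ) _ z := he.mul ((hn.mul a12).add (hc.mul a22))
  have hne := H.ne z
  have heq := H.eq z
  have wx := H.wx z
  have tx := tx z
  have ty := ty z
  rw [dx, dy, dx, dy, h11.fderiv, h12.fderiv, h21.fderiv, h22.fderiv]
  simp only [dx, dy] at c1 c2 gx gy wx tx ty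
  simp only [smul_apply, add_apply, sub_apply, neg_apply, smul_eq_mul, Pi.add_apply, Pi.sub_apply,
    Pi.mul_apply, Pi.neg_apply, r11, r21, fA11, fA12, fA22, fT1, fT2, fN1, fN2, fV1, fV2, fξ,
    fgx, fgy, dx, dy, c1, c2, wx, gx, gy, tx, ty] at *
  constructor
  all_goals
    field_simp
    simp only [fσ, fQ, dx, dy] at heq ⊢
    rw [← heq]
    ring

/-- The two divergences of the coframe, without `e^s` and the rotation. -/
theorem div (hm : m = 0) (z : ℝ × ℝ) :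
    let a := dx u z
    let b := dy u z
    let A := dx (dx u) z
    let B := dy (dx u) z
    let C := dy (dy u) z
    let ι := (fσ u γ z)⁻¹
    let K1 := dx s z * fA11 u γ z + dy s z * fA12 u γ z
      + ι * (fgx u γ z * (a * a) + fgy u w γ ε z * (a * b)) + γ z * (a * A + a * A + B * b + a * C)
      - (fT1 u s w γ ε z * fA12 u γ z + fT2 u s w γ ε z * fA22 u γ z)
    let K2 := dx s z * fA12 u γ z + dy s z * fA22 u γ z
      + ι * (fgx u γ z * (a * b) + fgy u w γ ε z * (b * b)) + γ z * (A * b + a * B + b * C + b * C)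
      + (fT1 u s w γ ε z * fA11 u γ z + fT2 u s w γ ε z * fA12 u γ z)
    dx (r11 u s γ θ) z + dy (r12 u s γ θ) z
        = Real.exp (s z) * (Real.cos (θ z) * K1 - Real.sin (θ z) * K2) ∧
      dx (r21 u s γ θ) z + dy (r22 u s γ θ) z
        = Real.exp (s z) * (Real.sin (θ z) * K1 + Real.cos (θ z) * K2) := by
  obtain ⟨c1, c2, -, -, -⟩ := sym H z
  obtain ⟨gx, gy⟩ := deriv_gam H z
  have ha := Hyp.dd (contDiff_dx H.hu) z
  have hb := Hyp.dd (contDiff_dy H.hu) z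
  have hg := Hyp.dd H.hγ z
  have he := (Hyp.dd H.hs z).exp
  have hc := (Hyp.dd hθ z).cos
  have hn := (Hyp.dd hθ z).sin
  have a11 := (hg.mul (ha.mul ha)).const_add 1
  have a12 := hg.mul (ha.mul hb)
  have a22 := (hg.mul (hb.mul hb)).const_add 1
  have h11 : HasFDerivAt (r11 u s γ θ) _ z := he.mul ((hc.mul a11).sub (hn.mul a12))
  have h12 : HasFDerivAt (r12 u s γ θ) _ z := he.mul ((hc.mul a12).sub (hn.mul a22))
  have h21 : HasFDerivAt (r21 u s γ θ) _ z := he.mul ((hn.mul a11).add (hc.mul a12))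
  have h22 : HasFDerivAt (r22 u s γ θ) _ z := he.mul ((hn.mul a12).add (hc.mul a22))
  have tx := tx z
  have ty := ty z
  intro a b A B C ι K1 K2
  show fderiv ℝ (r11 u s γ θ) z (1, 0) + fderiv ℝ (r12 u s γ θ) z (0, 1) = _ ∧
    fderiv ℝ (r21 u s γ θ) z (1, 0) + fderiv ℝ (r22 u s γ θ) z (0, 1) = _
  rw [h11.fderiv, h12.fderiv, h21.fderiv, h22.fderiv]
  simp only [K1, K2, a, b, A, B, C, ι]
  simp only [dx, dy] at c1 c2 gx gy tx ty
  simp only [smul_apply, add_apply, sub_apply, neg_apply, smul_eq_mul, Pi.add_apply, Pi.sub_apply,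
    Pi.mul_apply, Pi.neg_apply, fA11, fA12, fA22, dx, dy, c1, gx, gy, tx, ty, hm]
  constructor <;> ring

end P205.Klein.Frame
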