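import Vale.Agent.P205.Klein.VerifyInterface
import Vale.Agent.P205.Klein.Frame

/-!
P205, Klein bottle: the terms of the system are the functions of the connection calculus.
-/

namespace P205.Klein

open P205.Tori P205.Tori.Fourier

theorem hasFDerivAt_pair {f₁ f₂ : ℝ × ℝ → ℝ} (h₁ : ContDiff ℝ (⊤ : ℕ∞) f₁)
    (h₂ : ContDiff ℝ (⊤ : ℕ∞) f₂) (p : ℝ × ℝ) :
    HasFDerivAt (fun y => (f₁ y, f₂ y)) ((fderiv ℝ f₁ p).prod (fderiv ℝ f₂ p)) p :=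
  (h₁.differentiable (by simp) p).hasFDerivAt.prodMk (h₂.differentiable (by simp) p).hasFDerivAt

/-- The derivative of a composition, in a direction. -/
theorem fderiv_comp_pair {f f₁ f₂ : ℝ × ℝ → ℝ} (hf : ContDiff ℝ (⊤ : ℕ∞) f)
    (h₁ : ContDiff ℝ (⊤ : ℕ∞) f₁) (h₂ : ContDiff ℝ (⊤ : ℕ∞) f₂) (p e : ℝ × ℝ) :
    fderiv ℝ (fun y => f (f₁ y, f₂ y)) p e
      = dx f (f₁ p, f₂ p) * fderiv ℝ f₁ p e + dy f (f₁ p, f₂ p) * fderiv ℝ f₂ p e := by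
  have h : HasFDerivAt (fun y => f (f₁ y, f₂ y)) _ p :=
    (hf.differentiable (by simp) _).hasFDerivAt.comp p (hasFDerivAt_pair h₁ h₂ p)
  rw [h.fderiv]
  simp [fderiv_eq_dx_dy f, mul_comm]

/-- A function of the second variable. -/
theorem pd_snd {g : ℝ → ℝ} (hg : ContDiff ℝ (⊤ : ℕ∞) g) (c a : ℝ) (p : ℝ × ℝ) :
    dx (fun y => c * g (a * y.2)) p = 0 ∧
      dy (fun y => c * g (a * y.2)) p = c * a * deriv g (a * p.2) := by
  have h : HasFDerivAt (fun y : ℝ × ℝ => c * g (a * y.2)) _ p :=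
    (((hg.differentiable (by simp) _).hasDerivAt).comp_hasFDerivAt p
      ((ContinuousLinearMap.snd ℝ ℝ ℝ).hasFDerivAt.const_mul a)).const_mul c
  simp only [dx, dy, h.fderiv]
  constructor <;> simp
  ring

namespace Setup

variable (S : Setup) (v : ℝ × ℝ → ℝ) (q : ℕ) (t : ℝ) (x : Unk)

/-- The function of a series. -/
noncomputable def fn (a : L1) : ℝ × ℝ → ℝ := (S.lat q t).F a

noncomputable def zc1 (p : ℝ × ℝ) : ℝ := p.1 + S.fn q t ((S.lat q t).M0 x.2.1) p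
noncomputable def zc2 (p : ℝ × ℝ) : ℝ :=
  S.L / S.P q t * p.2 + S.fn q t ((S.lat q t).M0 x.2.2.1) p
noncomputable def zmap (p : ℝ × ℝ) : ℝ × ℝ := (S.zc1 q t x p, S.zc2 q t x p)
noncomputable def sf : ℝ × ℝ → ℝ := S.fn q t (S.s₀ q t x)
noncomputable def wf : ℝ × ℝ → ℝ := S.fn q t (S.W0 q t)
noncomputable def c₁ : ℝ := (L1.coeff x.2.2.2 0).re
noncomputable def uf (p : ℝ × ℝ) : ℝ :=
  v (S.zmap q t x p) + S.sf q t x p - S.wf q t p + Real.log (c₁ x)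
noncomputable def gf (p : ℝ × ℝ) : ℝ := S.eps q * S.fn q t x.1.2.1 p

variable {S v q t x}

theorem W_lat (p : ℝ × ℝ) : (S.lat q t).W p = (p.1 / (2 * S.h), p.2 / S.P q t) := by
  have := S.h_pos
  have := S.P_pos q t
  rw [Solve.Lat.W_apply]
  simp [lat, Solve.Lat.d]
  constructor <;> field_simp

theorem ev_fn {a : L1} (h : L1.conjc a = a) (p : ℝ × ℝ) :
    L1.ev ((S.lat q t).W p) a = (S.fn q t a p : ℂ) :=
  Solve.IsR.ev_eq h _

/-- The context of the verification. -/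
structure Ctx (S : Setup) (v : ℝ × ℝ → ℝ) (q : ℕ) (t : ℝ) (x : Unk) : Prop where
  hv : ContDiff ℝ (⊤ : ℕ∞) v
  hq : q ∈ S.Q
  sol : S.Sol q t x
  v_eq : ∀ z : ℝ × ℝ,
    L1.ev z S.vx = (dx v (2 * S.h * z.1, S.L * z.2) : ℂ) ∧
    L1.ev z S.vy = (dy v (2 * S.h * z.1, S.L * z.2) : ℂ) ∧
    L1.ev z S.vxx = (dx (dx v) (2 * S.h * z.1, S.L * z.2) : ℂ) ∧
    L1.ev z S.vxy = (dy (dx v) (2 * S.h * z.1, S.L * z.2) : ℂ) ∧
    L1.ev z S.vyy = (dy (dy v) (2 * S.h * z.1, S.L * z.2) : ℂ)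
  wd : ContDiff ℝ (⊤ : ℕ∞) (S.wf q t) ∧ (∀ p, dx (S.wf q t) p = 0) ∧
    (∀ p, dy (S.wf q t) p = S.fn q t (S.W2 q t) p) ∧
    ∀ p, dy (dy (S.wf q t)) p = S.fn q t (S.W22 q t) p
  sig : ∀ p, (1 : ℝ) / 2 ≤ 1 + (L1.ev ((S.lat q t).W p) (S.gam q x * S.qq q t x)).re
  c_pos : 0 < c₁ x

variable (K : Ctx S v q t x)
include K

theorem ev_est {s : ℂ} {a b c : ℤ} {T : ℕ → ℝ → Unk → L1} (hT : Est S s a b c T) (p : ℝ × ℝ) :
    L1.ev ((S.lat q t).W p) (T q t x) = (S.fn q t (T q t x) p : ℂ) := by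
  obtain ⟨C, -, h⟩ := hT
  exact ev_fn ((h q K.hq).2.2.2 t x K.sol.ball K.sol.sym).1 p

theorem real_g : L1.conjc x.2.1 = x.2.1 ∧ L1.conjc x.2.2.1 = x.2.2.1 :=
  ⟨K.sol.sym.2.2.2.1.1, K.sol.sym.2.2.2.2.1.1⟩

theorem rd_x : RD (L1.coeff x.1.1) ∧ RD (L1.coeff x.2.1) ∧ RD (L1.coeff x.2.2.1) :=
  ⟨K.sol.rd.1, K.sol.rd.2.2.2.1, K.sol.rd.2.2.2.2.1⟩

theorem contDiff_s : ContDiff ℝ (⊤ : ℕ∞) (S.sf q t x) :=
  (S.lat q t).contDiff_F (K.sol.smooth est_s₀)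

theorem ds (p : ℝ × ℝ) :
    dx (S.sf q t x) p = S.fn q t (S.sx q t x) p ∧ dy (S.sf q t x) p = S.fn q t (S.sy q t x) p ∧
    dx (dx (S.sf q t x)) p = S.fn q t (S.sxx q t x) p ∧
    dy (dx (S.sf q t x)) p = S.fn q t (S.sxy q t x) p ∧
    dy (dy (S.sf q t x)) p = S.fn q t (S.syy q t x) p := by
  obtain ⟨h1, h2⟩ := (S.lat q t).dx_M0 (rd_x K).1
  obtain ⟨h3, h4, h5⟩ := (S.lat q t).d2_M0 (rd_x K).1
  exact ⟨congrFun h1 p, congrFun h2 p, congrFun h3 p, congrFun h4 p, congrFun h5 p⟩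

theorem contDiff_z : ContDiff ℝ (⊤ : ℕ∞) (S.zc1 q t x) ∧ ContDiff ℝ (⊤ : ℕ∞) (S.zc2 q t x) :=
  ⟨contDiff_fst.add ((S.lat q t).contDiff_F
      (Solve.Lat.rd_mult _ (S.lat q t).C_nonneg (rd_x K).2.1)),
    (contDiff_const.mul contDiff_snd).add ((S.lat q t).contDiff_F
      (Solve.Lat.rd_mult _ (S.lat q t).C_nonneg (rd_x K).2.2))⟩

theorem dz :
    dx (S.zc1 q t x) = S.fn q t (S.z1x q t x) ∧ dy (S.zc1 q t x) = S.fn q t (S.z1y q t x) ∧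
    dx (S.zc2 q t x) = S.fn q t (S.z2x q t x) ∧ dy (S.zc2 q t x) = S.fn q t (S.z2y q t x) ∧
    dx (dx (S.zc1 q t x)) = S.fn q t ((S.lat q t).Mxx x.2.1) ∧
    dy (dx (S.zc1 q t x)) = S.fn q t ((S.lat q t).Mxy x.2.1) ∧
    dy (dy (S.zc1 q t x)) = S.fn q t ((S.lat q t).Myy x.2.1) ∧
    dx (dx (S.zc2 q t x)) = S.fn q t ((S.lat q t).Mxx x.2.2.1) ∧
    dy (dx (S.zc2 q t x)) = S.fn q t ((S.lat q t).Mxy x.2.2.1) ∧
    dy (dy (S.zc2 q t x)) = S.fn q t ((S.lat q t).Myy x.2.2.1) := by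
  obtain ⟨-, r1, r2⟩ := rd_x K
  set Λ := S.lat q t
  have d1 : ∀ p, HasFDerivAt (S.zc1 q t x)
      (ContinuousLinearMap.fst ℝ ℝ ℝ + fderiv ℝ (Λ.F (Λ.M0 x.2.1)) p) p := fun p =>
    hasFDerivAt_fst.add ((Λ.contDiff_F (Solve.Lat.rd_mult _ Λ.C_nonneg r1)).differentiable
      (by simp) p).hasFDerivAt
  have d2 : ∀ p, HasFDerivAt (S.zc2 q t x) ((S.L / S.P q t) • ContinuousLinearMap.snd ℝ ℝ ℝ
      + fderiv ℝ (Λ.F (Λ.M0 x.2.2.1)) p) p := fun p =>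
    (hasFDerivAt_snd.const_mul _).add ((Λ.contDiff_F
      (Solve.Lat.rd_mult _ Λ.C_nonneg r2)).differentiable (by simp) p).hasFDerivAt
  obtain ⟨a1, b1⟩ := Λ.dx_M0 r1
  obtain ⟨a2, b2⟩ := Λ.dx_M0 r2
  have F_add : ∀ (a b : L1) (p : ℝ × ℝ), Λ.F (a + b) p = Λ.F a p + Λ.F b p := fun a b p => by
    simp [Solve.Lat.F]
  have e1 : dx (S.zc1 q t x) = fun p => 1 + dx (Λ.F (Λ.M0 x.2.1)) p := funext fun p => by
    rw [dx, (d1 p).fderiv]; simp [dx]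
  have e2 : dy (S.zc1 q t x) = dy (Λ.F (Λ.M0 x.2.1)) := funext fun p => by
    rw [dy, (d1 p).fderiv]; simp [dy]
  have e3 : dx (S.zc2 q t x) = dx (Λ.F (Λ.M0 x.2.2.1)) := funext fun p => by
    rw [dx, (d2 p).fderiv]; simp [dx]
  have e4 : dy (S.zc2 q t x) = fun p => S.L / S.P q t + dy (Λ.F (Λ.M0 x.2.2.1)) p :=
    funext fun p => by rw [dy, (d2 p).fderiv]; simp [dy]
  have k1 : ∀ (c : ℝ) (f : ℝ × ℝ → ℝ), dx (fun p => c + f p) = dx f ∧ dy (fun p => c + f p) = dy f :=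
    fun c f => ⟨funext fun p => by simp [dx], funext fun p => by simp [dy]⟩
  obtain ⟨c1, c2, c3⟩ := Λ.d2_M0 r1
  obtain ⟨c4, c5, c6⟩ := Λ.d2_M0 r2
  refine ⟨?_, e2.trans b1, e3.trans a2, ?_, ?_, ?_, ?_, ?_, ?_, ?_⟩
  · rw [e1, a1]; funext p; simp [fn, z1x, Solve.Lat.F, L1.ev_one, Λ]
  · rw [e4, b2]; funext p; simp [fn, z2y, Solve.Lat.F, L1.ev_one, Λ]
  · rw [e1, (k1 _ _).1, c1]; rfl
  · rw [e1, (k1 _ _).2, c2]; rfl
  · rw [e2, c3]; rfl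
  · rw [e3, c4]; rfl
  · rw [e3, c5]; rfl
  · rw [e4, (k1 _ _).2, c6]; rfl

theorem ev_cmp {u : L1} {g : ℝ × ℝ → ℝ} (hu : u ∈ [S.vx, S.vy, S.vxx, S.vxy, S.vyy])
    (he : ∀ z : ℝ × ℝ, L1.ev z u = (g (2 * S.h * z.1, S.L * z.2) : ℂ)) (p : ℝ × ℝ) :
    L1.ev ((S.lat q t).W p) (S.cmp u q t x) = (g (S.zmap q t x p) : ℂ) := by
  have hrd : RD (L1.coeff u) := by
    obtain ⟨r1, r2, r3, r4, r5⟩ := S.rd_v
    simp only [List.mem_cons, List.not_mem_nil, or_false] at hu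
    rcases hu with rfl | rfl | rfl | rfl | rfl <;> assumption
  obtain ⟨⟨_, _, _, _, a0, -⟩, _, _, _, _, a1, -⟩ := small_xi K.hq t le_rfl K.sol.ball
  obtain ⟨g1, g2⟩ := real_g K
  rw [cmp, ev_comp hrd a0 a1, ← L1.ev_apply, he, W_lat]
  congr 2
  have hh := S.h_pos
  have hL := S.L_pos
  have hP := S.P_pos q t
  simp only [xi0, xi1, rep_of_real g1, rep_of_real g2, map_smul, smul_eq_mul,
    Complex.re_ofReal_mul, zmap, zc1, zc2, fn, Solve.Lat.F, W_lat, Prod.mk.injEq]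
  constructor <;> field_simp

theorem ev_v (p : ℝ × ℝ) :
    L1.ev ((S.lat q t).W p) (S.cmp S.vx q t x) = (dx v (S.zmap q t x p) : ℂ) ∧
    L1.ev ((S.lat q t).W p) (S.cmp S.vy q t x) = (dy v (S.zmap q t x p) : ℂ) ∧
    L1.ev ((S.lat q t).W p) (S.cmp S.vxx q t x) = (dx (dx v) (S.zmap q t x p) : ℂ) ∧
    L1.ev ((S.lat q t).W p) (S.cmp S.vxy q t x) = (dy (dx v) (S.zmap q t x p) : ℂ) ∧
    L1.ev ((S.lat q t).W p) (S.cmp S.vyy q t x) = (dy (dy v) (S.zmap q t x p) : ℂ) :=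
  ⟨ev_cmp K (by simp) (fun z => (K.v_eq z).1) p, ev_cmp K (by simp) (fun z => (K.v_eq z).2.1) p,
    ev_cmp K (by simp) (fun z => (K.v_eq z).2.2.1) p,
    ev_cmp K (by simp) (fun z => (K.v_eq z).2.2.2.1) p,
    ev_cmp K (by simp) (fun z => (K.v_eq z).2.2.2.2) p⟩

theorem contDiff_u : ContDiff ℝ (⊤ : ℕ∞) (S.uf v q t x) := by
  obtain ⟨h1, h2⟩ := contDiff_z K
  exact (((K.hv.comp (h1.prodMk h2)).add (contDiff_s K)).sub K.wd.1).add contDiff_const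

/-- The gradient of `u`. -/
theorem du (p e : ℝ × ℝ) :
    fderiv ℝ (S.uf v q t x) p e = dx v (S.zmap q t x p) * fderiv ℝ (S.zc1 q t x) p e
      + dy v (S.zmap q t x p) * fderiv ℝ (S.zc2 q t x) p e
      + fderiv ℝ (S.sf q t x) p e - fderiv ℝ (S.wf q t) p e := by
  obtain ⟨h1, h2⟩ := contDiff_z K
  have hc : ContDiff ℝ (⊤ : ℕ∞) (fun y => v (S.zc1 q t x y, S.zc2 q t x y)) :=
    K.hv.comp (h1.prodMk h2)
  have h : HasFDerivAt (S.uf v q t x) _ p :=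
    (((hc.differentiable (by simp) p).hasFDerivAt.add
      ((contDiff_s K).differentiable (by simp) p).hasFDerivAt).sub
      (K.wd.1.differentiable (by simp) p).hasFDerivAt).add_const (Real.log (c₁ x))
  rw [h.fderiv]
  simp only [add_apply, sub_apply, zmap, fderiv_comp_pair K.hv h1 h2]

theorem du_eq :
    (dx (S.uf v q t x) = fun p => dx v (S.zmap q t x p) * dx (S.zc1 q t x) p
      + dy v (S.zmap q t x p) * dx (S.zc2 q t x) p + dx (S.sf q t x) p) ∧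
    (dy (S.uf v q t x) = fun p => dx v (S.zmap q t x p) * dy (S.zc1 q t x) p
      + dy v (S.zmap q t x p) * dy (S.zc2 q t x) p + dy (S.sf q t x) p - dy (S.wf q t) p) :=
  ⟨funext fun p => by
      simp only [dx, du K]
      rw [show fderiv ℝ (S.wf q t) p (1, 0) = 0 from K.wd.2.1 p, sub_zero],
    funext fun p => du K p (0, 1)⟩

theorem ev_pa (p : ℝ × ℝ) :
    L1.ev ((S.lat q t).W p) (S.pa q t x) = (dx (S.uf v q t x) p : ℂ) ∧
    L1.ev ((S.lat q t).W p) (S.pb q t x) = (dy (S.uf v q t x) p : ℂ) := by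
  obtain ⟨a, b, -⟩ := ev_v K p
  obtain ⟨d1, d2, d3, d4, -⟩ := dz K
  obtain ⟨s1, s2, -⟩ := ds K p
  rw [congrFun (du_eq K).1 p, congrFun (du_eq K).2 p, K.wd.2.2.1 p, d1, d2, d3, d4, s1, s2]
  constructor
  · simp only [pa, map_add, L1.ev_mul, a, b, ev_est K est_z1x, ev_est K est_z2x, ev_est K est_sx]
    push_cast; ring
  · simp only [pb, map_add, map_sub, L1.ev_mul, a, b, ev_est K est_z1y, ev_est K est_z2y,
      ev_est K est_sy, ev_est K est_W2]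
    push_cast; ring

theorem ev_hess (p : ℝ × ℝ) :
    L1.ev ((S.lat q t).W p) (S.H11 q t x) = (dx (dx (S.uf v q t x)) p : ℂ) ∧
    L1.ev ((S.lat q t).W p) (S.H12 q t x) = (dy (dx (S.uf v q t x)) p : ℂ) ∧
    L1.ev ((S.lat q t).W p) (S.H22 q t x) = (dy (dy (S.uf v q t x)) p : ℂ) := by
  obtain ⟨a, b, c, d, g⟩ := ev_v K p
  obtain ⟨h1, h2⟩ := contDiff_z K
  obtain ⟨d1, d2, d3, d4, d5, d6, d7, d8, d9, d10⟩ := dz K
  obtain ⟨-, -, s3, s4, s5⟩ := ds K p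
  have hvx := contDiff_dx K.hv
  have hvy := contDiff_dy K.hv
  have hs := contDiff_s K
  have D : ∀ {f : ℝ × ℝ → ℝ}, ContDiff ℝ (⊤ : ℕ∞) f → HasFDerivAt f (fderiv ℝ f p) p :=
    fun hf => (hf.differentiable (by simp) p).hasFDerivAt
  have ka : HasFDerivAt (fun y => dx v (S.zmap q t x y) * dx (S.zc1 q t x) y
      + dy v (S.zmap q t x y) * dx (S.zc2 q t x) y + dx (S.sf q t x) y) _ p :=
    (((D (hvx.comp (h1.prodMk h2))).mul (D (contDiff_dx h1))).add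
      ((D (hvy.comp (h1.prodMk h2))).mul (D (contDiff_dx h2)))).add (D (contDiff_dx hs))
  have kb : HasFDerivAt (fun y => dx v (S.zmap q t x y) * dy (S.zc1 q t x) y
      + dy v (S.zmap q t x y) * dy (S.zc2 q t x) y + dy (S.sf q t x) y - dy (S.wf q t) y) _ p :=
    ((((D (hvx.comp (h1.prodMk h2))).mul (D (contDiff_dy h1))).add
      ((D (hvy.comp (h1.prodMk h2))).mul (D (contDiff_dy h2)))).add (D (contDiff_dy hs))).sub
        (D (contDiff_dy K.wd.1))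
  obtain ⟨e1, e2⟩ := du_eq K
  rw [e1, e2, dx, dy, dy, ka.fderiv, kb.fderiv]
  have cp : ∀ {f : ℝ × ℝ → ℝ}, ContDiff ℝ (⊤ : ℕ∞) f → ∀ e,
      fderiv ℝ (f ∘ fun y => (S.zc1 q t x y, S.zc2 q t x y)) p e
        = dx f (S.zmap q t x p) * fderiv ℝ (S.zc1 q t x) p e
          + dy f (S.zmap q t x p) * fderiv ℝ (S.zc2 q t x) p e :=
    fun hf e => fderiv_comp_pair hf h1 h2 p e
  simp only [add_apply, sub_apply, smul_apply, smul_eq_mul, cp hvx, cp hvy, Function.comp_apply,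
    dx_dy K.hv]
  simp only [show ∀ (f : ℝ × ℝ → ℝ), fderiv ℝ f p (1, 0) = dx f p from fun _ => rfl,
    show ∀ (f : ℝ × ℝ → ℝ), fderiv ℝ f p (0, 1) = dy f p from fun _ => rfl,
    K.wd.2.2.2 p, d5, d6, d7, d8, d9, d10, s3, s4, s5]
  simp only [d1, d2, d3, d4, zmap]
  simp only [H11, H12, H22, map_add, map_sub, L1.ev_mul, a, b, c, d, g, zmap,
    ev_est K est_z1x, ev_est K est_z1y, ev_est K est_z2x, ev_est K est_z2y,
    ev_est K est_sxx, ev_est K est_sxy, ev_est K est_syy, ev_est K est_W22,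
    ev_est K (est_Mxx est_g1), ev_est K (est_Mxx est_g2), ev_est K (est_Mxy est_g1),
    ev_est K (est_Mxy est_g2), ev_est K (est_Myy est_g1), ev_est K (est_Myy est_g2)]
  push_cast
  refine ⟨?_, ?_, ?_⟩ <;> ring

/-- The solution satisfies the hypotheses of the calculus. -/
theorem hyp : Frame.Hyp (S.uf v q t x) (S.sf q t x) (S.wf q t) (S.gf q t x) (S.eps q) ∧
    ∀ p, S.fn q t x.1.2.2 p = (Frame.fσ (S.uf v q t x) (S.gf q t x) p)⁻¹ := by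
  set Λ := S.lat q t
  have hg : ∀ p, L1.ev (Λ.W p) x.1.2.1 = (S.fn q t x.1.2.1 p : ℂ) := fun p => ev_est K est_gam p
  have hi : ∀ p, L1.ev (Λ.W p) x.1.2.2 = (S.fn q t x.1.2.2 p : ℂ) := fun p => ev_est K est_iot p
  have hw : ∀ p, L1.ev (Λ.W p) (S.W0 q t) = (S.wf q t p : ℂ) := fun p => ev_est K est_W0 p
  have hQ : ∀ p, L1.ev (Λ.W p) (S.qq q t x) = (Frame.fQ (S.uf v q t x) p : ℂ) := fun p => by
    simp only [qq, map_add, L1.ev_mul, (ev_pa K p).1, (ev_pa K p).2, Frame.fQ, Λ]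
    push_cast; rfl
  have eF := congrArg (fun u : L1 × L1 × L1 => u.2) K.sol.eqF
  have e1 : S.Fg q t x = x.1.2.1 := congrArg Prod.fst eF
  have e2 : S.Fi q t x = x.1.2.2 := congrArg Prod.snd eF
  have hσ : ∀ p, Frame.fσ (S.uf v q t x) (S.gf q t x) p * S.fn q t x.1.2.2 p = 1 ∧
      1 / 2 ≤ Frame.fσ (S.uf v q t x) (S.gf q t x) p := fun p => by
    have h := congrArg (L1.ev (Λ.W p)) e2
    simp only [Fi, gam, map_sub, L1.ev_one, L1.ev_mul, map_smul, smul_eq_mul, hg, hi, hQ] at h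
    have h1 := congrArg Complex.re h
    norm_cast at h1
    have h2 := K.sig p
    simp only [gam, L1.ev_mul, map_smul, smul_eq_mul, hg, hQ, Λ] at h2
    norm_cast at h2
    simp only [Frame.fσ, gf]
    exact ⟨by linarith, h2⟩
  refine ⟨⟨contDiff_u K, contDiff_s K, K.wd.1,
    contDiff_const.mul (Λ.contDiff_F K.sol.rd.2.1), K.wd.2.1, fun p => ?_,
    fun p => (by linarith [(hσ p).2] : (0 : ℝ) < _).ne'⟩,
    fun p => eq_inv_of_mul_eq_one_right (hσ p).1⟩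
  have h := congrArg (L1.ev (Λ.W p)) e1
  simp only [Fg, e2w, map_sub, map_smul, smul_eq_mul, L1.ev_mul, L1.ev_exp, hg, hQ, hw] at h
  have h1 := congrArg Complex.re h
  simp only [← Complex.ofReal_mul, ← Complex.ofReal_exp, ← Complex.ofReal_sub,
    Complex.ofReal_re] at h1
  simp only [Frame.fχ, gf]
  linear_combination (-2 * S.eps q) * h1

end Setup

end P205.Klein
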