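import Vale.Agent.P205.Klein.Bridge

/-!
P205, Klein bottle: the system evaluated on a solution.
-/

namespace P205.Klein

open P205.Tori P205.Tori.Fourier

theorem ev_cexp {u θ : L1} {z : ℝ × ℝ} {r φ : ℝ} (hu : L1.ev z u = (r : ℂ))
    (hθ : L1.ev z θ = (φ : ℂ)) :
    L1.ev z (Est.cexpc u θ) = ((Real.exp r * Real.cos φ : ℝ) : ℂ) ∧
      L1.ev z (Est.cexps u θ) = ((Real.exp r * Real.sin φ : ℝ) : ℂ) := by
  have e : ∀ κ : ℂ, L1.ev z (Est.rotE κ u θ) = Complex.exp r * Complex.exp (κ * φ) := fun κ => by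
    rw [Est.rotE, L1.ev_exp, map_add, map_smul, smul_eq_mul, hu, hθ, Complex.exp_add]
  simp only [Est.cexpc, Est.cexps, map_add, map_sub, map_smul, smul_eq_mul, e]
  push_cast
  constructor
  · rw [Complex.cos]; ring_nf
  · rw [Complex.sin]; ring_nf

namespace Setup

variable {S : Setup} {v : ℝ × ℝ → ℝ} {q : ℕ} {t : ℝ} {x : Unk} (K : Ctx S v q t x)
include K

theorem ev_first (p : ℝ × ℝ) :
    let U := S.uf v q t x
    let s := S.sf q t x
    let w := S.wf q t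
    let g := S.gf q t x
    let z := (S.lat q t).W p
    L1.ev z (S.qq q t x) = (Frame.fQ U p : ℂ) ∧
    L1.ev z (S.gam q x) = (g p : ℂ) ∧
    L1.ev z (S.chi q t) = (Frame.fχ w (S.eps q) p : ℂ) ∧
    L1.ev z (S.sig q t x) = (Frame.fσ U g p : ℂ) ∧
    L1.ev z (S.xi q t x) = (Frame.fξ U s w p : ℂ) ∧
    L1.ev z (S.V1 q t x) = (Frame.fV1 U p : ℂ) ∧
    L1.ev z (S.V2 q t x) = (Frame.fV2 U p : ℂ) ∧
    L1.ev z (S.sx q t x) = (dx s p : ℂ) ∧
    L1.ev z (S.sy q t x) = (dy s p : ℂ) ∧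
    L1.ev z (S.W2 q t) = (dy w p : ℂ) := by
  intro U s w g z
  obtain ⟨a, b⟩ := ev_pa K p
  obtain ⟨A, B, C⟩ := ev_hess K p
  obtain ⟨s1, s2, -⟩ := ds K p
  have hw : L1.ev z (S.W0 q t) = (w p : ℂ) := ev_est K est_W0 p
  have hW2 : L1.ev z (S.W2 q t) = (dy w p : ℂ) := by rw [K.wd.2.2.1 p]; exact ev_est K est_W2 p
  have hQ : L1.ev z (S.qq q t x) = (Frame.fQ U p : ℂ) := by
    simp only [qq, map_add, L1.ev_mul, a, b, Frame.fQ, z, U]; push_cast; rfl
  have hg : L1.ev z (S.gam q x) = (g p : ℂ) := by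
    simp only [gam, map_smul, smul_eq_mul, ev_est K est_gam, g, gf, z]; push_cast; rfl
  have hx : L1.ev z (S.sx q t x) = (dx s p : ℂ) := by rw [s1]; exact ev_est K est_sx p
  have hy : L1.ev z (S.sy q t x) = (dy s p : ℂ) := by rw [s2]; exact ev_est K est_sy p
  refine ⟨hQ, hg, ?_, ?_, ?_, ?_, ?_, hx, hy, hW2⟩
  · simp only [chi, e2w, map_smul, smul_eq_mul, L1.ev_exp, hw, Frame.fχ]
    push_cast; rfl
  · simp only [sig, map_add, L1.ev_one, L1.ev_mul, hQ, hg, Frame.fσ]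
    push_cast; rfl
  · simp only [xi, Ry, map_sub, L1.ev_mul, hx, hy, hW2, Frame.fξ]
    simp only [z, a, b, U]; push_cast; rfl
  · simp only [V1, map_sub, L1.ev_mul, Frame.fV1]
    simp only [z, a, b, A, B, U]; push_cast; rfl
  · simp only [V2, map_sub, L1.ev_mul, Frame.fV2]
    simp only [z, a, b, B, C, U]; push_cast; rfl

theorem ev_N (p : ℝ × ℝ) :
    let U := S.uf v q t x
    let s := S.sf q t x
    let w := S.wf q t
    let g := S.gf q t x
    let z := (S.lat q t).W p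
    L1.ev z (S.N1 q t x) = (Frame.fN1 U s w g (S.eps q) p : ℂ) ∧
    L1.ev z (S.N2 q t x) = (Frame.fN2 U s w g (S.eps q) p : ℂ) ∧
    L1.ev z (S.T1 q t x) = (Frame.fT1 U s w g (S.eps q) p : ℂ) ∧
    L1.ev z (S.T2 q t x) = (Frame.fT2 U s w g (S.eps q) p : ℂ) ∧
    L1.ev z x.1.2.2 = ((Frame.fσ U g p)⁻¹ : ℝ) := by
  intro U s w g z
  obtain ⟨a, b⟩ := ev_pa K p
  obtain ⟨-, hg, hX, -, hξ, h1, h2, hx, hy, -⟩ := ev_first K p
  have hi : L1.ev z x.1.2.2 = ((Frame.fσ U g p)⁻¹ : ℝ) := by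
    rw [show (Frame.fσ U g p)⁻¹ = S.fn q t x.1.2.2 p from ((hyp K).2 p).symm]
    exact ev_est K est_iot p
  have n1 : L1.ev z (S.N1 q t x) = (Frame.fN1 U s w g (S.eps q) p : ℂ) := by
    simp only [N1, map_add, map_neg, L1.ev_mul, Frame.fN1, z, a, b, hg, hX, hξ, h1, hy, U, s, w, g]
    push_cast; rfl
  have n2 : L1.ev z (S.N2 q t x) = (Frame.fN2 U s w g (S.eps q) p : ℂ) := by
    simp only [N2, map_add, L1.ev_mul, Frame.fN2, z, a, b, hg, hX, hξ, h2, hx, U, s, w, g]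
    push_cast; rfl
  refine ⟨n1, n2, ?_, ?_, hi⟩
  · simp only [T1, L1.ev_mul, n1, hi, Frame.fT1]; push_cast; ring
  · simp only [T2, L1.ev_mul, n2, hi, Frame.fT2]; push_cast; ring

/-- The first equation. -/
theorem fn_f (p : ℝ × ℝ) :
    S.fn q t x.1.1 p
      = Frame.fG (S.uf v q t x) (S.sf q t x) (S.wf q t) (S.gf q t x) (S.eps q) p := by
  obtain ⟨a, b⟩ := ev_pa K p
  obtain ⟨A, B, C⟩ := ev_hess K p
  obtain ⟨-, -, s3, s4, s5⟩ := ds K p
  obtain ⟨hQ, hg, hX, hσ, hξ, h1, h2, hx, hy, hW⟩ := ev_first K p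
  obtain ⟨n1, n2, -⟩ := ev_N K p
  have hW22 : L1.ev ((S.lat q t).W p) (S.W22 q t) = (dy (dy (S.wf q t)) p : ℂ) := by
    rw [K.wd.2.2.2 p]; exact ev_est K est_W22 p
  have hxx : L1.ev ((S.lat q t).W p) (S.sxx q t x) = (dx (dx (S.sf q t x)) p : ℂ) := by
    rw [s3]; exact ev_est K est_sxx p
  have hxy : L1.ev ((S.lat q t).W p) (S.sxy q t x) = (dy (dx (S.sf q t x)) p : ℂ) := by
    rw [s4]; exact ev_est K est_sxy p
  have hyy : L1.ev ((S.lat q t).W p) (S.syy q t x) = (dy (dy (S.sf q t x)) p : ℂ) := by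
    rw [s5]; exact ev_est K est_syy p
  have e : S.GG q t x = x.1.1 := congrArg Prod.fst K.sol.eqF
  have key : L1.ev ((S.lat q t).W p) (S.GG q t x)
      = ((Frame.fG (S.uf v q t x) (S.sf q t x) (S.wf q t) (S.gf q t x) (S.eps q) p : ℝ) : ℂ) := by
    simp only [GG, XX, YY, gx, gy, xix, xiy, eta, det, ph1, ph2, Ry, Ryy, map_add, map_sub,
      map_neg, L1.ev_mul, a, b, A, B, C, hQ, hg, hX, hσ, hξ, h1, h2, hx, hy, hW, hW22, hxx, hxy,
      hyy, n1, n2, Frame.fG, Frame.fgx, Frame.fgy]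
    push_cast
    ring
  rw [e] at key
  rw [fn, Solve.Lat.F, key, Complex.ofReal_re]

theorem ev_K (p : ℝ × ℝ) :
    let U := S.uf v q t x
    let s := S.sf q t x
    let w := S.wf q t
    let g := S.gf q t x
    let ι := (Frame.fσ U g p)⁻¹
    let T₁ := Frame.fT1 U s w g (S.eps q) p
    let T₂ := Frame.fT2 U s w g (S.eps q) p
    let a := dx U p
    let b := dy U p
    let A := dx (dx U) p
    let B := dy (dx U) p
    let C := dy (dy U) p
    let z := (S.lat q t).W p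
    L1.ev z (S.a11 q t x) = (Frame.fA11 U g p : ℂ) ∧
    L1.ev z (S.a12 q t x) = (Frame.fA12 U g p : ℂ) ∧
    L1.ev z (S.a22 q t x) = (Frame.fA22 U g p : ℂ) ∧
    L1.ev z (S.K1 q t x) = ((dx s p * Frame.fA11 U g p + dy s p * Frame.fA12 U g p
      + ι * (Frame.fgx U g p * (a * a) + Frame.fgy U w g (S.eps q) p * (a * b))
      + g p * (a * A + a * A + B * b + a * C)
      - (T₁ * Frame.fA12 U g p + T₂ * Frame.fA22 U g p) : ℝ) : ℂ) ∧
    L1.ev z (S.K2 q t x) = ((dx s p * Frame.fA12 U g p + dy s p * Frame.fA22 U g p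
      + ι * (Frame.fgx U g p * (a * b) + Frame.fgy U w g (S.eps q) p * (b * b))
      + g p * (A * b + a * B + b * C + b * C)
      + (T₁ * Frame.fA11 U g p + T₂ * Frame.fA12 U g p) : ℝ) : ℂ) := by
  obtain ⟨a, b⟩ := ev_pa K p
  obtain ⟨A, B, C⟩ := ev_hess K p
  obtain ⟨-, hg, hX, -, -, -, -, hx, hy, hW⟩ := ev_first K p
  obtain ⟨-, -, t1, t2, hi⟩ := ev_N K p
  intro U s w g ι T₁ T₂ a' b' A' B' C' z
  have e11 : L1.ev z (S.a11 q t x) = (Frame.fA11 U g p : ℂ) := by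
    simp only [a11, map_add, L1.ev_one, L1.ev_mul, Frame.fA11, z, a, hg, U, g]; push_cast; rfl
  have e12 : L1.ev z (S.a12 q t x) = (Frame.fA12 U g p : ℂ) := by
    simp only [a12, L1.ev_mul, Frame.fA12, z, a, b, hg, U, g]; push_cast; rfl
  have e22 : L1.ev z (S.a22 q t x) = (Frame.fA22 U g p : ℂ) := by
    simp only [a22, map_add, L1.ev_one, L1.ev_mul, Frame.fA22, z, b, hg, U, g]; push_cast; rfl
  simp only [z, U, g] at e11 e12 e22
  refine ⟨e11, e12, e22, ?_, ?_⟩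
  · simp only [K1, gx, gy, ph1, ph2, map_add, map_sub, map_neg, L1.ev_mul, z, a, b, A, B, C, hg,
      hX, hx, hy, hW, t1, t2, hi, e11, e12, e22, U, s, w, g, ι, T₁, T₂, a', b', A', B', C',
      Frame.fgx, Frame.fgy]
    push_cast
    ring
  · simp only [K2, gx, gy, ph1, ph2, map_add, map_sub, map_neg, L1.ev_mul, z, a, b, A, B, C, hg,
      hX, hx, hy, hW, t1, t2, hi, e11, e12, e22, U, s, w, g, ι, T₁, T₂, a', b', A', B', C',
      Frame.fgx, Frame.fgy]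
    push_cast
    ring

end Setup

end P205.Klein
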