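import Vale.Agent.P205.Klein.Est

/-!
P205, Klein bottle: the statements that join the analytic part to the data and to the immersion.
-/

namespace P205.Klein

open P205.Tori P205.Tori.Fourier

/-- The analytic data belongs to the function `v` and to the profiles. -/
structure Linked (S : Setup) (v : ℝ × ℝ → ℝ) (C c₀ : ℝ)
    (D : ∀ q ∈ S.Q, ProfileData S.h S.L C c₀ q) : Prop where
  pos : ∀ q ∈ S.Q, 0 < q
  small : ∀ δ : ℝ, 0 < δ → ∃ q ∈ S.Q, S.η q ≤ δ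
  eps_eq : ∀ q ∈ S.Q, S.eps q = (S.h / (q * Real.pi)) ^ 2
  P_eq : ∀ q (hq : q ∈ S.Q), ∀ t ∈ Set.Icc (0 : ℝ) 1, S.P q t = (D q hq).P t
  v_eq : ∀ z : ℝ × ℝ,
    L1.ev z S.vx = (dx v (2 * S.h * z.1, S.L * z.2) : ℂ) ∧
    L1.ev z S.vy = (dy v (2 * S.h * z.1, S.L * z.2) : ℂ) ∧
    L1.ev z S.vxx = (dx (dx v) (2 * S.h * z.1, S.L * z.2) : ℂ) ∧
    L1.ev z S.vxy = (dy (dx v) (2 * S.h * z.1, S.L * z.2) : ℂ) ∧
    L1.ev z S.vyy = (dy (dy v) (2 * S.h * z.1, S.L * z.2) : ℂ)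
  W_eq : ∀ q (hq : q ∈ S.Q), ∀ t ∈ Set.Icc (0 : ℝ) 1, ∀ z : ℝ × ℝ,
    L1.ev z (S.W0 q t) = (((D q hq).ω t ((D q hq).k * z.2) : ℝ) : ℂ) ∧
    L1.ev z (S.W2 q t) = (((D q hq).k / (D q hq).P t
      * deriv ((D q hq).ω t) ((D q hq).k * z.2) : ℝ) : ℂ) ∧
    L1.ev z (S.W22 q t) = ((((D q hq).k / (D q hq).P t) ^ 2
      * deriv (deriv ((D q hq).ω t)) ((D q hq).k * z.2) : ℝ) : ℂ)

/-- Module Data: analytic data exists for every rectangle and every conformal factor. -/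
def LinkStmt : Prop :=
  ∀ h L : ℝ, 0 < h → 0 < L → ∀ v : ℝ × ℝ → ℝ, ContDiff ℝ (⊤ : ℕ∞) v →
    Periodic2 v (2 * h, 0) (0, L) → (∀ z, v (glide h z) = v z) →
    ∃ (S : Setup) (C c₀ : ℝ) (D : ∀ q ∈ S.Q, ProfileData S.h S.L C c₀ q),
      S.h = h ∧ S.L = L ∧ 0 < c₀ ∧ Linked S v C c₀ D

/-- Module Closing: from the conformal change of coordinates to the immersion. -/
def ClosingStmt : Prop :=
  ∀ (h L C c₀ : ℝ) (q : ℕ), 0 < h → 0 < L → 0 < q → ∀ D : ProfileData h L C c₀ q,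
    ∀ t ∈ Set.Icc (0 : ℝ) 1, ∀ v : ℝ × ℝ → ℝ, ContDiff ℝ (⊤ : ℕ∞) v →
    Periodic2 v (2 * h, 0) (0, L) → (∀ p, v (glide h p) = v p) →
    ∀ (u : ℝ × ℝ → ℝ) (z : ℝ × ℝ → ℝ × ℝ), ContDiff ℝ (⊤ : ℕ∞) u → ContDiff ℝ (⊤ : ℕ∞) z →
      Periodic2 u (2 * h, 0) (0, D.P t) → (∀ p, u (glide h p) = u p) →
      (∀ p, z (p + (2 * h, 0)) = z p + (2 * h, 0) ∧ z (p + (0, D.P t)) = z p + (0, L)) →
      (∀ p, z (glide h p) = glide h (z p)) →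
      (∀ p w w', Real.exp (2 * v (z p)) * dot (fderiv ℝ z p w) (fderiv ℝ z p w')
        = Real.exp (2 * u p) * ((h / (q * Real.pi)) ^ 2 * (fderiv ℝ u p w * fderiv ℝ u p w')
          + Real.exp (2 * D.ω t (D.k * (p.2 / D.P t))) * dot w w')) →
      ∃ F : ℝ × ℝ → R4, ContDiff ℝ (⊤ : ℕ∞) F ∧ Periodic2 F (2 * h, 0) (0, L) ∧
        (∀ p, F (glide h p) = F p) ∧
        ∀ p w w', inner ℝ (fderiv ℝ F p w) (fderiv ℝ F p w') = Real.exp (2 * v p) * dot w w'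

end P205.Klein
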