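import Vale.Agent.P205.Tori.Main
import Vale.Agent.P205.Tori.Uniform
import Vale.Agent.P205.Tori.GlobalInverse
import Vale.Agent.P205.Klein.Parts

/-!
P205, Klein bottle, module Closing (notes/P205/KLEIN.md): the immersion from the conformal change
of coordinates and the profile.
-/

namespace P205.Klein

open P205.Tori

/-- A map with the periods of a linear one is at bounded distance from it. -/
theorem bounded_sub {z : ℝ × ℝ → ℝ × ℝ} (hz : Continuous z) {a P L : ℝ} (ha : a ≠ 0) (hP : P ≠ 0)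
    (hzp : ∀ p, z (p + (a, 0)) = z p + (a, 0) ∧ z (p + (0, P)) = z p + (0, L)) :
    ∃ C : ℝ, ∀ p, ‖z p - (p.1, L / P * p.2)‖ ≤ C := by
  obtain ⟨t₀, ht₀⟩ := P205.Tori.Fourier.exists_max_per
    (f := fun t : ℝ × ℝ => ‖z (a * t.1, P * t.2) - (a * t.1, L / P * (P * t.2))‖)
    (by fun_prop)
    (fun t => by
      have h1 : z (a * (t.1 + 1), P * t.2) = z (a * t.1, P * t.2) + (a, 0) := by
        rw [← (hzp _).1]; congr 1; ext <;> simp; ring
      have h2 : z (a * t.1, P * (t.2 + 1)) = z (a * t.1, P * t.2) + (0, L) := by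
        rw [← (hzp _).2]; congr 1; ext <;> simp; ring
      constructor <;>
        simp only [Prod.fst_add, Prod.snd_add, add_zero, h1, h2] <;>
        congr 1 <;> ext <;> simp <;> field_simp <;> ring)
  refine ⟨_, fun p => le_trans (le_of_eq ?_) (ht₀ (p.1 / a, p.2 / P))⟩
  simp only [mul_div_cancel₀ _ ha, mul_div_cancel₀ _ hP]

/-- The closing of the construction. -/
theorem closing : ClosingStmt := by
  intro h L C c₀ q hh hL hq D t ht v hv _ _ u z hu hz hup hug hzp hzg hm
  have hP : 0 < D.P t := lt_of_lt_of_le (by linarith) (D.P_ge t ht)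
  have hc : 0 < h / (q * Real.pi) := by positivity
  have hzd : Differentiable ℝ z := hz.differentiable (by simp)
  have hud : Differentiable ℝ u := hu.differentiable (by simp)
  have hΦd : Differentiable ℝ (D.Φ t) := (D.smooth_Φ t ht).differentiable (by simp)
  have hinj : ∀ p, Function.Injective (fderiv ℝ z p) := fun p => by
    refine (injective_iff_map_eq_zero (fderiv ℝ z p)).2 fun w hw => ?_
    have e := hm p w w
    rw [hw] at e
    simp only [dot, Prod.fst_zero, Prod.snd_zero, mul_zero, add_zero] at e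
    rw [eq_comm, mul_eq_zero, or_iff_right (Real.exp_pos _).ne'] at e
    have h0 : 0 ≤ (h / (q * Real.pi)) ^ 2 * (fderiv ℝ u p w * fderiv ℝ u p w) :=
      mul_nonneg (sq_nonneg _) (mul_self_nonneg _)
    have he : w.1 * w.1 + w.2 * w.2 ≤ 0 := by
      by_contra hn
      linarith [mul_pos (Real.exp_pos (2 * D.ω t (D.k * (p.2 / D.P t)))) (not_le.1 hn)]
    refine Prod.ext ?_ ?_ <;>
      simp only [Prod.fst_zero, Prod.snd_zero] <;> nlinarith [sq_nonneg w.1, sq_nonneg w.2]
  have hLP : L / D.P t ≠ 0 := (div_pos hL hP).ne'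
  obtain ⟨B, hB⟩ := bounded_sub hz.continuous (a := 2 * h) (by linarith) hP.ne' hzp
  obtain ⟨Y, hY, hYz, hzY⟩ := exists_smooth_inverse z
    ((ContinuousLinearEquiv.refl ℝ ℝ).prodCongr
      (ContinuousLinearEquiv.smulLeft (Units.mk0 (L / D.P t) hLP))) hz hinj
    ⟨B, fun p => by simpa using hB p⟩
  have hYd : Differentiable ℝ Y := hY.differentiable (by simp)
  let c : ℝ × ℝ → ℝ := fun p => Real.exp (u p) * (h / (q * Real.pi))
  have hcs : ContDiff ℝ (⊤ : ℕ∞) c := hu.exp.mul contDiff_const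
  let G : ℝ × ℝ → R4 := fun p => c p • D.Φ t p
  have hG : ContDiff ℝ (⊤ : ℕ∞) G := hcs.smul (D.smooth_Φ t ht)
  have key : ∀ p a b, inner ℝ (fderiv ℝ G p a) (fderiv ℝ G p b)
      = Real.exp (2 * v (z p)) * dot (fderiv ℝ z p a) (fderiv ℝ z p b) := by
    intro p a b
    rw [hm p a b]
    have hF : HasFDerivAt G _ p :=
      ((hud p).hasFDerivAt.exp.mul_const (h / (q * Real.pi))).smul (hΦd p).hasFDerivAt
    have o : ∀ y, inner ℝ (fderiv ℝ (D.Φ t) p y) (D.Φ t p) = 0 := fun y => by
      rw [real_inner_comm]; exact inner_fderiv_of_norm_one hΦd (D.norm_Φ t ht) _ _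
    rw [hF.fderiv]
    simp only [add_apply, smul_apply, ContinuousLinearMap.smulRight_apply, smul_eq_mul,
      inner_add_left, inner_add_right, inner_smul_left, inner_smul_right, o,
      inner_fderiv_of_norm_one hΦd (D.norm_Φ t ht), real_inner_self_eq_norm_sq, D.norm_Φ t ht,
      D.metric_Φ t ht, conj_trivial]
    have e : Real.exp (2 * u p) = Real.exp (u p) ^ 2 := by rw [sq, ← Real.exp_add]; ring_nf
    rw [e]
    field_simp
    ring
  refine ⟨G ∘ Y, hG.comp hY, fun p => ?_, fun p => ?_, fun p w w' => ?_⟩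
  · have e1 : Y (p + (2 * h, 0)) = Y p + (2 * h, 0) := by
      conv_lhs => rw [← hzY p, ← (hzp (Y p)).1, hYz]
    have e2 : Y (p + (0, L)) = Y p + (0, D.P t) := by
      conv_lhs => rw [← hzY p, ← (hzp (Y p)).2, hYz]
    simp only [Function.comp_apply, G, c, e1, e2, (hup _).1, (hup _).2, (D.periodic_Φ t ht _).1,
      (D.periodic_Φ t ht _).2, and_self]
  · have e : Y (glide h p) = glide h (Y p) := by
      conv_lhs => rw [← hzY p, ← hzg (Y p), hYz]
    simp only [Function.comp_apply, G, c, e, hug, D.glide_Φ t ht]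
  · have e : ∀ x, fderiv ℝ z (Y p) (fderiv ℝ Y p x) = x := fun x => by
      have h1 : z ∘ Y = id := funext hzY
      have h2 := congrArg (fun f => fderiv ℝ f p x) h1
      simpa [fderiv_comp p (hzd (Y p)) (hYd p)] using h2
    rw [fderiv_comp p ((hG.differentiable (by simp)) _) (hYd p)]
    simp only [ContinuousLinearMap.comp_apply, key, e, hzY]

end P205.Klein
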