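import Vale.Agent.P205.Klein.Sym

/-!
P205, Klein bottle: the composition of a series with the identity plus a small periodic map, in the
Wiener algebra, with polynomial bounds in all the weights.
-/

namespace P205.Klein

open P205.Tori P205.Tori.Fourier
open scoped ComplexConjugate

theorem phase_add_left (j k : Idx) (v : ℝ × ℝ) : phase (j + k) v = phase j v + phase k v := by
  simp only [phase_apply, Pi.add_apply, Int.cast_add]; push_cast; ring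

/-- Rescaling the direction. -/
theorem Der.dir {v : ℝ × ℝ} {a a' : L1} (c : ℝ) (h : Der v a a') : Der (c • v) a ((c : ℂ) • a') :=
  fun k => by
    rw [L1.coeff_smul, h k, map_smul, Complex.real_smul]; ring

/-- A small real family with two derivatives in each direction. -/
structure Small (ρ : ℝ) (ξ x₀ x₀₀ x₁ x₁₁ : L1) : Prop where
  real : L1.conjc ξ = ξ
  d₀ : Der (1, 0) ξ x₀
  d₀₀ : Der (1, 0) x₀ x₀₀
  d₁ : Der (0, 1) ξ x₁
  d₁₁ : Der (0, 1) x₁ x₁₁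
  b₀ : ‖x₀‖ ≤ ρ
  b₀₀ : ‖x₀₀‖ ≤ ρ
  b₁ : ‖x₁‖ ≤ ρ
  b₁₁ : ‖x₁₁‖ ≤ ρ

theorem Small.mix {ρ : ℝ} {ξ x₀ x₀₀ x₁ x₁₁ η y₀ y₀₀ y₁ y₁₁ : L1} (hx : Small ρ ξ x₀ x₀₀ x₁ x₁₁)
    (hy : Small ρ η y₀ y₀₀ y₁ y₁₁) {t : ℝ} (ht : t ∈ Set.Icc (0 : ℝ) 1) :
    Small ρ (η + (t : ℂ) • (ξ - η)) (y₀ + (t : ℂ) • (x₀ - y₀)) (y₀₀ + (t : ℂ) • (x₀₀ - y₀₀))
      (y₁ + (t : ℂ) • (x₁ - y₁)) (y₁₁ + (t : ℂ) • (x₁₁ - y₁₁)) := by
  have key : ∀ u w : L1, ‖u‖ ≤ ρ → ‖w‖ ≤ ρ → ‖w + (t : ℂ) • (u - w)‖ ≤ ρ := fun u w hu hw => by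
    have e : w + (t : ℂ) • (u - w) = ((1 - t : ℝ) : ℂ) • w + (t : ℂ) • u := by
      rw [Complex.ofReal_sub, Complex.ofReal_one, sub_smul, one_smul, smul_sub]; abel
    rw [e]
    refine (norm_add_le _ _).trans ?_
    rw [norm_smul, norm_smul, Complex.norm_real, Complex.norm_real,
      Real.norm_of_nonneg (sub_nonneg.2 ht.2), Real.norm_of_nonneg ht.1]
    nlinarith [ht.1, ht.2]
  exact ⟨by rw [L1.conjc_add, L1.conjc_smul, L1.conjc_sub, hx.real, hy.real],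
    hy.d₀.add ((hx.d₀.sub hy.d₀).smul _), hy.d₀₀.add ((hx.d₀₀.sub hy.d₀₀).smul _),
    hy.d₁.add ((hx.d₁.sub hy.d₁).smul _), hy.d₁₁.add ((hx.d₁₁.sub hy.d₁₁).smul _),
    key _ _ hx.b₀ hy.b₀, key _ _ hx.b₀₀ hy.b₀₀, key _ _ hx.b₁ hy.b₁, key _ _ hx.b₁₁ hy.b₁₁⟩

/-- The exponent of a term of a composition. -/
noncomputable def arg (k : Idx) (x y : L1) : L1 :=
  ((2 * Real.pi * k 0 : ℝ) : ℂ) • x + ((2 * Real.pi * k 1 : ℝ) : ℂ) • y

theorem norm_arg_le {ρ : ℝ} (k : Idx) {x y : L1} (hx : ‖x‖ ≤ ρ) (hy : ‖y‖ ≤ ρ) :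
    ‖arg k x y‖ ≤ 2 * Real.pi * nk k * ρ := by
  refine (norm_add_le _ _).trans ?_
  rw [norm_smul, norm_smul, Complex.norm_real, Complex.norm_real, Real.norm_eq_abs, Real.norm_eq_abs,
    abs_mul, abs_mul (2 * Real.pi), abs_of_pos Real.two_pi_pos, nk]
  have := Real.pi_pos
  have h1 := mul_le_mul_of_nonneg_left hx
    (by positivity : 0 ≤ 2 * Real.pi * |(k 0 : ℝ)|)
  have h2 := mul_le_mul_of_nonneg_left hy
    (by positivity : 0 ≤ 2 * Real.pi * |(k 1 : ℝ)|)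
  linarith

theorem Der.arg {v : ℝ × ℝ} {x x' y y' : L1} (k : Idx) (hx : Der v x x') (hy : Der v y y') :
    Der v (Klein.arg k x y) (Klein.arg k x' y') :=
  (hx.smul _).add (hy.smul _)

/-- The exponential of `i` times a family. -/
noncomputable def expI (a : L1) : L1 := NormedSpace.exp (Complex.I • a)

theorem norm_ev_expI {a : L1} (h : L1.conjc a = a) (z : ℝ × ℝ) : ‖L1.ev z (expI a)‖ = 1 := by
  have hr : L1.ev z a = ((L1.ev z a).re : ℂ) :=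
    (Complex.conj_eq_iff_re.1 (by rw [← L1.ev_conjc, h])).symm
  rw [expI, L1.ev_exp, map_smul, smul_eq_mul, hr, mul_comm, Complex.norm_exp_ofReal_mul_I]

theorem conjc_arg (k : Idx) {x y : L1} (hx : L1.conjc x = x) (hy : L1.conjc y = y) :
    L1.conjc (arg k x y) = arg k x y := by
  rw [arg, L1.conjc_add, L1.conjc_smul, L1.conjc_smul, hx, hy]

/-- The bound of one exponential. -/
noncomputable def expBd (n : ℕ) (δ ρ : ℝ) (k : Idx) : ℝ :=
  2 * sob * (1 + 2 * Real.pi * nk k * ρ) ^ 2 * (1 + 2 * δ * (2 * Real.pi * nk k * ρ)) ^ n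

theorem Bd_zero_iff {δ R : ℝ} {a : L1} : L1.Bd 0 δ R a ↔ ‖a‖ ≤ R := by
  constructor
  · intro h
    rw [L1.norm_eq]
    exact Real.tsum_le_of_sum_le (fun k => norm_nonneg _) fun s => by simpa [L1.wt] using h s
  · intro h s
    simp only [L1.wt, pow_zero, one_mul]
    exact ((L1.summable_norm a).sum_le_tsum s fun k _ => norm_nonneg _).trans
      ((L1.norm_eq a).symm.trans_le h)

theorem Bd_le_of_le {n m : ℕ} {δ R : ℝ} {a : L1} (hδ : 0 ≤ δ) (hm : m ≤ n) (h : L1.Bd n δ R a) :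
    L1.Bd m δ R a := fun s => by
  refine le_trans (Finset.sum_le_sum fun k _ => ?_) (h s)
  refine mul_le_mul_of_nonneg_right ?_ (norm_nonneg _)
  exact pow_le_pow_right₀ (le_add_of_nonneg_right (mul_nonneg hδ (nk_nonneg k))) hm

/-- One more weight costs the derivatives. -/
theorem Bd_succ {n : ℕ} {δ R R₀ R₁ : ℝ} {a a₀ a₁ : L1} (hδ : 0 ≤ δ) (h : L1.Bd n δ R a)
    (h₀ : Der (1, 0) a a₀) (h₁ : Der (0, 1) a a₁) (hb₀ : L1.Bd n δ R₀ a₀)
    (hb₁ : L1.Bd n δ R₁ a₁) : L1.Bd (n + 1) δ (R + δ * R₀ + δ * R₁) a := fun s => by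
  have key : ∀ k, L1.wt (n + 1) δ k * ‖L1.coeff a k‖ ≤ L1.wt n δ k * ‖L1.coeff a k‖
      + δ * (L1.wt n δ k * ‖L1.coeff a₀ k‖) + δ * (L1.wt n δ k * ‖L1.coeff a₁ k‖) := fun k => by
    have hw := L1.wt_pos (n := n) hδ k
    have e0 : |(k 0 : ℝ)| * ‖L1.coeff a k‖ ≤ ‖L1.coeff a₀ k‖ := by
      rw [h₀ k, phase_apply, norm_mul, norm_mul, Complex.norm_real, Complex.norm_I, mul_one,
        Real.norm_eq_abs]
      refine mul_le_mul_of_nonneg_right ?_ (norm_nonneg _)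
      simp only [mul_one, mul_zero, add_zero, abs_mul, abs_of_pos Real.pi_pos, abs_two]
      nlinarith [Real.pi_gt_three, abs_nonneg (k 0 : ℝ)]
    have e1 : |(k 1 : ℝ)| * ‖L1.coeff a k‖ ≤ ‖L1.coeff a₁ k‖ := by
      rw [h₁ k, phase_apply, norm_mul, norm_mul, Complex.norm_real, Complex.norm_I, mul_one,
        Real.norm_eq_abs]
      refine mul_le_mul_of_nonneg_right ?_ (norm_nonneg _)
      simp only [mul_one, mul_zero, zero_add, abs_mul, abs_of_pos Real.pi_pos, abs_two]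
      nlinarith [Real.pi_gt_three, abs_nonneg (k 1 : ℝ)]
    have e2 : L1.wt (n + 1) δ k = L1.wt n δ k * (1 + δ * (|(k 0 : ℝ)| + |(k 1 : ℝ)|)) := by
      simp [L1.wt, pow_succ, nk]
    rw [e2]
    nlinarith [mul_le_mul_of_nonneg_left e0 (mul_nonneg hδ hw.le),
      mul_le_mul_of_nonneg_left e1 (mul_nonneg hδ hw.le)]
  refine (Finset.sum_le_sum fun k _ => key k).trans ?_
  rw [Finset.sum_add_distrib, Finset.sum_add_distrib, ← Finset.mul_sum, ← Finset.mul_sum]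
  exact add_le_add (add_le_add (h s) (mul_le_mul_of_nonneg_left (hb₀ s) hδ))
    (mul_le_mul_of_nonneg_left (hb₁ s) hδ)

variable {ρ : ℝ} {ξ x₀ x₀₀ x₁ x₁₁ η y₀ y₀₀ y₁ y₁₁ : L1}

theorem norm_expI_arg (hx : Small ρ ξ x₀ x₀₀ x₁ x₁₁) (hy : Small ρ η y₀ y₀₀ y₁ y₁₁) (k : Idx) :
    ‖expI (arg k ξ η)‖ ≤ 2 * sob * (1 + 2 * Real.pi * nk k * ρ) ^ 2 := by
  set m := 2 * Real.pi * nk k * ρ
  have d0 := ((hx.d₀.arg k hy.d₀).smul Complex.I).exp
  have d1 := ((hx.d₁.arg k hy.d₁).smul Complex.I).exp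
  have d00 := ((hx.d₀₀.arg k hy.d₀₀).smul Complex.I).mul ((hx.d₀.arg k hy.d₀).smul Complex.I).exp
  have d11 := ((hx.d₁₁.arg k hy.d₁₁).smul Complex.I).mul ((hx.d₁.arg k hy.d₁).smul Complex.I).exp
  have hm : 0 ≤ m := by
    have : 0 ≤ ρ := (norm_nonneg _).trans hx.b₀
    have := nk_nonneg k
    positivity
  have he : ∀ (z : ℝ × ℝ) (u w : L1), ‖u‖ ≤ ρ → ‖w‖ ≤ ρ → ‖L1.ev z (Complex.I • arg k u w)‖ ≤ m :=
    fun z u w hu hw => by
      rw [map_smul, norm_smul, Complex.norm_I, one_mul]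
      exact (L1.norm_ev_le _ _).trans (norm_arg_le k hu hw)
  have h := norm_le_lap (B := 2 * (1 + m) ^ 2) d0 d00 d1 d11 fun z => by
    have hX : ‖L1.ev z (NormedSpace.exp (Complex.I • arg k ξ η))‖ = 1 :=
      norm_ev_expI (conjc_arg k hx.real hy.real) z
    simp only [map_sub, map_add, L1.ev_mul]
    refine (norm_sub_le _ _).trans ((add_le_add_left (norm_sub_le _ _) _).trans ?_)
    have t1 := he z _ _ hx.b₀ hy.b₀
    have t2 := he z _ _ hx.b₁ hy.b₁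
    have t3 := he z _ _ hx.b₀₀ hy.b₀₀
    have t4 := he z _ _ hx.b₁₁ hy.b₁₁
    refine (add_le_add (add_le_add le_rfl (norm_add_le _ _)) (norm_add_le _ _)).trans ?_
    simp only [norm_mul, hX, mul_one]
    nlinarith [norm_nonneg (L1.ev z (Complex.I • arg k x₀ y₀)),
      norm_nonneg (L1.ev z (Complex.I • arg k x₁ y₁))]
  exact h.trans_eq (by ring)

theorem Bd_expI_arg {δ : ℝ} (hx : Small ρ ξ x₀ x₀₀ x₁ x₁₁) (hy : Small ρ η y₀ y₀₀ y₁ y₁₁)
    (hδ : 0 ≤ δ) (k : Idx) : ∀ n : ℕ, L1.Bd n δ ρ x₀ → L1.Bd n δ ρ x₁ → L1.Bd n δ ρ y₀ →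
      L1.Bd n δ ρ y₁ → L1.Bd n δ (expBd n δ ρ k) (expI (arg k ξ η))
  | 0, _, _, _, _ => by
    rw [Bd_zero_iff]
    simpa [expBd] using norm_expI_arg hx hy k
  | n + 1, a, b, c, d => by
    have a' := Bd_le_of_le hδ n.le_succ a
    have b' := Bd_le_of_le hδ n.le_succ b
    have c' := Bd_le_of_le hδ n.le_succ c
    have d' := Bd_le_of_le hδ n.le_succ d
    have ih := Bd_expI_arg hx hy hδ k n a' b' c' d'
    have hb : ∀ u w : L1, L1.Bd n δ ρ u → L1.Bd n δ ρ w →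
        L1.Bd n δ (2 * Real.pi * nk k * ρ) (Complex.I • arg k u w) := fun u w hu hw => by
      have h := ((hu.smul ((2 * Real.pi * k 0 : ℝ) : ℂ)).add hδ
        (hw.smul ((2 * Real.pi * k 1 : ℝ) : ℂ))).smul Complex.I
      rw [arg]
      refine h.mono ?_
      rw [Complex.norm_I, one_mul, Complex.norm_real, Complex.norm_real, Real.norm_eq_abs,
        Real.norm_eq_abs, abs_mul, abs_mul (2 * Real.pi), abs_of_pos Real.two_pi_pos, nk]
      exact le_of_eq (by ring)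
    have h := Bd_succ hδ ih ((hx.d₀.arg k hy.d₀).smul Complex.I).exp
      ((hx.d₁.arg k hy.d₁).smul Complex.I).exp ((hb _ _ a' c').mul hδ ih)
      ((hb _ _ b' d').mul hδ ih)
    refine h.mono (le_of_eq ?_)
    simp only [expBd, pow_succ]; ring

/-! ### The composition -/

/-- A term of the composition. -/
noncomputable def term (a ξ η : L1) (k : Idx) : L1 :=
  L1.coeff a k • (L1.single k 1 * expI (arg k ξ η))

/-- The series `a` composed with `z ↦ z + (ξ, η)`. -/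
noncomputable def comp (a ξ η : L1) : L1 := ∑' k, term a ξ η k

/-- The bound of one term. -/
noncomputable def termBd (n : ℕ) (δ ρ : ℝ) (a : L1) (k : Idx) : ℝ :=
  ‖L1.coeff a k‖ * (L1.wt n δ k * expBd n δ ρ k)

theorem Bd_single {n : ℕ} {δ : ℝ} (hδ : 0 ≤ δ) (k : Idx) :
    L1.Bd n δ (L1.wt n δ k) (L1.single k 1) := fun s => by
  refine le_trans (le_of_eq (Finset.sum_congr rfl fun j _ => ?_))
    (le_trans (le_of_eq (Finset.sum_ite_eq' s k fun _ => L1.wt n δ k)) ?_)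
  · rw [L1.coeff_single]
    split_ifs with h
    · rw [h, norm_one, mul_one]
    · rw [norm_zero, mul_zero]
  · split_ifs
    · exact le_rfl
    · exact (L1.wt_pos hδ k).le

theorem Bd_term {n : ℕ} {δ : ℝ} (hδ : 0 ≤ δ) (a : L1) (hx : Small ρ ξ x₀ x₀₀ x₁ x₁₁)
    (hy : Small ρ η y₀ y₀₀ y₁ y₁₁) (hx₀ : L1.Bd n δ ρ x₀) (hx₁ : L1.Bd n δ ρ x₁)
    (hy₀ : L1.Bd n δ ρ y₀) (hy₁ : L1.Bd n δ ρ y₁) (k : Idx) :
    L1.Bd n δ (termBd n δ ρ a k) (term a ξ η k) :=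
  (((Bd_single hδ k).mul hδ (Bd_expI_arg hx hy hδ k n hx₀ hx₁ hy₀ hy₁))).smul _

theorem norm_term_le (a : L1) (hx : Small ρ ξ x₀ x₀₀ x₁ x₁₁) (hy : Small ρ η y₀ y₀₀ y₁ y₁₁)
    (k : Idx) : ‖term a ξ η k‖ ≤ termBd 0 0 ρ a k := by
  rw [← Bd_zero_iff (δ := 0)]
  exact Bd_term le_rfl a hx hy (Bd_zero_iff.2 hx.b₀) (Bd_zero_iff.2 hx.b₁) (Bd_zero_iff.2 hy.b₀)
    (Bd_zero_iff.2 hy.b₁) k

theorem expBd_nonneg (n : ℕ) {δ ρ : ℝ} (hδ : 0 ≤ δ) (hρ : 0 ≤ ρ) (k : Idx) :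
    0 ≤ expBd n δ ρ k := by
  have := nk_nonneg k
  have := sob_nonneg
  unfold expBd; positivity

theorem termBd_nonneg (n : ℕ) {δ ρ : ℝ} (hδ : 0 ≤ δ) (hρ : 0 ≤ ρ) (a : L1) (k : Idx) :
    0 ≤ termBd n δ ρ a k :=
  mul_nonneg (norm_nonneg _) (mul_nonneg (L1.wt_pos hδ k).le (expBd_nonneg n hδ hρ k))

theorem expBd_le (n : ℕ) {δ ρ : ℝ} (hδ : 0 ≤ δ) (hδ1 : δ ≤ 1) (hρ : 0 ≤ ρ) (k : Idx) :
    L1.wt n δ k * expBd n δ ρ k
      ≤ 2 * sob * (1 + 4 * Real.pi * ρ) ^ (n + 2) * (1 + nk k) ^ (2 * n + 2) := by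
  have hn := nk_nonneg k
  have hs := sob_nonneg
  have hm : 0 ≤ Real.pi * nk k * ρ := by positivity
  have h1 : L1.wt n δ k ≤ (1 + nk k) ^ n := pow_le_pow_left₀ (by positivity)
    (by nlinarith [mul_le_mul_of_nonneg_right hδ1 hn]) n
  have h2 : 1 + 2 * Real.pi * nk k * ρ ≤ (1 + 4 * Real.pi * ρ) * (1 + nk k) := by
    nlinarith [mul_nonneg Real.pi_pos.le hρ]
  have h3 : 1 + 2 * δ * (2 * Real.pi * nk k * ρ) ≤ (1 + 4 * Real.pi * ρ) * (1 + nk k) := by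
    nlinarith [mul_nonneg Real.pi_pos.le hρ, mul_le_mul_of_nonneg_right hδ1 hm]
  calc L1.wt n δ k * expBd n δ ρ k
      ≤ (1 + nk k) ^ n * (2 * sob * ((1 + 4 * Real.pi * ρ) * (1 + nk k)) ^ 2
          * ((1 + 4 * Real.pi * ρ) * (1 + nk k)) ^ n) := by
        unfold expBd
        gcongr
    _ = _ := by rw [mul_pow, mul_pow, pow_add, pow_add, pow_mul']; ring

theorem summable_termBd (n : ℕ) {δ ρ : ℝ} (hδ : 0 ≤ δ) (hδ1 : δ ≤ 1) (hρ : 0 ≤ ρ) {a : L1}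
    (ha : RD (L1.coeff a)) : Summable (termBd n δ ρ a) :=
  Summable.of_nonneg_of_le (termBd_nonneg n hδ hρ a)
    (fun k => by
      rw [termBd]
      calc ‖L1.coeff a k‖ * (L1.wt n δ k * expBd n δ ρ k)
          ≤ ‖L1.coeff a k‖ * (2 * sob * (1 + 4 * Real.pi * ρ) ^ (n + 2)
              * (1 + nk k) ^ (2 * n + 2)) :=
            mul_le_mul_of_nonneg_left (expBd_le n hδ hδ1 hρ k) (norm_nonneg _)
        _ = 2 * sob * (1 + 4 * Real.pi * ρ) ^ (n + 2)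
              * (‖L1.coeff a k‖ * (1 + nk k) ^ (2 * n + 2)) := by ring)
    ((ha.summable_pow (2 * n + 2)).mul_left (2 * sob * (1 + 4 * Real.pi * ρ) ^ (n + 2)))

/-- The plain bound of a composition. -/
noncomputable def compC (ρ : ℝ) (a : L1) : ℝ := ∑' k, termBd 0 0 ρ a k

theorem summable_term {a : L1} (ha : RD (L1.coeff a)) (hx : Small ρ ξ x₀ x₀₀ x₁ x₁₁)
    (hy : Small ρ η y₀ y₀₀ y₁ y₁₁) : Summable (term a ξ η) :=
  Summable.of_norm_bounded (summable_termBd 0 le_rfl zero_le_one ((norm_nonneg _).trans hx.b₀) ha)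
    (norm_term_le a hx hy)

theorem norm_comp_le {a : L1} (ha : RD (L1.coeff a)) (hx : Small ρ ξ x₀ x₀₀ x₁ x₁₁)
    (hy : Small ρ η y₀ y₀₀ y₁ y₁₁) : ‖comp a ξ η‖ ≤ compC ρ a :=
  tsum_of_norm_bounded
    (summable_termBd 0 le_rfl zero_le_one ((norm_nonneg _).trans hx.b₀) ha).hasSum
    (norm_term_le a hx hy)

theorem ev_comp {a : L1} (ha : RD (L1.coeff a)) (hx : Small ρ ξ x₀ x₀₀ x₁ x₁₁)
    (hy : Small ρ η y₀ y₀₀ y₁ y₁₁) (z : ℝ × ℝ) :
    L1.ev z (comp a ξ η)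
      = ser (L1.coeff a) (z.1 + (L1.ev z ξ).re, z.2 + (L1.ev z η).re) := by
  rw [comp, (L1.ev z).map_tsum (summable_term ha hx hy), ser]
  refine tsum_congr fun k => ?_
  have r1 : L1.ev z ξ = ((L1.ev z ξ).re : ℂ) :=
    (Complex.conj_eq_iff_re.1 (by rw [← L1.ev_conjc, hx.real])).symm
  have r2 : L1.ev z η = ((L1.ev z η).re : ℂ) :=
    (Complex.conj_eq_iff_re.1 (by rw [← L1.ev_conjc, hy.real])).symm
  simp only [term, expI, arg, map_smul, map_add, L1.ev_mul, L1.ev_single, L1.ev_exp, smul_eq_mul,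
    one_mul]
  rw [r1, r2]
  simp only [e, phase_apply, ← Complex.exp_add, Complex.ofReal_re]
  congr 2
  push_cast
  ring

/-- Admissible weights for the composition with `a`. -/
def CompBd (n : ℕ) (δ ρ R : ℝ) (a : L1) : Prop := ∀ s : Finset Idx, ∑ k ∈ s, termBd n δ ρ a k ≤ R

theorem Bd_comp {n : ℕ} {δ R : ℝ} (hδ : 0 ≤ δ) {a : L1} (ha : RD (L1.coeff a))
    (hR : CompBd n δ ρ R a) (hx : Small ρ ξ x₀ x₀₀ x₁ x₁₁) (hy : Small ρ η y₀ y₀₀ y₁ y₁₁)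
    (hx₀ : L1.Bd n δ ρ x₀) (hx₁ : L1.Bd n δ ρ x₁) (hy₀ : L1.Bd n δ ρ y₀) (hy₁ : L1.Bd n δ ρ y₁) :
    L1.Bd n δ R (comp a ξ η) := by
  have hfin : ∀ s : Finset Idx, L1.Bd n δ R (∑ k ∈ s, term a ξ η k) := fun s => by
    refine L1.Bd.mono ?_ (hR s)
    classical
    induction s using Finset.induction_on with
    | empty => simpa using L1.Bd.zero (n := n) (δ := δ) le_rfl
    | @insert j t hj ih =>
      rw [Finset.sum_insert hj, Finset.sum_insert hj]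
      exact (Bd_term hδ a hx hy hx₀ hx₁ hy₀ hy₁ j).add hδ ih
  exact L1.isClosed_Bd.mem_of_tendsto (summable_term ha hx hy).hasSum
    (Filter.Eventually.of_forall hfin)

theorem exists_CompBd (n : ℕ) {ρ : ℝ} (hρ : 0 ≤ ρ) {a : L1} (ha : RD (L1.coeff a)) :
    ∀ᶠ δ in nhdsWithin (0 : ℝ) (Set.Ioi 0), CompBd n δ ρ (compC ρ a + 1) a := by
  have e : compC ρ a = ∑' k, termBd n 0 ρ a k := by
    refine tsum_congr fun k => ?_
    simp [termBd, expBd, L1.wt]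
  have ht : Filter.Tendsto (fun δ => ∑' k, termBd n δ ρ a k) (nhdsWithin (0 : ℝ) (Set.Ioi 0))
      (nhds (compC ρ a)) := by
    rw [e]
    refine tendsto_tsum_of_dominated_convergence
      ((ha.summable_pow (2 * n + 2)).mul_left (2 * sob * (1 + 4 * Real.pi * ρ) ^ (n + 2)))
      (fun k => ?_) ?_
    · have hc : Continuous fun δ : ℝ => termBd n δ ρ a k := by
        unfold termBd expBd L1.wt; fun_prop
      exact (hc.tendsto 0).mono_left nhdsWithin_le_nhds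
    · filter_upwards [Ioo_mem_nhdsGT one_pos] with δ hδ k
      rw [Real.norm_of_nonneg (termBd_nonneg n hδ.1.le hρ a k), termBd]
      exact (mul_le_mul_of_nonneg_left (expBd_le n hδ.1.le hδ.2.le hρ k) (norm_nonneg _)).trans_eq
        (by ring)
  filter_upwards [ht.eventually_le_const (lt_add_one _), Ioo_mem_nhdsGT one_pos] with δ hδ hδ1 s
  exact ((summable_termBd n hδ1.1.le hδ1.2.le hρ ha).sum_le_tsum s
    fun k _ => termBd_nonneg n hδ1.1.le hρ a k).trans hδ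

/-- The Lipschitz constant of a composition. -/
noncomputable def compL (ρ : ℝ) (a : L1) : ℝ := ∑' k, 2 * Real.pi * nk k * termBd 0 0 ρ a k

theorem summable_compL {ρ : ℝ} (hρ : 0 ≤ ρ) {a : L1} (ha : RD (L1.coeff a)) :
    Summable fun k => 2 * Real.pi * nk k * termBd 0 0 ρ a k := by
  refine Summable.of_nonneg_of_le
    (fun k => mul_nonneg (mul_nonneg Real.two_pi_pos.le (nk_nonneg k))
      (termBd_nonneg 0 le_rfl hρ a k)) (fun k => ?_)
    ((ha.summable_pow 3).mul_left (2 * Real.pi * (2 * sob * (1 + 4 * Real.pi * ρ) ^ 2)))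
  have hn := nk_nonneg k
  have hs := sob_nonneg
  have h := mul_le_mul_of_nonneg_left (expBd_le 0 le_rfl zero_le_one hρ k)
    (norm_nonneg (L1.coeff a k))
  rw [termBd]
  calc 2 * Real.pi * nk k * (‖L1.coeff a k‖ * (L1.wt 0 0 k * expBd 0 0 ρ k))
      ≤ 2 * Real.pi * (1 + nk k) * (‖L1.coeff a k‖
          * (2 * sob * (1 + 4 * Real.pi * ρ) ^ (0 + 2) * (1 + nk k) ^ (2 * 0 + 2))) := by
        have := termBd_nonneg 0 le_rfl hρ a k
        rw [termBd] at this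
        gcongr
        linarith
    _ = _ := by ring

theorem compL_nonneg (ρ : ℝ) (hρ : 0 ≤ ρ) (a : L1) : 0 ≤ compL ρ a :=
  tsum_nonneg fun k => mul_nonneg (mul_nonneg Real.two_pi_pos.le (nk_nonneg k))
    (termBd_nonneg 0 le_rfl hρ a k)

theorem norm_comp_sub_le {a : L1} (ha : RD (L1.coeff a))
    {ξ' z₀ z₀₀ z₁ z₁₁ η' w₀ w₀₀ w₁ w₁₁ : L1}
    (hx : Small ρ ξ x₀ x₀₀ x₁ x₁₁) (hy : Small ρ η y₀ y₀₀ y₁ y₁₁)
    (hx' : Small ρ ξ' z₀ z₀₀ z₁ z₁₁) (hy' : Small ρ η' w₀ w₀₀ w₁ w₁₁) :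
    ‖comp a ξ η - comp a ξ' η'‖ ≤ compL ρ a * max ‖ξ - ξ'‖ ‖η - η'‖ := by
  have hρ : 0 ≤ ρ := (norm_nonneg _).trans hx.b₀
  rw [comp, comp, ← Summable.tsum_sub (summable_term ha hx hy) (summable_term ha hx' hy'), compL,
    ← tsum_mul_right]
  refine tsum_of_norm_bounded ((summable_compL hρ ha).mul_right _).hasSum fun k => ?_
  set D := arg k (ξ - ξ') (η - η')
  have hseg : ∀ t : ℝ, arg k (ξ' + (t : ℂ) • (ξ - ξ')) (η' + (t : ℂ) • (η - η'))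
      = arg k ξ' η' + (t : ℂ) • D := fun t => by
    simp only [arg, D, smul_add, smul_smul, mul_comm ((2 * Real.pi * _ : ℝ) : ℂ) (t : ℂ)]
    abel
  set φ : ℝ → L1 := fun t => expI (arg k ξ' η' + (t : ℂ) • D)
  have hd : ∀ t : ℝ, HasDerivAt φ (φ t * (Complex.I • D)) t := fun t => by
    have h1 : HasDerivAt (fun t : ℝ => Complex.I • (arg k ξ' η' + (t : ℂ) • D)) (Complex.I • D) t := by
      have h0 : HasDerivAt (fun t : ℝ => (t : ℂ)) 1 t := Complex.ofRealCLM.hasDerivAt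
      exact (((h0.smul_const D).const_add (arg k ξ' η')).const_smul Complex.I).congr_deriv
        (by rw [one_smul])
    exact ((hasFDerivAt_exp (𝕂 := ℂ)
      (x := Complex.I • (arg k ξ' η' + (t : ℂ) • D))).restrictScalars ℝ).comp_hasDerivAt t h1
      |>.congr_deriv (by simp [φ, expI])
  have hb : ∀ t ∈ Set.Ico (0 : ℝ) 1, ‖φ t * (Complex.I • D)‖
      ≤ expBd 0 0 ρ k * (2 * Real.pi * nk k * max ‖ξ - ξ'‖ ‖η - η'‖) := fun t ht => by
    refine (norm_mul_le _ _).trans (mul_le_mul ?_ ?_ (norm_nonneg _) (expBd_nonneg 0 le_rfl hρ k))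
    · simp only [φ, ← hseg]
      exact (norm_expI_arg (hx.mix hx' ⟨ht.1, ht.2.le⟩) (hy.mix hy' ⟨ht.1, ht.2.le⟩) k).trans_eq
        (by simp [expBd])
    · rw [norm_smul, Complex.norm_I, one_mul]
      exact norm_arg_le k (le_max_left _ _) (le_max_right _ _)
  have h := norm_image_sub_le_of_norm_deriv_le_segment_01' (f := φ) (f' := fun t => φ t * (Complex.I • D))
    (fun t _ => (hd t).hasDerivWithinAt) hb
  have e1 : φ 1 = expI (arg k ξ η) := by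
    show expI _ = _
    rw [← hseg]; simp
  have e0 : φ 0 = expI (arg k ξ' η') := by simp [φ]
  rw [e1, e0] at h
  rw [term, term, ← smul_sub, ← mul_sub, norm_smul]
  calc ‖L1.coeff a k‖ * ‖L1.single k 1 * (expI (arg k ξ η) - expI (arg k ξ' η'))‖
      ≤ ‖L1.coeff a k‖ * (expBd 0 0 ρ k * (2 * Real.pi * nk k * max ‖ξ - ξ'‖ ‖η - η'‖)) := by
        refine mul_le_mul_of_nonneg_left ?_ (norm_nonneg _)
        refine (norm_mul_le _ _).trans ?_
        rw [L1.norm_single, norm_one, one_mul]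
        exact h
    _ = _ := by simp [termBd, L1.wt]; ring

theorem expI_conjc {a : L1} (h : L1.conjc a = a) : L1.conjc (expI a) = expI (-a) := by
  rw [expI, expI, L1.conjc_exp]
  congr 1
  ext k
  rw [L1.coeff_conjc, L1.coeff_smul, map_mul, Complex.conj_I, ← L1.coeff_conjc, h, L1.coeff_smul,
    L1.coeff_neg]
  ring

theorem conjc_comp {a : L1} (ha : RD (L1.coeff a)) (hR : L1.conjc a = a)
    (hx : Small ρ ξ x₀ x₀₀ x₁ x₁₁) (hy : Small ρ η y₀ y₀₀ y₁ y₁₁) :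
    L1.conjc (comp a ξ η) = comp a ξ η := by
  refine ext_ev fun z => ?_
  rw [L1.ev_conjc, ev_comp ha hx hy, ← L1.ev_apply, ← L1.ev_conjc, hR]

theorem refl_comp {a : L1} (ha : RD (L1.coeff a)) (s : ℂ) (hs : refl a = s • a)
    (hx : Small ρ ξ x₀ x₀₀ x₁ x₁₁) (hy : Small ρ η y₀ y₀₀ y₁ y₁₁)
    (hξ : refl ξ = ξ) (hη : refl η = -η) : refl (comp a ξ η) = s • comp a ξ η := by
  refine ext_ev fun z => ?_
  rw [ev_refl, map_smul, ev_comp ha hx hy, ev_comp ha hx hy, ← ev_refl ξ, ← ev_refl η, hξ, hη,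
    map_neg, Complex.neg_re, ← L1.ev_apply, ← L1.ev_apply, ← map_smul, ← hs, ev_refl]
  congr 2
  simp only [Prod.mk.injEq]
  constructor <;> ring

end P205.Klein
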