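import Vale.Agent.P205.Klein.Comp

/-!
P205, Klein bottle: a calculus of estimates for families of maps into the Wiener algebra. One
predicate carries weighted bounds, Lipschitz bounds, continuity in the parameter and the symmetries.
-/

namespace P205.Klein

open P205.Tori P205.Tori.Fourier
open scoped ComplexConjugate

/-- The data of the construction, for the winding numbers in `Q` and a parameter `t`. -/
structure Setup where
  h : ℝ
  L : ℝ
  h_pos : 0 < h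
  L_pos : 0 < L
  Q : Set ℕ
  η : ℕ → ℝ
  η_pos : ∀ q ∈ Q, 0 < η q
  η_le : ∀ q ∈ Q, η q ≤ 1
  eps : ℕ → ℝ
  Ce : ℝ
  eps_nonneg : ∀ q ∈ Q, 0 ≤ eps q
  eps_le : ∀ q ∈ Q, eps q ≤ Ce * η q ^ (12 : ℤ)
  P : ℕ → ℝ → ℝ
  P_ge : ∀ q t, L / 4 ≤ P q t
  P_le : ∀ q t, P q t ≤ 4 * L
  cont_P : ∀ q ∈ Q, Continuous (P q)
  vx : L1
  vy : L1
  vxx : L1
  vxy : L1
  vyy : L1
  rd_v : RD (L1.coeff vx) ∧ RD (L1.coeff vy) ∧ RD (L1.coeff vxx) ∧ RD (L1.coeff vxy) ∧
    RD (L1.coeff vyy)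
  real_v : L1.conjc vx = vx ∧ L1.conjc vy = vy ∧ L1.conjc vxx = vxx ∧ L1.conjc vxy = vxy ∧
    L1.conjc vyy = vyy
  refl_v : refl vx = vx ∧ refl vy = -vy ∧ refl vxx = vxx ∧ refl vxy = -vxy ∧ refl vyy = vyy
  W0 : ℕ → ℝ → L1
  W2 : ℕ → ℝ → L1
  W22 : ℕ → ℝ → L1
  Cw : ℝ
  norm_W0 : ∀ q ∈ Q, ∀ t, ‖W0 q t‖ ≤ Cw * η q ^ (6 : ℤ)
  norm_W2 : ∀ q ∈ Q, ∀ t, ‖W2 q t‖ ≤ Cw
  norm_W22 : ∀ q ∈ Q, ∀ t, ‖W22 q t‖ ≤ Cw * η q ^ (-6 : ℤ)
  rd_W : ∀ q ∈ Q, ∀ t, RD (L1.coeff (W0 q t)) ∧ RD (L1.coeff (W2 q t)) ∧ RD (L1.coeff (W22 q t))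
  cont_W : ∀ q ∈ Q, Continuous (W0 q) ∧ Continuous (W2 q) ∧ Continuous (W22 q)
  real_W : ∀ q ∈ Q, ∀ t, L1.conjc (W0 q t) = W0 q t ∧ L1.conjc (W2 q t) = W2 q t ∧
    L1.conjc (W22 q t) = W22 q t
  refl_W : ∀ q ∈ Q, ∀ t, refl (W0 q t) = W0 q t ∧ refl (W2 q t) = -W2 q t ∧
    refl (W22 q t) = W22 q t

/-- The unknowns `((f, γ, ι), (g₁, g₂, c))`. -/
abbrev Unk := (L1 × L1 × L1) × (L1 × L1 × L1)

namespace Setup

variable (S : Setup)

theorem P_pos (q : ℕ) (t : ℝ) : 0 < S.P q t :=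
  lt_of_lt_of_le (by linarith [S.L_pos]) (S.P_ge q t)

/-- The lattice of periods in the coordinates of the phases. -/
def lat (q : ℕ) (t : ℝ) : Solve.Lat where
  l₁ := (2 * S.h, 0)
  l₂ := (0, S.P q t)
  det := by
    have := S.P_pos q t
    have := S.h_pos
    simp only [mul_zero, sub_zero]
    positivity

/-- A common bound for the multipliers. -/
def CM : ℝ := 4 * S.h ^ 2 + 16 * S.L ^ 2 + 1

theorem lat_C_le (q : ℕ) (t : ℝ) : (S.lat q t).C ≤ S.CM := by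
  have h1 := S.P_pos q t
  have h2 : S.P q t ^ 2 ≤ (4 * S.L) ^ 2 := pow_le_pow_left₀ h1.le (S.P_le q t) 2
  simp only [Solve.Lat.C, lat, CM]
  nlinarith

/-- The radius of the derivatives of the displacement. -/
noncomputable def rad : ℝ :=
  2 * S.CM * ((2 * S.h) / S.L + (2 * S.h) ^ 2 / S.L + 4 + 16 * S.L + 1 + 2 * S.h
    + (4 * S.L) / (2 * S.h) + (4 * S.L) ^ 2 / (2 * S.h))

/-- Admissible weights. -/
def Good (q : ℕ) (t : ℝ) (n : ℕ) (δ : ℝ) : Prop :=
  0 ≤ δ ∧ δ ≤ 1 ∧ L1.Bd n δ ((S.Cw + 1) * S.η q ^ (6 : ℤ)) (S.W0 q t) ∧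
    L1.Bd n δ (S.Cw + 1) (S.W2 q t) ∧ L1.Bd n δ ((S.Cw + 1) * S.η q ^ (-6 : ℤ)) (S.W22 q t) ∧
    ∀ a ∈ [S.vx, S.vy, S.vxx, S.vxy, S.vyy], CompBd n δ S.rad (compC S.rad a + 1) a

/-- The ball of the unknowns, in a weighted norm. -/
def WBall (q n : ℕ) (δ : ℝ) (x : Unk) : Prop :=
  L1.Bd n δ (S.η q ^ (3 : ℤ)) x.1.1 ∧ L1.Bd n δ 2 x.1.2.1 ∧ L1.Bd n δ 2 x.1.2.2 ∧
    L1.Bd n δ (S.η q ^ (2 : ℤ)) x.2.1 ∧ L1.Bd n δ (S.η q ^ (2 : ℤ)) x.2.2.1 ∧ L1.Bd n δ 2 x.2.2.2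

/-- The ball of the unknowns. -/
def Ball (q : ℕ) (x : Unk) : Prop := S.WBall q 0 0 x

end Setup

/-- The symmetries of the unknowns. -/
def SymX (x : Unk) : Prop :=
  (L1.conjc x.1.1 = x.1.1 ∧ refl x.1.1 = x.1.1) ∧
    (L1.conjc x.1.2.1 = x.1.2.1 ∧ refl x.1.2.1 = x.1.2.1) ∧
    (L1.conjc x.1.2.2 = x.1.2.2 ∧ refl x.1.2.2 = x.1.2.2) ∧
    (L1.conjc x.2.1 = x.2.1 ∧ refl x.2.1 = x.2.1) ∧
    (L1.conjc x.2.2.1 = x.2.2.1 ∧ refl x.2.2.1 = -x.2.2.1) ∧
    (L1.conjc x.2.2.2 = x.2.2.2 ∧ refl x.2.2.2 = x.2.2.2)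

/-- The estimates: parity `s`, size `η^a`, Lipschitz constants `η^b` and `η^c` in the two blocks. -/
def Est (S : Setup) (s : ℂ) (a b c : ℤ) (T : ℕ → ℝ → Unk → L1) : Prop :=
  ∃ C : ℝ, 0 ≤ C ∧ ∀ q ∈ S.Q,
    (∀ t, ∀ n δ, S.Good q t n δ → ∀ x, S.WBall q n δ x → L1.Bd n δ (C * S.η q ^ a) (T q t x)) ∧
    (∀ t x y, S.Ball q x → S.Ball q y → ‖T q t x - T q t y‖
      ≤ C * (S.η q ^ b * ‖x.1 - y.1‖ + S.η q ^ c * ‖x.2 - y.2‖)) ∧
    (∀ x, S.Ball q x → Continuous fun t => T q t x) ∧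
    (∀ t x, S.Ball q x → SymX x → L1.conjc (T q t x) = T q t x ∧ refl (T q t x) = s • T q t x)

variable {S : Setup}

namespace Setup

theorem rad_nonneg : 0 ≤ S.rad := by
  have := S.h_pos
  have := S.L_pos
  unfold rad CM
  positivity

theorem good_zero {q : ℕ} (hq : q ∈ S.Q) (t : ℝ) : S.Good q t 0 0 := by
  have hη := S.η_pos q hq
  refine ⟨le_rfl, zero_le_one, Bd_zero_iff.2 ((S.norm_W0 q hq t).trans ?_),
    Bd_zero_iff.2 ((S.norm_W2 q hq t).trans (by linarith)),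
    Bd_zero_iff.2 ((S.norm_W22 q hq t).trans ?_), fun a ha s => ?_⟩
  · exact mul_le_mul_of_nonneg_right (by linarith) (zpow_nonneg hη.le _)
  · exact mul_le_mul_of_nonneg_right (by linarith) (zpow_nonneg hη.le _)
  · have hrd : RD (L1.coeff a) := by
      obtain ⟨r1, r2, r3, r4, r5⟩ := S.rd_v
      simp only [List.mem_cons, List.not_mem_nil, or_false] at ha
      rcases ha with rfl | rfl | rfl | rfl | rfl <;> assumption
    exact ((summable_termBd 0 le_rfl zero_le_one rad_nonneg hrd).sum_le_tsum s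
      fun k _ => termBd_nonneg 0 le_rfl rad_nonneg a k).trans (le_add_of_nonneg_right zero_le_one)

theorem exists_good {q : ℕ} (hq : q ∈ S.Q) (t : ℝ) (n : ℕ) :
    ∃ δ, 0 < δ ∧ δ ≤ 1 ∧ S.Good q t n δ := by
  have hη := S.η_pos q hq
  obtain ⟨w0, w2, w22⟩ := S.rd_W q hq t
  have scaled : ∀ (a : L1) (e : ℤ), RD (L1.coeff a) → ‖a‖ ≤ S.Cw * S.η q ^ e →
      ∀ᶠ δ in nhdsWithin (0 : ℝ) (Set.Ioi 0), L1.Bd n δ ((S.Cw + 1) * S.η q ^ e) a := by
    intro a e ha hn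
    have he : 0 < S.η q ^ e := zpow_pos hη e
    have hb : RD (L1.coeff (((S.η q ^ e)⁻¹ : ℝ) • (a : L1) : L1)) :=
      ha.of_le (m := 0) (C := (S.η q ^ e)⁻¹) (inv_nonneg.2 he.le) fun k => by
        rw [← Complex.coe_smul, L1.coeff_smul, norm_mul, Complex.norm_real,
          Real.norm_of_nonneg (inv_nonneg.2 he.le), pow_zero, one_mul]
    filter_upwards [L1.exists_Bd hb n] with δ hδ
    have h := hδ.smul ((S.η q ^ e : ℝ) : ℂ)
    rw [Complex.coe_smul, smul_smul, mul_inv_cancel₀ he.ne', one_smul, Complex.norm_real,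
      Real.norm_of_nonneg he.le] at h
    refine h.mono ?_
    rw [mul_comm (S.Cw + 1)]
    refine mul_le_mul_of_nonneg_left (add_le_add ?_ le_rfl) he.le
    rw [norm_smul, Real.norm_of_nonneg (inv_nonneg.2 he.le), inv_mul_le_iff₀ he, mul_comm]
    exact hn
  have h2 : ∀ᶠ δ in nhdsWithin (0 : ℝ) (Set.Ioi 0), L1.Bd n δ (S.Cw + 1) (S.W2 q t) := by
    have := scaled (S.W2 q t) 0 w2 (by simpa using S.norm_W2 q hq t)
    simpa using this
  obtain ⟨r1, r2, r3, r4, r5⟩ := S.rd_v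
  obtain ⟨δ, g0, g2, g22, a1, a2, a3, a4, a5, hδ⟩ :=
    ((scaled _ 6 w0 (S.norm_W0 q hq t)).and (h2.and ((scaled _ (-6) w22 (S.norm_W22 q hq t)).and
      ((exists_CompBd n (S.rad_nonneg) r1).and ((exists_CompBd n (S.rad_nonneg) r2).and
      ((exists_CompBd n (S.rad_nonneg) r3).and ((exists_CompBd n (S.rad_nonneg) r4).and
      ((exists_CompBd n (S.rad_nonneg) r5).and (Ioo_mem_nhdsGT one_pos))))))))).exists
  exact ⟨δ, hδ.1, hδ.2.le, hδ.1.le, hδ.2.le, g0, g2, g22, by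
    intro a ha
    simp only [List.mem_cons, List.not_mem_nil, or_false] at ha
    rcases ha with rfl | rfl | rfl | rfl | rfl <;> assumption⟩

theorem WBall_ball {q n : ℕ} {δ : ℝ} (hδ : 0 ≤ δ) {x : Unk} (hx : S.WBall q n δ x) :
    S.Ball q x := by
  have key : ∀ {R : ℝ} {a : L1}, L1.Bd n δ R a → L1.Bd 0 0 R a := fun h => by
    have := Bd_zero_iff.1 (Bd_le_of_le hδ (Nat.zero_le n) h)
    exact Bd_zero_iff.2 this
  obtain ⟨h1, h2, h3, h4, h5, h6⟩ := hx
  exact ⟨key h1, key h2, key h3, key h4, key h5, key h6⟩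

theorem zpow_anti {q : ℕ} (hq : q ∈ S.Q) {a b : ℤ} (h : a ≤ b) : S.η q ^ b ≤ S.η q ^ a :=
  zpow_le_zpow_right_of_le_one₀ (S.η_pos q hq) (S.η_le q hq) h

end Setup

namespace Est

variable {s s' : ℂ} {a b c a' b' c' : ℤ} {T U : ℕ → ℝ → Unk → L1}

theorem norm_le (hT : Est S s a b c T) : ∃ C : ℝ, 0 ≤ C ∧ ∀ q ∈ S.Q, ∀ t x, S.Ball q x →
    ‖T q t x‖ ≤ C * S.η q ^ a := by
  obtain ⟨C, hC, h⟩ := hT
  exact ⟨C, hC, fun q hq t x hx => Bd_zero_iff.1 ((h q hq).1 t 0 0 (S.good_zero hq t) x hx)⟩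

theorem mono (hT : Est S s a b c T) (ha : a' ≤ a) (hb : b' ≤ b) (hc : c' ≤ c) :
    Est S s a' b' c' T := by
  obtain ⟨C, hC, h⟩ := hT
  refine ⟨C, hC, fun q hq => ?_⟩
  obtain ⟨h1, h2, h3, h4⟩ := h q hq
  refine ⟨fun t n δ g x hx => (h1 t n δ g x hx).mono
      (mul_le_mul_of_nonneg_left (S.zpow_anti hq ha) hC), fun t x y hx hy => ?_, h3, h4⟩
  refine (h2 t x y hx hy).trans (mul_le_mul_of_nonneg_left ?_ hC)
  exact add_le_add (mul_le_mul_of_nonneg_right (S.zpow_anti hq hb) (norm_nonneg _))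
    (mul_le_mul_of_nonneg_right (S.zpow_anti hq hc) (norm_nonneg _))

theorem congr (hT : Est S s a b c T) (h : ∀ q t x, T q t x = U q t x) : Est S s a b c U := by
  rwa [show U = T from funext fun q => funext fun t => funext fun x => (h q t x).symm]

theorem add (hT : Est S s a b c T) (hU : Est S s a b c U) :
    Est S s a b c (fun q t x => T q t x + U q t x) := by
  obtain ⟨C, hC, h⟩ := hT
  obtain ⟨D, hD, g⟩ := hU
  refine ⟨C + D, add_nonneg hC hD, fun q hq => ?_⟩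
  obtain ⟨h1, h2, h3, h4⟩ := h q hq
  obtain ⟨g1, g2, g3, g4⟩ := g q hq
  refine ⟨fun t n δ gd x hx => ((h1 t n δ gd x hx).add gd.1 (g1 t n δ gd x hx)).mono (by ring_nf; rfl),
    fun t x y hx hy => ?_, fun x hx => (h3 x hx).add (g3 x hx), fun t x hx hs => ?_⟩
  · rw [add_sub_add_comm, add_mul]
    exact (norm_add_le _ _).trans (add_le_add (h2 t x y hx hy) (g2 t x y hx hy))
  · obtain ⟨u1, u2⟩ := h4 t x hx hs
    obtain ⟨v1, v2⟩ := g4 t x hx hs
    exact ⟨by rw [L1.conjc_add, u1, v1], by rw [map_add, u2, v2, smul_add]⟩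

theorem neg (hT : Est S s a b c T) : Est S s a b c (fun q t x => -T q t x) := by
  obtain ⟨C, hC, h⟩ := hT
  refine ⟨C, hC, fun q hq => ?_⟩
  obtain ⟨h1, h2, h3, h4⟩ := h q hq
  refine ⟨fun t n δ g x hx => (h1 t n δ g x hx).neg, fun t x y hx hy => ?_,
    fun x hx => (h3 x hx).neg, fun t x hx hs => ?_⟩
  · rw [← neg_sub', norm_neg]; exact h2 t x y hx hy
  · obtain ⟨u1, u2⟩ := h4 t x hx hs
    refine ⟨?_, by rw [map_neg, u2, smul_neg]⟩
    ext k
    rw [L1.coeff_conjc, L1.coeff_neg, map_neg, ← L1.coeff_conjc, u1, L1.coeff_neg]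

theorem sub (hT : Est S s a b c T) (hU : Est S s a b c U) :
    Est S s a b c (fun q t x => T q t x - U q t x) :=
  (hT.add hU.neg).congr fun q t x => (sub_eq_add_neg _ _).symm

theorem mul (hT : Est S s a b c T) (hU : Est S s' a' b' c' U) :
    Est S (s * s') (a + a') (min (a + b') (a' + b)) (min (a + c') (a' + c))
      (fun q t x => T q t x * U q t x) := by
  obtain ⟨C, hC, h⟩ := hT
  obtain ⟨D, hD, g⟩ := hU
  refine ⟨2 * (C * D) + C * D, by positivity, fun q hq => ?_⟩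
  obtain ⟨h1, h2, h3, h4⟩ := h q hq
  obtain ⟨g1, g2, g3, g4⟩ := g q hq
  have hη := S.η_pos q hq
  refine ⟨fun t n δ gd x hx => ((h1 t n δ gd x hx).mul gd.1 (g1 t n δ gd x hx)).mono ?_,
    fun t x y hx hy => ?_, fun x hx => (h3 x hx).mul (g3 x hx), fun t x hx hs => ?_⟩
  · rw [zpow_add₀ hη.ne']
    have : 0 ≤ S.η q ^ a * S.η q ^ a' := mul_nonneg (zpow_nonneg hη.le _) (zpow_nonneg hη.le _)
    have := mul_nonneg hC hD
    nlinarith
  · have n1 := Bd_zero_iff.1 (h1 t 0 0 (S.good_zero hq t) x hx)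
    have n2 := Bd_zero_iff.1 (g1 t 0 0 (S.good_zero hq t) y hy)
    have e : T q t x * U q t x - T q t y * U q t y
        = T q t x * (U q t x - U q t y) + (T q t x - T q t y) * U q t y := by ring
    rw [e]
    refine (norm_add_le _ _).trans ?_
    have t1 : ‖T q t x * (U q t x - U q t y)‖
        ≤ C * S.η q ^ a * (D * (S.η q ^ b' * ‖x.1 - y.1‖ + S.η q ^ c' * ‖x.2 - y.2‖)) :=
      (norm_mul_le _ _).trans (mul_le_mul n1 (g2 t x y hx hy) (norm_nonneg _)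
        (mul_nonneg hC (zpow_nonneg hη.le _)))
    have t2 : ‖(T q t x - T q t y) * U q t y‖
        ≤ C * (S.η q ^ b * ‖x.1 - y.1‖ + S.η q ^ c * ‖x.2 - y.2‖) * (D * S.η q ^ a') :=
      (norm_mul_le _ _).trans (mul_le_mul (h2 t x y hx hy) n2 (norm_nonneg _)
        (mul_nonneg hC (add_nonneg (mul_nonneg (zpow_nonneg hη.le _) (norm_nonneg _))
          (mul_nonneg (zpow_nonneg hη.le _) (norm_nonneg _)))))
    have p1 : S.η q ^ a * S.η q ^ b' ≤ S.η q ^ min (a + b') (a' + b) := by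
      rw [← zpow_add₀ hη.ne']; exact S.zpow_anti hq (min_le_left _ _)
    have p2 : S.η q ^ b * S.η q ^ a' ≤ S.η q ^ min (a + b') (a' + b) := by
      rw [← zpow_add₀ hη.ne', add_comm]; exact S.zpow_anti hq (min_le_right _ _)
    have p3 : S.η q ^ a * S.η q ^ c' ≤ S.η q ^ min (a + c') (a' + c) := by
      rw [← zpow_add₀ hη.ne']; exact S.zpow_anti hq (min_le_left _ _)
    have p4 : S.η q ^ c * S.η q ^ a' ≤ S.η q ^ min (a + c') (a' + c) := by
      rw [← zpow_add₀ hη.ne', add_comm]; exact S.zpow_anti hq (min_le_right _ _)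
    have hCD := mul_nonneg hC hD
    have n3 := norm_nonneg (x.1 - y.1)
    have n4 := norm_nonneg (x.2 - y.2)
    have m1 := mul_le_mul_of_nonneg_left (add_le_add (mul_le_mul_of_nonneg_right p1 n3)
      (mul_le_mul_of_nonneg_right p3 n4)) hCD
    have m2 := mul_le_mul_of_nonneg_left (add_le_add (mul_le_mul_of_nonneg_right p2 n3)
      (mul_le_mul_of_nonneg_right p4 n4)) hCD
    have m3 : 0 ≤ C * D * (S.η q ^ min (a + b') (a' + b) * ‖x.1 - y.1‖
        + S.η q ^ min (a + c') (a' + c) * ‖x.2 - y.2‖) :=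
      mul_nonneg hCD (add_nonneg (mul_nonneg (zpow_nonneg hη.le _) n3)
        (mul_nonneg (zpow_nonneg hη.le _) n4))
    linarith
  · obtain ⟨u1, u2⟩ := h4 t x hx hs
    obtain ⟨v1, v2⟩ := g4 t x hx hs
    exact ⟨by rw [L1.conjc_mul, u1, v1],
      by rw [refl_mul, u2, v2, smul_mul_smul_comm]⟩

/-- A family independent of the unknowns. -/
theorem const {A : ℕ → ℝ → L1} (C : ℝ) (hC : 0 ≤ C)
    (hA : ∀ q ∈ S.Q, (∀ t n δ, S.Good q t n δ → L1.Bd n δ (C * S.η q ^ a) (A q t)) ∧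
      Continuous (A q) ∧ ∀ t, L1.conjc (A q t) = A q t ∧ refl (A q t) = s • A q t) :
    Est S s a b c (fun q t _ => A q t) :=
  ⟨C, hC, fun q hq => ⟨fun t n δ g _ _ => (hA q hq).1 t n δ g,
    fun t x y _ _ => by
      have := zpow_nonneg (S.η_pos q hq).le b
      have := zpow_nonneg (S.η_pos q hq).le c
      simp only [sub_self, norm_zero]; positivity,
    fun _ _ => (hA q hq).2.1, fun t _ _ _ => (hA q hq).2.2 t⟩⟩

theorem zero : Est S s a b c (fun _ _ _ => 0) :=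
  const 0 le_rfl fun q _ => ⟨fun t n δ _ => L1.Bd.zero (by simp), continuous_const,
    fun t => ⟨Solve.IsR.zero, by simp⟩⟩

theorem one : Est S 1 0 b c (fun _ _ _ => 1) :=
  const 1 zero_le_one fun q _ => ⟨fun t n δ _ => L1.Bd.one.mono (by simp), continuous_const,
    fun t => ⟨L1.conjc_one, by rw [refl_one, one_smul]⟩⟩

/-- A real scalar of size `η^e`. -/
theorem scal (r : ℕ → ℝ → ℝ) (e : ℤ) (R : ℝ) (hR : 0 ≤ R)
    (hr : ∀ q ∈ S.Q, (∀ t, |r q t| ≤ R * S.η q ^ e) ∧ Continuous (r q)) (hT : Est S s a b c T) :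
    Est S s (e + a) (e + b) (e + c) (fun q t x => (r q t : ℂ) • T q t x) := by
  obtain ⟨C, hC, h⟩ := hT
  refine ⟨R * C, mul_nonneg hR hC, fun q hq => ?_⟩
  obtain ⟨h1, h2, h3, h4⟩ := h q hq
  obtain ⟨r1, r2⟩ := hr q hq
  have hη := S.η_pos q hq
  refine ⟨fun t n δ g x hx => ((h1 t n δ g x hx).smul _).mono ?_, fun t x y hx hy => ?_,
    fun x hx => (Complex.continuous_ofReal.comp r2).smul (h3 x hx), fun t x hx hs => ?_⟩
  · rw [Complex.norm_real, Real.norm_eq_abs, zpow_add₀ hη.ne']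
    calc |r q t| * (C * S.η q ^ a) ≤ R * S.η q ^ e * (C * S.η q ^ a) :=
          mul_le_mul_of_nonneg_right (r1 t) (mul_nonneg hC (zpow_nonneg hη.le _))
      _ = _ := by ring
  · rw [← smul_sub, norm_smul, Complex.norm_real, Real.norm_eq_abs, zpow_add₀ hη.ne',
      zpow_add₀ hη.ne']
    calc |r q t| * ‖T q t x - T q t y‖
        ≤ R * S.η q ^ e * (C * (S.η q ^ b * ‖x.1 - y.1‖ + S.η q ^ c * ‖x.2 - y.2‖)) :=
          mul_le_mul (r1 t) (h2 t x y hx hy) (norm_nonneg _)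
            (mul_nonneg hR (zpow_nonneg hη.le _))
      _ = _ := by ring
  · obtain ⟨u1, u2⟩ := h4 t x hx hs
    exact ⟨by rw [L1.conjc_smul, u1], by rw [map_smul, u2, smul_comm]⟩

/-- A constant real factor. -/
theorem smulc (r : ℝ) (hT : Est S s a b c T) :
    Est S s a b c (fun q t x => (r : ℂ) • T q t x) := by
  have h := hT.scal (fun _ _ => r) 0 |r| (abs_nonneg r) fun q _ =>
    ⟨fun t => by simp, continuous_const⟩
  simpa using h

theorem continuous_of_coeff {A : ℝ → L1} {g : Idx → ℝ} (hg : Summable g)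
    (hc : ∀ k, Continuous fun t => L1.coeff (A t) k) (hb : ∀ t k, ‖L1.coeff (A t) k‖ ≤ g k) :
    Continuous A := by
  rw [show A = fun t => ∑' k, L1.single k (L1.coeff (A t) k) from
    funext fun t => (L1.hasSum_single (A t)).tsum_eq.symm]
  refine continuous_tsum (fun k => ?_) hg fun k t => by rw [L1.norm_single]; exact hb t k
  simp only [L1.single_smul k (L1.coeff _ k)]
  exact (hc k).smul continuous_const

/-- A family of bounded multipliers. -/
theorem mult (m : ℕ → ℝ → Idx → ℂ) (K : ℕ → ℝ → ℝ) (R : ℝ) (σ : ℂ)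
    (hm : ∀ q t k, ‖m q t k‖ ≤ K q t) (hK : ∀ q t, K q t ≤ R)
    (hc : ∀ q ∈ S.Q, ∀ k, Continuous fun t => m q t k)
    (hreal : ∀ q t k, conj (m q t (-k)) = m q t k)
    (hflip : ∀ q t k, m q t (flipK k) = σ * m q t k) (hσ : σ * σ = 1) (hT : Est S s a b c T) :
    Est S (σ * s) a b c (fun q t x => L1.multiplier (m q t) (K q t) (hm q t) (T q t x)) := by
  obtain ⟨C, hC, h⟩ := hT
  have hK0 : ∀ q t, 0 ≤ K q t := fun q t => (norm_nonneg _).trans (hm q t 0)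
  have hR : 0 ≤ R := (hK0 0 0).trans (hK 0 0)
  refine ⟨R * C, mul_nonneg hR hC, fun q hq => ?_⟩
  obtain ⟨h1, h2, h3, h4⟩ := h q hq
  have hη := S.η_pos q hq
  refine ⟨fun t n δ g x hx => ((h1 t n δ g x hx).multiplier g.1 _ _ (hm q t)).mono ?_,
    fun t x y hx hy => ?_, fun x hx => ?_, fun t x hx hs => ?_⟩
  · rw [mul_assoc]
    exact mul_le_mul_of_nonneg_right (hK q t) (mul_nonneg hC (zpow_nonneg hη.le _))
  · rw [← map_sub]
    refine (L1.norm_multiplier_le _ _ _ (hK0 q t) _).trans ?_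
    rw [mul_assoc]
    exact mul_le_mul (hK q t) (h2 t x y hx hy) (norm_nonneg _) hR
  · refine continuous_iff_continuousAt.2 fun t₀ => ?_
    have c1 : Continuous fun t => L1.multiplier (m q t) (K q t) (hm q t) (T q t₀ x) :=
      continuous_of_coeff ((L1.summable_norm (T q t₀ x)).mul_left R)
        (fun k => by simp only [L1.coeff_multiplier]; exact (hc q hq k).mul continuous_const)
        fun t k => by
          rw [L1.coeff_multiplier, norm_mul]
          exact mul_le_mul_of_nonneg_right ((hm q t k).trans (hK q t)) (norm_nonneg _)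
    have c2 : Filter.Tendsto (fun t => L1.multiplier (m q t) (K q t) (hm q t) (T q t x - T q t₀ x))
        (nhds t₀) (nhds 0) := by
      refine squeeze_zero_norm (fun t => (L1.norm_multiplier_le _ _ _ (hK0 q t) _).trans
        (mul_le_mul_of_nonneg_right (hK q t) (norm_nonneg _))) ?_
      have h0 : Filter.Tendsto (fun t => R * ‖T q t x - T q t₀ x‖) (nhds t₀)
          (nhds (R * ‖T q t₀ x - T q t₀ x‖)) :=
        (continuous_const.mul ((h3 x hx).sub continuous_const).norm).tendsto t₀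
      simpa using h0
    have := (c1.tendsto t₀).add c2
    simpa [ContinuousAt, ← map_add] using this
  · obtain ⟨u1, u2⟩ := h4 t x hx hs
    refine ⟨Solve.IsR.multiplier (hm q t) (hreal q t) u1, ?_⟩
    ext k
    rw [coeff_refl, L1.coeff_multiplier, hflip, L1.coeff_smul, L1.coeff_multiplier]
    have e1 := congrArg (fun u => L1.coeff u k) u2
    simp only [coeff_refl, L1.coeff_smul] at e1
    linear_combination σ * m q t k * e1

theorem norm_exp_le (x : L1) : ‖NormedSpace.exp x‖ ≤ Real.exp ‖x‖ :=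
  Bd_zero_iff.1 (L1.Bd.exp (n := 0) (δ := 0) le_rfl (Bd_zero_iff.2 le_rfl))

theorem Bd_expm1 {n : ℕ} {δ R : ℝ} {x : L1} (hδ : 0 ≤ δ) (h : L1.Bd n δ R x) :
    L1.Bd n δ (R * Real.exp R) (NormedSpace.exp x - 1) := by
  have hs := (hasSum_nat_add_iff' 1).2 (NormedSpace.exp_series_hasSum_exp' (𝕂 := ℂ) x)
  simp only [Finset.sum_range_one, Nat.factorial_zero, Nat.cast_one, inv_one, one_smul,
    pow_zero] at hs
  refine L1.isClosed_Bd.mem_of_tendsto hs.tendsto_sum_nat (Filter.Eventually.of_forall fun N => ?_)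
  refine L1.Bd.mono ?_ (mul_le_mul_of_nonneg_left (Real.sum_le_exp_of_nonneg h.nonneg N) h.nonneg)
  induction N with
  | zero => simpa using L1.Bd.zero (n := n) (δ := δ) le_rfl
  | succ N ih =>
    rw [Finset.sum_range_succ, Finset.sum_range_succ, mul_add]
    refine ih.add hδ (((h.pow hδ (N + 1)).smul (((N + 1).factorial : ℂ))⁻¹).mono ?_)
    rw [norm_inv, Complex.norm_natCast, inv_mul_eq_div, pow_succ, ← mul_div_assoc, mul_comm R]
    refine div_le_div_of_nonneg_left (mul_nonneg (pow_nonneg h.nonneg N) h.nonneg) ?_ ?_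
    · exact_mod_cast N.factorial_pos
    · exact_mod_cast Nat.factorial_le N.le_succ

theorem edist_mem (x y : L1) :
    y ∈ Metric.eball (0 : L1) (NormedSpace.expSeries ℂ L1).radius ∧
      x - y ∈ Metric.eball (0 : L1) (NormedSpace.expSeries ℂ L1).radius := by
  rw [NormedSpace.expSeries_radius_eq_top]
  exact ⟨edist_lt_top _ _, edist_lt_top _ _⟩

theorem norm_exp_sub_le {x y : L1} {R : ℝ} (hx : ‖x‖ ≤ R) (hy : ‖y‖ ≤ R) :
    ‖NormedSpace.exp x - NormedSpace.exp y‖ ≤ Real.exp (3 * R) * ‖x - y‖ := by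
  have e : NormedSpace.exp x - NormedSpace.exp y
      = NormedSpace.exp y * (NormedSpace.exp (x - y) - 1) := by
    rw [mul_sub, mul_one, ← NormedSpace.exp_add_of_mem_ball (𝕂 := ℂ) (edist_mem x y).1
      (edist_mem x y).2, add_sub_cancel]
  rw [e]
  have h1 := Bd_zero_iff.1 (Bd_expm1 (n := 0) (δ := 0) le_rfl (Bd_zero_iff.2 (le_refl ‖x - y‖)))
  have h2 : Real.exp ‖y‖ * Real.exp ‖x - y‖ ≤ Real.exp (3 * R) := by
    rw [← Real.exp_add]
    exact Real.exp_le_exp.2 (by linarith [norm_sub_le x y])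
  calc ‖NormedSpace.exp y * (NormedSpace.exp (x - y) - 1)‖
      ≤ Real.exp ‖y‖ * (‖x - y‖ * Real.exp ‖x - y‖) :=
        (norm_mul_le _ _).trans (mul_le_mul (norm_exp_le y) h1 (norm_nonneg _) (Real.exp_pos _).le)
    _ ≤ _ := by nlinarith [norm_nonneg (x - y)]

theorem conjc_smulI {x : L1} (h : L1.conjc x = x) : L1.conjc (Complex.I • x) = -(Complex.I • x) := by
  ext k
  rw [L1.coeff_conjc, L1.coeff_smul, map_mul, Complex.conj_I, ← L1.coeff_conjc, h, L1.coeff_neg,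
    L1.coeff_smul]
  ring

/-- The exponential of `u + κ θ`, `κ = ± i`. -/
noncomputable def rotE (κ : ℂ) (u θ : L1) : L1 := NormedSpace.exp (u + κ • θ)

/-- `exp u cos θ`. -/
noncomputable def cexpc (u θ : L1) : L1 :=
  ((1 / 2 : ℝ) : ℂ) • (rotE Complex.I u θ + rotE (-Complex.I) u θ)

/-- `exp u sin θ`. -/
noncomputable def cexps (u θ : L1) : L1 :=
  (-Complex.I / 2) • (rotE Complex.I u θ - rotE (-Complex.I) u θ)

theorem trig_parity {u θ : L1} (hu : L1.conjc u = u) (hθ : L1.conjc θ = θ) (hu' : refl u = u)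
    (hθ' : refl θ = -θ) :
    (L1.conjc (cexpc u θ) = cexpc u θ ∧ refl (cexpc u θ) = cexpc u θ) ∧
      (L1.conjc (cexps u θ) = cexps u θ ∧ refl (cexps u θ) = -cexps u θ) := by
  have c1 : L1.conjc (rotE Complex.I u θ) = rotE (-Complex.I) u θ := by
    rw [rotE, rotE, L1.conjc_exp, L1.conjc_add, hu, conjc_smulI hθ, neg_smul]
  have c2 : L1.conjc (rotE (-Complex.I) u θ) = rotE Complex.I u θ := by
    rw [← c1]; ext k; simp [L1.coeff_conjc]
  have r1 : refl (rotE Complex.I u θ) = rotE (-Complex.I) u θ := by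
    rw [rotE, rotE, refl_exp, map_add, map_smul, hu', hθ', smul_neg, neg_smul]
  have r2 : refl (rotE (-Complex.I) u θ) = rotE Complex.I u θ := by rw [← r1, refl_refl]
  refine ⟨⟨?_, ?_⟩, ?_, ?_⟩
  · rw [cexpc, L1.conjc_smul, L1.conjc_add, c1, c2, add_comm]
  · rw [cexpc, map_smul, map_add, r1, r2, add_comm]
  · ext k
    have e := congrArg (fun w => L1.coeff w k) c1
    have e' := congrArg (fun w => L1.coeff w k) c2
    simp only [L1.coeff_conjc] at e e'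
    simp only [cexps, L1.coeff_conjc, L1.coeff_smul, L1.coeff_sub, map_mul, map_sub, map_div₀,
      map_neg, Complex.conj_I, Complex.conj_ofNat, e, e']
    ring
  · rw [cexps, map_smul, map_sub, r1, r2, ← smul_neg, neg_sub]

/-- `exp u cos θ`, its deviation from `1`, and `exp u sin θ`. -/
theorem trig {U Θ : ℕ → ℝ → Unk → L1} (ha : 0 ≤ a) (hU : Est S 1 a b c U)
    (hΘ : Est S (-1) a b c Θ) :
    Est S 1 0 b c (fun q t x => cexpc (U q t x) (Θ q t x)) ∧
      Est S 1 a b c (fun q t x => cexpc (U q t x) (Θ q t x) - 1) ∧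
      Est S (-1) a b c (fun q t x => cexps (U q t x) (Θ q t x)) := by
  obtain ⟨C, hC, h⟩ := hU
  obtain ⟨D, hD, g⟩ := hΘ
  set R := C + D
  have hR : 0 ≤ R := add_nonneg hC hD
  have base : ∀ q ∈ S.Q, ∀ κ : ℂ, ‖κ‖ = 1 →
      (∀ t n δ, S.Good q t n δ → ∀ x, S.WBall q n δ x →
        L1.Bd n δ (R * Real.exp R * S.η q ^ a) (rotE κ (U q t x) (Θ q t x) - 1) ∧
        L1.Bd n δ (Real.exp R) (rotE κ (U q t x) (Θ q t x))) ∧
      (∀ t x y, S.Ball q x → S.Ball q y → ‖rotE κ (U q t x) (Θ q t x) - rotE κ (U q t y) (Θ q t y)‖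
        ≤ R * Real.exp (3 * R) * (S.η q ^ b * ‖x.1 - y.1‖ + S.η q ^ c * ‖x.2 - y.2‖)) ∧
      ∀ x, S.Ball q x → Continuous fun t => rotE κ (U q t x) (Θ q t x) := by
    intro q hq κ hκ
    obtain ⟨h1, h2, h3, -⟩ := h q hq
    obtain ⟨g1, g2, g3, -⟩ := g q hq
    have hη := S.η_pos q hq
    have he : S.η q ^ a ≤ 1 := by simpa using S.zpow_anti hq ha
    have hea : 0 ≤ S.η q ^ a := zpow_nonneg hη.le _
    have hb : ∀ t n δ, S.Good q t n δ → ∀ x, S.WBall q n δ x →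
        L1.Bd n δ (R * S.η q ^ a) (U q t x + κ • Θ q t x) := fun t n δ gd x hx => by
      refine ((h1 t n δ gd x hx).add gd.1 ((g1 t n δ gd x hx).smul κ)).mono ?_
      rw [hκ, one_mul, add_mul]
    have hle : R * S.η q ^ a ≤ R := mul_le_of_le_one_right hR he
    refine ⟨fun t n δ gd x hx => ⟨(Bd_expm1 gd.1 (hb t n δ gd x hx)).mono ?_,
      ((hb t n δ gd x hx).exp gd.1).mono (Real.exp_le_exp.2 hle)⟩, fun t x y hx hy => ?_,
      fun x hx => ((h3 x hx).add ((g3 x hx).const_smul κ)).comp' continuous_id |> fun hcont =>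
        (continuous_iff_continuousAt.2 fun a => (hasFDerivAt_exp (𝕂 := ℂ) (x := a)).continuousAt).comp hcont⟩
    · calc R * S.η q ^ a * Real.exp (R * S.η q ^ a) ≤ R * S.η q ^ a * Real.exp R :=
            mul_le_mul_of_nonneg_left (Real.exp_le_exp.2 hle) (mul_nonneg hR hea)
        _ = _ := by ring
    · have b1 : ‖U q t x + κ • Θ q t x‖ ≤ R := (Bd_zero_iff.1
        (hb t 0 0 (S.good_zero hq t) x hx)).trans hle
      have b2 : ‖U q t y + κ • Θ q t y‖ ≤ R := (Bd_zero_iff.1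
        (hb t 0 0 (S.good_zero hq t) y hy)).trans hle
      refine (norm_exp_sub_le b1 b2).trans ?_
      rw [mul_comm R, mul_assoc]
      refine mul_le_mul_of_nonneg_left ?_ (Real.exp_pos _).le
      rw [add_sub_add_comm, ← smul_sub]
      refine (norm_add_le _ _).trans ?_
      rw [norm_smul, hκ, one_mul, add_mul]
      exact add_le_add (h2 t x y hx hy) (g2 t x y hx hy)
  have hI : ‖Complex.I‖ = 1 := Complex.norm_I
  have hI' : ‖-Complex.I‖ = 1 := by rw [norm_neg, Complex.norm_I]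
  have hhalf : ‖((1 / 2 : ℝ) : ℂ)‖ = 1 / 2 := by
    rw [Complex.norm_real, Real.norm_of_nonneg (by norm_num)]
  have hI2 : ‖(-Complex.I / 2 : ℂ)‖ = 1 / 2 := by
    rw [norm_div, norm_neg, Complex.norm_I, Complex.norm_two]
  set E := R * Real.exp (3 * R) + R * Real.exp R + Real.exp R
  have hE : 0 ≤ E := by positivity
  have x0 : 0 ≤ R * Real.exp R := by positivity
  have x1 : 0 ≤ R * Real.exp (3 * R) := by positivity
  have sym : ∀ q ∈ S.Q, ∀ t x, S.Ball q x → SymX x → _ := fun q hq t x hx hs =>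
    trig_parity ((h q hq).2.2.2 t x hx hs).1 ((g q hq).2.2.2 t x hx hs).1
      (by simpa using ((h q hq).2.2.2 t x hx hs).2) (by simpa using ((g q hq).2.2.2 t x hx hs).2)
  have lipc : ∀ q ∈ S.Q, ∀ t x y, S.Ball q x → S.Ball q y →
      ‖cexpc (U q t x) (Θ q t x) - cexpc (U q t y) (Θ q t y)‖
        ≤ E * (S.η q ^ b * ‖x.1 - y.1‖ + S.η q ^ c * ‖x.2 - y.2‖) ∧
      ‖cexps (U q t x) (Θ q t x) - cexps (U q t y) (Θ q t y)‖
        ≤ E * (S.η q ^ b * ‖x.1 - y.1‖ + S.η q ^ c * ‖x.2 - y.2‖) := fun q hq t x y hx hy => by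
    have p := (base q hq _ hI).2.1 t x y hx hy
    have m := (base q hq _ hI').2.1 t x y hx hy
    set N := S.η q ^ b * ‖x.1 - y.1‖ + S.η q ^ c * ‖x.2 - y.2‖
    have hN : 0 ≤ N := by
      have := zpow_nonneg (S.η_pos q hq).le b
      have := zpow_nonneg (S.η_pos q hq).le c
      positivity
    have hEN : R * Real.exp (3 * R) * N ≤ E * N :=
      mul_le_mul_of_nonneg_right (by linarith [Real.exp_pos R]) hN
    constructor
    · rw [cexpc, cexpc, ← smul_sub, norm_smul, hhalf, add_sub_add_comm]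
      linarith [norm_add_le (rotE Complex.I (U q t x) (Θ q t x) - rotE Complex.I (U q t y) (Θ q t y))
        (rotE (-Complex.I) (U q t x) (Θ q t x) - rotE (-Complex.I) (U q t y) (Θ q t y))]
    · rw [cexps, cexps, ← smul_sub, norm_smul, hI2, sub_sub_sub_comm]
      linarith [norm_sub_le (rotE Complex.I (U q t x) (Θ q t x) - rotE Complex.I (U q t y) (Θ q t y))
        (rotE (-Complex.I) (U q t x) (Θ q t x) - rotE (-Complex.I) (U q t y) (Θ q t y))]
  have contc : ∀ q ∈ S.Q, ∀ x, S.Ball q x →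
      Continuous (fun t => cexpc (U q t x) (Θ q t x)) ∧
      Continuous (fun t => cexps (U q t x) (Θ q t x)) := fun q hq x hx =>
    ⟨(((base q hq _ hI).2.2 x hx).add ((base q hq _ hI').2.2 x hx)).const_smul ((1 / 2 : ℝ) : ℂ),
      (((base q hq _ hI).2.2 x hx).sub ((base q hq _ hI').2.2 x hx)).const_smul (-Complex.I / 2)⟩
  refine ⟨⟨E, hE, fun q hq => ⟨fun t n δ gd x hx => ?_, fun t x y hx hy => (lipc q hq t x y hx hy).1,
      fun x hx => (contc q hq x hx).1, fun t x hx hs => by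
        simpa using (sym q hq t x hx hs).1⟩⟩,
    ⟨E, hE, fun q hq => ⟨fun t n δ gd x hx => ?_, fun t x y hx hy => by
        rw [sub_sub_sub_cancel_right]; exact (lipc q hq t x y hx hy).1,
      fun x hx => (contc q hq x hx).1.sub continuous_const, fun t x hx hs => by
        obtain ⟨⟨u1, u2⟩, -⟩ := sym q hq t x hx hs
        exact ⟨by rw [L1.conjc_sub, u1, L1.conjc_one], by rw [map_sub, u2, refl_one, one_smul]⟩⟩⟩,
    ⟨E, hE, fun q hq => ⟨fun t n δ gd x hx => ?_, fun t x y hx hy => (lipc q hq t x y hx hy).2,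
      fun x hx => (contc q hq x hx).2, fun t x hx hs => by
        obtain ⟨-, u1, u2⟩ := sym q hq t x hx hs
        exact ⟨u1, by rw [u2, neg_one_smul]⟩⟩⟩⟩
  · obtain ⟨-, p⟩ := (base q hq _ hI).1 t n δ gd x hx
    obtain ⟨-, m⟩ := (base q hq _ hI').1 t n δ gd x hx
    refine ((p.add gd.1 m).smul _).mono ?_
    rw [hhalf, zpow_zero, mul_one]
    linarith
  · obtain ⟨p, -⟩ := (base q hq _ hI).1 t n δ gd x hx
    obtain ⟨m, -⟩ := (base q hq _ hI').1 t n δ gd x hx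
    have e : cexpc (U q t x) (Θ q t x) - 1 = ((1 / 2 : ℝ) : ℂ) •
        ((rotE Complex.I (U q t x) (Θ q t x) - 1) + (rotE (-Complex.I) (U q t x) (Θ q t x) - 1)) := by
      ext k; simp [cexpc]; ring
    show L1.Bd n δ _ (cexpc (U q t x) (Θ q t x) - 1)
    rw [e]
    refine ((p.add gd.1 m).smul _).mono ?_
    rw [hhalf]
    nlinarith [zpow_nonneg (S.η_pos q hq).le a, Real.exp_pos R]
  · obtain ⟨p, -⟩ := (base q hq _ hI).1 t n δ gd x hx
    obtain ⟨m, -⟩ := (base q hq _ hI').1 t n δ gd x hx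
    have e : cexps (U q t x) (Θ q t x) = (-Complex.I / 2) •
        ((rotE Complex.I (U q t x) (Θ q t x) - 1) - (rotE (-Complex.I) (U q t x) (Θ q t x) - 1)) := by
      rw [cexps, sub_sub_sub_cancel_right]
    show L1.Bd n δ _ (cexps (U q t x) (Θ q t x))
    rw [e]
    refine ((p.sub gd.1 m).smul _).mono ?_
    rw [hI2]
    nlinarith [zpow_nonneg (S.η_pos q hq).le a, Real.exp_pos R]

end Est

end P205.Klein
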