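import Vale.Agent.P205.Klein.Sym

/-!
P205, Klein bottle: Hodge decomposition on a flat torus, through the coefficients, and means.
-/

namespace P205.Klein.Hodge

open P205.Tori P205.Tori.Fourier MeasureTheory

variable (Λ : Solve.Lat) {a b g : L1}

theorem F_inj (ha : Solve.IsR a) (hb : Solve.IsR b) (h : ∀ p, Λ.F a p = Λ.F b p) : a = b :=
  ext_ev fun z => by
    have := h (Λ.L z)
    simp only [Solve.Lat.F, Solve.Lat.W_L] at this
    rw [ha.ev_eq, hb.ev_eq, this]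

/-- The derivative of a series is a series. -/
theorem exists_deriv (ha : Solve.IsR a) (hd : RD (L1.coeff a)) (w : ℝ × ℝ) :
    ∃ c : L1, Solve.IsR c ∧ (∀ k, L1.coeff c k = phase k (Λ.W w) * L1.coeff a k) ∧
      ∀ p, fderiv ℝ (Λ.F a) p w = Λ.F c p := by
  refine ⟨L1.mk _ (hd.dcoef (Λ.W w)).summable_norm, ?_, fun k => rfl,
    Λ.fderiv_F hd w fun k => rfl⟩
  ext k
  have h := congrArg (fun x => L1.coeff x k) ha
  simp only [L1.coeff_conjc] at h
  simp only [L1.coeff_conjc, L1.coeff_mk, dcoef, map_mul, Λ.conj_phase, h]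

theorem coeff_of_deriv (ha : Solve.IsR a) (hb : Solve.IsR b) (hd : RD (L1.coeff a)) (w : ℝ × ℝ)
    (h : ∀ p, fderiv ℝ (Λ.F a) p w = Λ.F b p) (k : Idx) :
    L1.coeff b k = phase k (Λ.W w) * L1.coeff a k := by
  obtain ⟨c, hc, hk, hF⟩ := exists_deriv Λ ha hd w
  rw [F_inj Λ hb hc fun p => (h p).symm.trans (hF p), hk]

/-- The coefficients of a closed form. -/
theorem curl_coeff (ha : Solve.IsR a) (hb : Solve.IsR b) (hda : RD (L1.coeff a))
    (hdb : RD (L1.coeff b)) (h : ∀ p, dy (Λ.F a) p = dx (Λ.F b) p) (k : Idx) :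
    phase k (Λ.W (0, 1)) * L1.coeff a k = phase k (Λ.W (1, 0)) * L1.coeff b k := by
  obtain ⟨c, hc, hk, hF⟩ := exists_deriv Λ ha hda (0, 1)
  rw [← hk, coeff_of_deriv Λ hb hc hdb (1, 0) fun p => (h p).symm.trans (hF p)]

/-- A closed form is exact up to its mean. -/
theorem hodge_curl (ha : Solve.IsR a) (hb : Solve.IsR b) (hda : RD (L1.coeff a))
    (hdb : RD (L1.coeff b)) (h : ∀ p, dy (Λ.F a) p = dx (Λ.F b) p) :
    Λ.Mxx a + Λ.Mxy b = a - L1.coeff a 0 • (1 : L1) ∧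
      Λ.Mxy a + Λ.Myy b = b - L1.coeff b 0 • (1 : L1) := by
  have e := curl_coeff Λ ha hb hda hdb h
  rw [← Λ.lap_eq a, ← Λ.lap_eq b]
  constructor <;> ext k <;>
    simp only [Solve.Lat.Mxx, Solve.Lat.Mxy, Solve.Lat.Myy, L1.coeff_add, L1.coeff_multiplier,
      Solve.Lat.mxx, Solve.Lat.mxy, Solve.Lat.myy, Solve.Lat.mx, Solve.Lat.my]
  · linear_combination (-(phase k (Λ.W (0, 1)) * Λ.m0 k)) * e k
  · linear_combination (phase k (Λ.W (1, 0)) * Λ.m0 k) * e k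

/-- The potential of the divergence of a closed form. -/
theorem hodge {c : ℝ} (ha : Solve.IsR a) (hb : Solve.IsR b) (hg : Solve.IsR g)
    (hda : RD (L1.coeff a)) (hdb : RD (L1.coeff b))
    (h : ∀ p, dy (Λ.F a) p = dx (Λ.F b) p)
    (hd : ∀ p, Λ.F g p = c * (dx (Λ.F a) p + dy (Λ.F b) p)) :
    Λ.Mx g = (c : ℂ) • (a - L1.coeff a 0 • (1 : L1)) ∧
      Λ.My g = (c : ℂ) • (b - L1.coeff b 0 • (1 : L1)) := by
  obtain ⟨a', ha', ka, Fa⟩ := exists_deriv Λ ha hda (1, 0)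
  obtain ⟨b', hb', kb, Fb⟩ := exists_deriv Λ hb hdb (0, 1)
  have hgc : g = (c : ℂ) • (a' + b') := F_inj Λ hg ((ha'.add hb').smul c) fun p => by
    rw [hd, dx, dy, Fa, Fb]; simp [Solve.Lat.F, mul_add]
  obtain ⟨h1, h2⟩ := hodge_curl Λ ha hb hda hdb h
  rw [← h1, ← h2]
  constructor <;> ext k <;>
    simp only [hgc, Solve.Lat.Mx, Solve.Lat.My, Solve.Lat.Mxx, Solve.Lat.Mxy, Solve.Lat.Myy,
      L1.coeff_add, L1.coeff_smul, L1.coeff_multiplier, Solve.Lat.mxx, Solve.Lat.mxy,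
      Solve.Lat.myy, Solve.Lat.mx, Solve.Lat.my, ka, kb] <;>
    ring

theorem F_sub_mean (a : L1) (p : ℝ × ℝ) :
    Λ.F (a - L1.coeff a 0 • (1 : L1)) p = Λ.F a p - (L1.coeff a 0).re := by
  simp [Solve.Lat.F, L1.ev_one]

/-- The angle. -/
theorem theta (ha : Solve.IsR a) (hb : Solve.IsR b) (hda : RD (L1.coeff a))
    (hdb : RD (L1.coeff b)) (h : ∀ p, dy (Λ.F a) p = dx (Λ.F b) p) :
    ContDiff ℝ (⊤ : ℕ∞) (Λ.F (Λ.Mx a + Λ.My b)) ∧
    (∀ p, dx (Λ.F (Λ.Mx a + Λ.My b)) p = Λ.F a p - (L1.coeff a 0).re) ∧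
      ∀ p, dy (Λ.F (Λ.Mx a + Λ.My b)) p = Λ.F b p - (L1.coeff b 0).re := by
  obtain ⟨h1, h2⟩ := hodge_curl Λ ha hb hda hdb h
  have hr : RD (L1.coeff (Λ.Mx a + Λ.My b)) := by
    rw [show L1.coeff (Λ.Mx a + Λ.My b) = L1.coeff (Λ.Mx a) + L1.coeff (Λ.My b) from
      funext fun k => L1.coeff_add _ _ k]
    exact (Solve.Lat.rd_mult _ Λ.C_nonneg hda).add (Solve.Lat.rd_mult _ Λ.C_nonneg hdb)
  refine ⟨Λ.contDiff_F hr, fun p => ?_, fun p => ?_⟩
  · rw [← F_sub_mean, ← h1]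
    refine Λ.fderiv_F hr (1, 0) (fun k => ?_) p
    simp only [Solve.Lat.Mx, Solve.Lat.My, Solve.Lat.Mxx, Solve.Lat.Mxy, L1.coeff_add,
      L1.coeff_multiplier, Solve.Lat.mxx, Solve.Lat.mxy, Solve.Lat.mx, Solve.Lat.my]
    ring
  · rw [← F_sub_mean, ← h2]
    refine Λ.fderiv_F hr (0, 1) (fun k => ?_) p
    simp only [Solve.Lat.Mx, Solve.Lat.My, Solve.Lat.Mxy, Solve.Lat.Myy, L1.coeff_add,
      L1.coeff_multiplier, Solve.Lat.mxy, Solve.Lat.myy, Solve.Lat.mx, Solve.Lat.my]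
    ring

/-- The mean of a series is its coefficient at zero. -/
theorem integral_F (a : L1) : ∫ z in square, Λ.F a (Λ.L z) = (L1.coeff a 0).re := by
  have hi : IntegrableOn (fun z => L1.ev z a) square :=
    integrableOn_square (Continuous.comp (g := fun q : L1 × (ℝ × ℝ) => L1.ev q.2 q.1)
      (f := fun z => (a, z)) L1.continuous_ev (continuous_const.prodMk continuous_id))
  simp only [coeff_eq_integral, neg_zero, e_zero, one_mul, Solve.Lat.F, Solve.Lat.W_L]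
  exact integral_re hi

/-- An exact form has no mean. -/
theorem mean_zero {g₁ g₂ : ℝ × ℝ → ℝ} {m : ℝ} (h1 : ContDiff ℝ (⊤ : ℕ∞) g₁)
    (p1 : Periodic2 g₁ Λ.l₁ Λ.l₂) (h2 : ContDiff ℝ (⊤ : ℕ∞) g₂)
    (p2 : Periodic2 g₂ Λ.l₁ Λ.l₂) (a : L1) (h : ∀ p, dx g₂ p - dy g₁ p = m * Λ.F a p) :
    m * (L1.coeff a 0).re = 0 := by
  rw [← integral_F Λ, ← integral_const_mul]
  simp only [← h, dx, dy]
  have hi : ∀ {f : ℝ × ℝ → ℝ}, ContDiff ℝ (⊤ : ℕ∞) f → ∀ w : ℝ × ℝ,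
      IntegrableOn (fun z => fderiv ℝ f (Λ.L z) w) square := fun hf w =>
    (Continuous.continuousOn (((hf.continuous_fderiv (by simp)).comp Λ.L.continuous).clm_apply
      continuous_const)).integrableOn_compact (isCompact_Icc.prod isCompact_Icc)
      |>.mono_set (Set.prod_mono Set.Ioc_subset_Icc_self Set.Ioc_subset_Icc_self)
  rw [integral_sub (hi h2 _) (hi h1 _), Λ.integral_deriv_zero h2 p2,
    Λ.integral_deriv_zero h1 p1, sub_zero]

theorem coeff_zero_of_odd (h : refl a = -a) : L1.coeff a 0 = 0 := by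
  have h0 := congrArg (fun x => L1.coeff x 0) h
  have hf : flipK (0 : Idx) = 0 := by funext i; fin_cases i <;> simp [flipK]
  simp only [coeff_refl, L1.coeff_neg, hf, sgn, Pi.zero_apply, zpow_zero, one_mul] at h0
  linear_combination h0 / 2

/-- The glide is the reflection of the coefficients. -/
theorem F_glide {h P : ℝ} (e₁ : Λ.l₁ = (2 * h, 0)) (e₂ : Λ.l₂ = (0, P)) (a : L1) (p : ℝ × ℝ) :
    Λ.F a (glide h p) = Λ.F (refl a) p := by
  have hd : 2 * h * P ≠ 0 := by simpa [e₁, e₂] using Λ.det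
  obtain ⟨hh, hP⟩ := mul_ne_zero_iff.1 hd
  simp only [Solve.Lat.F, ev_refl, Solve.Lat.W_apply, Solve.Lat.d, e₁, e₂, glide]
  congr 4 <;> field_simp <;> ring

end P205.Klein.Hodge
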