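import Vale.Agent.P205.Tori.Interfaces

/-!
P205, Klein bottle (notes/P205/KLEIN.md): the statements of the modules (nothing is assumed here).
-/

namespace P205.Klein

open P205.Tori

/-- The standard glide of the Klein bottle, as a map of the plane. -/
noncomputable def glide₀ (z : ℝ × ℝ) : ℝ × ℝ := (z.1 + 1 / 2, -z.2)

/-- The glide of the rectangle `h, L`. -/
def glide (h : ℝ) (z : ℝ × ℝ) : ℝ × ℝ := (z.1 + h, -z.2)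

/-- The differential of a glide. -/
def flip (w : ℝ × ℝ) : ℝ × ℝ := (w.1, -w.2)

/-- Uniformization of Klein bottles: global conformal coordinates in which the glide is standard. -/
def UniformStmt : Prop :=
  ∀ g : TorusMetric, (∀ z w w', g.val (glide₀ z) (flip w) (flip w') = g.val z w w') →
    ∃ (h L : ℝ) (v : ℝ × ℝ → ℝ) (Z : ℝ × ℝ → ℝ × ℝ),
      0 < h ∧ 0 < L ∧ ContDiff ℝ (⊤ : ℕ∞) v ∧ Periodic2 v (2 * h, 0) (0, L) ∧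
      (∀ z, v (glide h z) = v z) ∧
      ContDiff ℝ (⊤ : ℕ∞) Z ∧ Function.Bijective Z ∧
      (∀ z, Z (z + (1, 0)) = Z z + (2 * h, 0) ∧ Z (z + (0, 1)) = Z z + (0, L)) ∧
      (∀ z, Z (glide₀ z) = glide h (Z z)) ∧
      ∀ z w w', g.val z w w'
        = Real.exp (2 * v (Z z)) * dot (fderiv ℝ Z z w) (fderiv ℝ Z z w')

/-- What the construction needs from the profile for one winding number `q`: the number `k` of
turns, the period `P t`, the logarithm `ω t` of the conformal factor and the immersion `Φ t` into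
the unit sphere. -/
structure ProfileData (h L C c₀ : ℝ) (q : ℕ) where
  k : ℕ
  P : ℝ → ℝ
  ω : ℝ → ℝ → ℝ
  Φ : ℝ → ℝ × ℝ → R4
  k_pos : 0 < k
  cont_P : ContinuousOn P (Set.Icc 0 1)
  P_ge : ∀ t ∈ Set.Icc (0 : ℝ) 1, L / 4 ≤ P t
  P_le : ∀ t ∈ Set.Icc (0 : ℝ) 1, P t ≤ 4 * L
  k_le : (k : ℝ) ≤ C * q
  left : 1 + c₀ ≤ L / P 0
  right : L / P 1 ≤ 1 - c₀
  smooth_ω : ∀ t ∈ Set.Icc (0 : ℝ) 1, ContDiff ℝ (⊤ : ℕ∞) (ω t)
  periodic_ω : ∀ t ∈ Set.Icc (0 : ℝ) 1, ∀ x, ω t (x + 1) = ω t x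
  even_ω : ∀ t ∈ Set.Icc (0 : ℝ) 1, ∀ x, ω t (-x) = ω t x
  bound_ω : ∀ j ≤ 4, ∀ t ∈ Set.Icc (0 : ℝ) 1, ∀ x, |iteratedDeriv j (ω t) x| ≤ C / q
  cont_ω : ∀ j ≤ 4,
    ContinuousOn (fun p : ℝ × ℝ => iteratedDeriv j (ω p.1) p.2) (Set.Icc 0 1 ×ˢ Set.univ)
  smooth_Φ : ∀ t ∈ Set.Icc (0 : ℝ) 1, ContDiff ℝ (⊤ : ℕ∞) (Φ t)
  norm_Φ : ∀ t ∈ Set.Icc (0 : ℝ) 1, ∀ z, ‖Φ t z‖ = 1
  periodic_Φ : ∀ t ∈ Set.Icc (0 : ℝ) 1, Periodic2 (Φ t) (2 * h, 0) (0, P t)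
  glide_Φ : ∀ t ∈ Set.Icc (0 : ℝ) 1, ∀ z, Φ t (glide h z) = Φ t z
  metric_Φ : ∀ t ∈ Set.Icc (0 : ℝ) 1, ∀ z w w',
    inner ℝ (fderiv ℝ (Φ t) z w) (fderiv ℝ (Φ t) z w')
      = (q * Real.pi / h) ^ 2 * Real.exp (2 * ω t (k * (z.2 / P t))) * dot w w'

/-- Nearly flat Klein bottles in the unit sphere. -/
def ProfileStmt : Prop :=
  ∀ h L : ℝ, 0 < h → 0 < L → ∃ (C c₀ : ℝ), 0 < C ∧ 0 < c₀ ∧
    ∀ N : ℕ, ∃ q : ℕ, N ≤ q ∧ Nonempty (ProfileData h L C c₀ q)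

/-- Immersions for metrics conformal to a rectangular flat Klein bottle. -/
def GoalStmt : Prop :=
  ∀ h L : ℝ, 0 < h → 0 < L → ∀ v : ℝ × ℝ → ℝ, ContDiff ℝ (⊤ : ℕ∞) v →
    Periodic2 v (2 * h, 0) (0, L) → (∀ z, v (glide h z) = v z) →
    ∃ F : ℝ × ℝ → R4, ContDiff ℝ (⊤ : ℕ∞) F ∧ Periodic2 F (2 * h, 0) (0, L) ∧
      (∀ z, F (glide h z) = F z) ∧
      ∀ z w w', inner ℝ (fderiv ℝ F z w) (fderiv ℝ F z w') = Real.exp (2 * v z) * dot w w'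

/-- Every metric on the Klein bottle is induced by an immersion into `ℝ⁴`. -/
def MetricGoalStmt : Prop :=
  ∀ g : TorusMetric, (∀ z w w', g.val (glide₀ z) (flip w) (flip w') = g.val z w w') →
    ∃ F : ℝ × ℝ → R4, ContDiff ℝ (⊤ : ℕ∞) F ∧ Periodic2 F (1, 0) (0, 1) ∧
      (∀ z, F (glide₀ z) = F z) ∧
      ∀ z w w', inner ℝ (fderiv ℝ F z w) (fderiv ℝ F z w') = g.val z w w'

end P205.Klein
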