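import Vale.Agent.P205.Tori.Defs

/-!
P205, Klein bottles: the template.

`Ψ = (cos f e^{i (ρ y + φ)}, sin f e^{i (y + ψ)})` with `f = arcsin ((ρ/ω) S (ω x))`,
`S = sin + γ sin³`, lies in the unit sphere, is invariant under `(x, y) ↦ (-x, y + π q)` for
`ρ = (q - 1)/q`, `q` odd, and induces the conformally flat metric `ρ² (1 + η S²)(dx² + dy²)`.
-/

namespace P205.Klein

open Real
open P205.Tori (R4 dot Periodic2)

/-- The profile. -/
noncomputable def prof (g X : ℝ) : ℝ := sin X + g * sin X ^ 3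

/-- The excess `b`. -/
noncomputable def bex (ρ ω : ℝ) : ℝ := (1 - 2 * ρ ^ 2) / ω ^ 2

/-- The coefficient `γ` of the profile. -/
noncomputable def gam (ρ ω : ℝ) : ℝ := (1 + bex ρ ω) / 6

/-- The size `η` of the conformal factor. -/
noncomputable def eta (ρ ω : ℝ) : ℝ := (1 - ρ ^ 2) / ω ^ 2

/-- The conformal factor `W²`, as a function of `X = ω x`. -/
noncomputable def wsq (ρ ω X : ℝ) : ℝ := ρ ^ 2 * (1 + eta ρ ω * prof (gam ρ ω) X ^ 2)

/-- The remainder under the square root. -/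
noncomputable def rest (ρ ω X : ℝ) : ℝ :=
  6 * gam ρ ω - 9 * gam ρ ω ^ 2 + 2 * bex ρ ω * gam ρ ω
    + (9 + bex ρ ω) * gam ρ ω ^ 2 * sin X ^ 2
    - (1 - ρ ^ 2) * ρ ^ 2 / ω ^ 4 * (1 + gam ρ ω * sin X ^ 2) ^ 4

/-- `sin f`. -/
noncomputable def sn (ρ ω X : ℝ) : ℝ := ρ / ω * prof (gam ρ ω) X

/-- The slope of the first phase. -/
noncomputable def slopeP (ρ ω X : ℝ) : ℝ :=
  -(sn ρ ω X * ρ * sin X ^ 2 * sqrt (rest ρ ω X))
    / ((1 - sn ρ ω X ^ 2) * sqrt (wsq ρ ω X))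

/-- The slope of the second phase. -/
noncomputable def slopeR (ρ ω X : ℝ) : ℝ :=
  ρ * ω * sin X * sqrt (rest ρ ω X) / ((1 + gam ρ ω * sin X ^ 2) * sqrt (wsq ρ ω X))

/-- The angle. -/
noncomputable def angle (ρ ω x : ℝ) : ℝ := arcsin (sn ρ ω (ω * x))

/-- The primitive of a slope. -/
noncomputable def phase (s : ℝ → ℝ) (ω x : ℝ) : ℝ := ∫ t in (0:ℝ)..x, s (ω * t)

/-- The template. -/
noncomputable def tmpl (ρ ω : ℝ) (z : ℝ × ℝ) : R4 :=
  WithLp.toLp 2 ![cos (angle ρ ω z.1) * cos (ρ * z.2 + phase (slopeP ρ ω) ω z.1),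
    cos (angle ρ ω z.1) * sin (ρ * z.2 + phase (slopeP ρ ω) ω z.1),
    sin (angle ρ ω z.1) * cos (z.2 + phase (slopeR ρ ω) ω z.1),
    sin (angle ρ ω z.1) * sin (z.2 + phase (slopeR ρ ω) ω z.1)]

section

variable {ρ ω : ℝ} (hρ : 0 < ρ) (hρ1 : ρ ≤ 1) (hω : 4 ≤ ω)
include hρ hρ1 hω

theorem consts : |bex ρ ω| ≤ 1/16 ∧ 0 ≤ gam ρ ω ∧ gam ρ ω ≤ 1/5 ∧ 0 ≤ eta ρ ω ∧
    0 ≤ (1 - ρ ^ 2) * ρ ^ 2 / ω ^ 4 ∧ (1 - ρ ^ 2) * ρ ^ 2 / ω ^ 4 ≤ 1/1024 := by
  have h2 : (16:ℝ) ≤ ω ^ 2 := by nlinarith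
  have h4 : (256:ℝ) ≤ ω ^ 4 := by nlinarith
  have hr : ρ ^ 2 ≤ 1 := by nlinarith
  have hb : |bex ρ ω| ≤ 1/16 := by
    rw [bex, abs_div, abs_of_pos (by positivity : (0:ℝ) < ω ^ 2), div_le_iff₀ (by positivity)]
    have : |1 - 2 * ρ ^ 2| ≤ 1 := abs_le.2 ⟨by nlinarith, by nlinarith⟩
    linarith
  obtain ⟨hb1, hb2⟩ := abs_le.1 hb
  refine ⟨hb, ?_, ?_, ?_, ?_, ?_⟩
  · unfold gam; linarith
  · unfold gam; linarith
  · unfold eta; apply div_nonneg (by linarith) (by positivity)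
  · exact div_nonneg (mul_nonneg (by linarith) (sq_nonneg ρ)) (by positivity)
  · rw [div_le_iff₀ (by positivity)]
    nlinarith [sq_nonneg (2 * ρ ^ 2 - 1)]

theorem rest_pos (X : ℝ) : 0 < rest ρ ω X := by
  obtain ⟨hb, hg0, hg1, -, hn0, hn1⟩ := consts hρ hρ1 hω
  obtain ⟨hb1, hb2⟩ := abs_le.1 hb
  have hs0 := sq_nonneg (sin X)
  have hs1 := sin_sq_le_one X
  have hg : 5/32 ≤ gam ρ ω := by unfold gam; linarith
  have h4 : (1 + gam ρ ω * sin X ^ 2) ^ 4 ≤ 3 := by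
    calc (1 + gam ρ ω * sin X ^ 2) ^ 4 ≤ (6/5 : ℝ) ^ 4 := by
          apply pow_le_pow_left₀ (by positivity)
          nlinarith
      _ ≤ 3 := by norm_num
  have hn : (1 - ρ ^ 2) * ρ ^ 2 / ω ^ 4 * (1 + gam ρ ω * sin X ^ 2) ^ 4 ≤ 1/1024 * 3 :=
    mul_le_mul hn1 h4 (by positivity) (by norm_num)
  have hp : 0 ≤ (9 + bex ρ ω) * gam ρ ω ^ 2 * sin X ^ 2 :=
    mul_nonneg (mul_nonneg (by linarith) (sq_nonneg _)) hs0
  have hm : 1/2 ≤ 6 * gam ρ ω - 9 * gam ρ ω ^ 2 + 2 * bex ρ ω * gam ρ ω := by nlinarith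
  unfold rest
  linarith

theorem sn_lt (X : ℝ) : |sn ρ ω X| < 1 := by
  obtain ⟨-, hg0, hg1, -, -, -⟩ := consts hρ hρ1 hω
  have h1 : |ρ / ω| ≤ 1/4 := by
    rw [abs_of_pos (by positivity), div_le_iff₀ (by linarith)]; linarith
  have h2 : |prof (gam ρ ω) X| ≤ 2 := by
    refine (abs_add_le _ _).trans ?_
    rw [abs_mul, abs_of_nonneg hg0, abs_pow]
    have := abs_sin_le_one X
    have : |sin X| ^ 3 ≤ 1 := pow_le_one₀ (abs_nonneg _) this
    nlinarith [abs_nonneg (sin X)]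
  rw [sn, abs_mul]
  calc |ρ / ω| * |prof (gam ρ ω) X| ≤ 1/4 * 2 := mul_le_mul h1 h2 (abs_nonneg _) (by norm_num)
    _ < 1 := by norm_num

theorem sn_sq_lt (X : ℝ) : sn ρ ω X ^ 2 < 1 := by
  rw [← sq_abs]; exact pow_lt_one₀ (abs_nonneg _) (sn_lt hρ hρ1 hω X) two_ne_zero

theorem wsq_pos (X : ℝ) : 0 < wsq ρ ω X := by
  obtain ⟨-, -, -, he, -, -⟩ := consts hρ hρ1 hω
  unfold wsq; positivity

theorem fac_pos (X : ℝ) : 0 < 1 + gam ρ ω * sin X ^ 2 := by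
  obtain ⟨-, hg, -, -, -, -⟩ := consts hρ hρ1 hω
  positivity

theorem contDiff_slopes : ContDiff ℝ (⊤ : ℕ∞) (slopeP ρ ω) ∧ ContDiff ℝ (⊤ : ℕ∞) (slopeR ρ ω) := by
  have h1 : ContDiff ℝ (⊤ : ℕ∞) fun X => sqrt (rest ρ ω X) :=
    ContDiff.sqrt (by unfold rest; fun_prop) fun X => (rest_pos hρ hρ1 hω X).ne'
  have h2 : ContDiff ℝ (⊤ : ℕ∞) fun X => sqrt (wsq ρ ω X) :=
    ContDiff.sqrt (by unfold wsq prof; fun_prop) fun X => (wsq_pos hρ hρ1 hω X).ne'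
  have h3 : ContDiff ℝ (⊤ : ℕ∞) (sn ρ ω) := by unfold sn prof; fun_prop
  exact ⟨(((h3.mul contDiff_const).mul (contDiff_sin.pow 2)).mul h1).neg.div
      ((contDiff_const.sub (h3.pow 2)).mul h2) fun X =>
        (mul_pos (sub_pos.2 (sn_sq_lt hρ hρ1 hω X)) (sqrt_pos.2 (wsq_pos hρ hρ1 hω X))).ne',
    ((contDiff_const.mul contDiff_sin).mul h1).div
      ((contDiff_const.add (contDiff_const.mul (contDiff_sin.pow 2))).mul h2) fun X =>
        (mul_pos (fac_pos hρ hρ1 hω X) (sqrt_pos.2 (wsq_pos hρ hρ1 hω X))).ne'⟩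

theorem contDiff_angle : ContDiff ℝ (⊤ : ℕ∞) (angle ρ ω) :=
  contDiff_iff_contDiffAt.2 fun x =>
    (contDiffAt_arcsin (ne_of_gt (abs_lt.1 (sn_lt hρ hρ1 hω (ω * x))).1)
      (ne_of_lt (abs_lt.1 (sn_lt hρ hρ1 hω (ω * x))).2)).comp x
      (by unfold sn prof; fun_prop : ContDiffAt ℝ (⊤ : ℕ∞) (fun x => sn ρ ω (ω * x)) x)

omit hρ hρ1 hω in
theorem hasDerivAt_phase {s : ℝ → ℝ} (hs : Continuous s) (x : ℝ) :
    HasDerivAt (phase s ω) (s (ω * x)) x :=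
  ((hs.comp (continuous_const_mul ω)).integral_hasStrictDerivAt 0 x).hasDerivAt

omit hρ hρ1 hω in
theorem contDiff_phase {s : ℝ → ℝ} (hs : ContDiff ℝ (⊤ : ℕ∞) s) :
    ContDiff ℝ (⊤ : ℕ∞) (phase s ω) := by
  refine contDiff_infty_iff_deriv.2 ⟨fun x => (hasDerivAt_phase hs.continuous x).differentiableAt, ?_⟩
  rw [funext fun x => (hasDerivAt_phase (ω := ω) hs.continuous x).deriv]
  exact hs.comp (contDiff_const.mul contDiff_id)

theorem contDiff_tmpl : ContDiff ℝ (⊤ : ℕ∞) (tmpl ρ ω) := by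
  obtain ⟨h1, h2⟩ := contDiff_slopes hρ hρ1 hω
  have hf : ContDiff ℝ (⊤ : ℕ∞) fun z : ℝ × ℝ => angle ρ ω z.1 :=
    (contDiff_angle hρ hρ1 hω).comp contDiff_fst
  have hp : ContDiff ℝ (⊤ : ℕ∞) fun z : ℝ × ℝ => ρ * z.2 + phase (slopeP ρ ω) ω z.1 :=
    (contDiff_const.mul contDiff_snd).add ((contDiff_phase h1).comp contDiff_fst)
  have hq : ContDiff ℝ (⊤ : ℕ∞) fun z : ℝ × ℝ => z.2 + phase (slopeR ρ ω) ω z.1 :=
    contDiff_snd.add ((contDiff_phase h2).comp contDiff_fst)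
  refine contDiff_euclidean.2 fun i => ?_
  fin_cases i
  · exact hf.cos.mul hp.cos
  · exact hf.cos.mul hp.sin
  · exact hf.sin.mul hq.cos
  · exact hf.sin.mul hq.sin

omit hρ hρ1 hω in
theorem norm_tmpl (z : ℝ × ℝ) : ‖tmpl ρ ω z‖ = 1 := by
  have h2 : ‖tmpl ρ ω z‖ ^ 2 = 1 := by
    rw [EuclideanSpace.norm_sq_eq, Fin.sum_univ_four]
    simp only [tmpl, Real.norm_eq_abs, sq_abs, Matrix.cons_val_zero, Matrix.cons_val_one,
      Matrix.cons_val]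
    linear_combination cos (angle ρ ω z.1) ^ 2 * cos_sq_add_sin_sq (ρ * z.2 + phase (slopeP ρ ω) ω z.1)
      + sin (angle ρ ω z.1) ^ 2 * cos_sq_add_sin_sq (z.2 + phase (slopeR ρ ω) ω z.1)
      + cos_sq_add_sin_sq (angle ρ ω z.1)
  exact (pow_eq_one_iff_of_nonneg (norm_nonneg _) two_ne_zero).1 h2

/-- The three scalar identities. -/
theorem scalar_identities (X : ℝ) :
    let S := sn ρ ω X
    let P := slopeP ρ ω X
    let R := slopeR ρ ω X
    let F := ρ * cos X * (1 + 3 * gam ρ ω * sin X ^ 2) / sqrt (1 - S ^ 2)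
    ρ ^ 2 * (1 - S ^ 2) + S ^ 2 = wsq ρ ω X ∧
      ρ * (1 - S ^ 2) * P + S ^ 2 * R = 0 ∧
      F ^ 2 + (1 - S ^ 2) * P ^ 2 + S ^ 2 * R ^ 2 = wsq ρ ω X := by
  intro S P R F
  have hS := sn_sq_lt hρ hρ1 hω X
  have hR := rest_pos hρ hρ1 hω X
  have hW := wsq_pos hρ hρ1 hω X
  have hF := fac_pos hρ hρ1 hω X
  have hW0 := (sqrt_pos.2 hW).ne'
  have hω0 : ω ≠ 0 := by linarith
  have e1 : ρ ^ 2 * (1 - S ^ 2) + S ^ 2 = wsq ρ ω X := by
    simp only [S, sn, wsq, eta]; field_simp; ring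
  have eS : S = ρ * sin X * (1 + gam ρ ω * sin X ^ 2) / ω := by
    simp only [S, sn, prof]; ring
  refine ⟨e1, ?_, ?_⟩
  · simp only [P, R, slopeP, slopeR]
    have : (1 : ℝ) - sn ρ ω X ^ 2 ≠ 0 := by linarith
    field_simp
    rw [show sn ρ ω X = S from rfl, eS]
    field_simp
    ring
  · have k0 : (1:ℝ) - S ^ 2 ≠ 0 := by simp only [S]; linarith
    have kR : R ^ 2 = ρ ^ 2 * ω ^ 2 * sin X ^ 2 * rest ρ ω X
        / ((1 + gam ρ ω * sin X ^ 2) ^ 2 * wsq ρ ω X) := by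
      simp only [R, slopeR, div_pow, mul_pow, sq_sqrt hR.le, sq_sqrt hW.le]
    have kP : P ^ 2 = S ^ 2 * ρ ^ 2 * sin X ^ 4 * rest ρ ω X
        / ((1 - S ^ 2) ^ 2 * wsq ρ ω X) := by
      simp only [P, S, slopeP, div_pow, neg_sq, mul_pow, sq_sqrt hR.le, sq_sqrt hW.le]
      ring
    have kF : F ^ 2 = ρ ^ 2 * cos X ^ 2 * (1 + 3 * gam ρ ω * sin X ^ 2) ^ 2 / (1 - S ^ 2) := by
      simp only [F, S, div_pow, mul_pow, sq_sqrt (sub_nonneg.2 hS.le)]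
    have kmid : (1 - S ^ 2) * P ^ 2 + S ^ 2 * R ^ 2 = ρ ^ 2 * sin X ^ 4 * rest ρ ω X / (1 - S ^ 2) := by
      have k1 : S ^ 2 * R ^ 2 = ρ ^ 4 * sin X ^ 4 * rest ρ ω X / wsq ρ ω X := by
        rw [kR, eS]
        have := hW.ne'
        generalize hV : 1 + gam ρ ω * sin X ^ 2 = V at hF ⊢
        have := hF.ne'
        field_simp
      rw [k1, kP]
      have := hW.ne'
      generalize rest ρ ω X = Q
      generalize wsq ρ ω X = W at this e1 ⊢
      clear_value S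
      field_simp
      rw [← e1]
      ring
    rw [add_assoc, kmid, kF, ← add_div, div_eq_iff k0, eS, wsq, eta, rest, prof]
    rw [gam, bex, cos_sq']
    field_simp
    ring

theorem hasDerivAt_angle (x : ℝ) : HasDerivAt (angle ρ ω)
    (ρ * cos (ω * x) * (1 + 3 * gam ρ ω * sin (ω * x) ^ 2) / sqrt (1 - sn ρ ω (ω * x) ^ 2)) x := by
  have hl := abs_lt.1 (sn_lt hρ hρ1 hω (ω * x))
  have hω0 : ω ≠ 0 := by linarith
  have h1 : HasDerivAt (fun x => ω * x) ω x := by simpa using (hasDerivAt_id x).const_mul ω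
  have h2 : HasDerivAt (fun x => sn ρ ω (ω * x))
      (ρ * cos (ω * x) * (1 + 3 * gam ρ ω * sin (ω * x) ^ 2)) x := by
    refine ((h1.sin.add ((h1.sin.pow 3).const_mul (gam ρ ω))).const_mul (ρ / ω)).congr_deriv ?_
    simp only [Nat.cast_ofNat]
    field_simp
  exact ((hasDerivAt_arcsin hl.1.ne' hl.2.ne).comp x h2).congr_deriv (by ring)

theorem metric_tmpl (z w w' : ℝ × ℝ) :
    inner ℝ (fderiv ℝ (tmpl ρ ω) z w) (fderiv ℝ (tmpl ρ ω) z w')
      = wsq ρ ω (ω * z.1) * dot w w' := by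
  have hdiff : DifferentiableAt ℝ (tmpl ρ ω) z :=
    (contDiff_tmpl hρ hρ1 hω).differentiable (by simp) z
  obtain ⟨hs1, hs2⟩ := contDiff_slopes hρ hρ1 hω
  have hl := abs_lt.1 (sn_lt hρ hρ1 hω (ω * z.1))
  have hC : cos (angle ρ ω z.1) ^ 2 = 1 - sn ρ ω (ω * z.1) ^ 2 := by
    rw [angle, cos_arcsin, sq_sqrt (by nlinarith)]
  have hS : sin (angle ρ ω z.1) = sn ρ ω (ω * z.1) := by
    rw [angle, sin_arcsin hl.1.le hl.2.le]
  obtain ⟨k0, k1, k2⟩ := scalar_identities hρ hρ1 hω (ω * z.1)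
  set C := cos (angle ρ ω z.1)
  set S := sin (angle ρ ω z.1)
  set A := ρ * z.2 + phase (slopeP ρ ω) ω z.1
  set B := z.2 + phase (slopeR ρ ω) ω z.1
  set F := ρ * cos (ω * z.1) * (1 + 3 * gam ρ ω * sin (ω * z.1) ^ 2)
    / sqrt (1 - sn ρ ω (ω * z.1) ^ 2)
  set p := slopeP ρ ω (ω * z.1)
  set r := slopeR ρ ω (ω * z.1)
  rw [← hS] at k0 k1 k2
  set L : ℝ × ℝ → Fin 4 → ℝ := fun u =>
    ![-S * (F * u.1) * cos A + C * (-sin A * (ρ * u.2 + p * u.1)),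
      -S * (F * u.1) * sin A + C * (cos A * (ρ * u.2 + p * u.1)),
      C * (F * u.1) * cos B + S * (-sin B * (u.2 + r * u.1)),
      C * (F * u.1) * sin B + S * (cos B * (u.2 + r * u.1))] with hL
  have hfd : ∀ u, fderiv ℝ (tmpl ρ ω) z u = WithLp.toLp 2 (L u) := by
    intro u
    rw [← hdiff.lineDeriv_eq_fderiv]
    refine HasDerivAt.deriv ?_
    suffices hpi : ∀ i, HasDerivAt (fun t : ℝ => WithLp.ofLp (tmpl ρ ω (z + t • u)) i) (L u i) 0 from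
      ((PiLp.hasFDerivAt_toLp (𝕜 := ℝ) 2 (fun i => WithLp.ofLp (tmpl ρ ω (z + (0:ℝ) • u)) i)).comp_hasDerivAt
        (0:ℝ) (hasDerivAt_pi.2 hpi) :)
    intro i
    have l1 : HasDerivAt (fun t : ℝ => z.1 + t * u.1) u.1 0 := by
      simpa using ((hasDerivAt_id (0:ℝ)).mul_const u.1).const_add z.1
    have l2 : HasDerivAt (fun t : ℝ => z.2 + t * u.2) u.2 0 := by
      simpa using ((hasDerivAt_id (0:ℝ)).mul_const u.2).const_add z.2
    have f1 := (hasDerivAt_angle hρ hρ1 hω z.1).comp_of_eq (0:ℝ) l1 (by simp)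
    have p1 := (l2.const_mul ρ).add
      ((hasDerivAt_phase (ω := ω) hs1.continuous z.1).comp_of_eq (0:ℝ) l1 (by simp))
    have q1 := l2.add
      ((hasDerivAt_phase (ω := ω) hs2.continuous z.1).comp_of_eq (0:ℝ) l1 (by simp))
    fin_cases i
    · refine ((f1.cos.mul p1.cos).congr_deriv ?_).congr_of_eventuallyEq
        (Filter.Eventually.of_forall fun t => by simp [tmpl])
      simp [hL, C, S, A, F, p]
    · refine ((f1.cos.mul p1.sin).congr_deriv ?_).congr_of_eventuallyEq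
        (Filter.Eventually.of_forall fun t => by simp [tmpl])
      simp [hL, C, S, A, F, p]
    · refine ((f1.sin.mul q1.cos).congr_deriv ?_).congr_of_eventuallyEq
        (Filter.Eventually.of_forall fun t => by simp [tmpl])
      simp [hL, C, S, B, F, r]
    · refine ((f1.sin.mul q1.sin).congr_deriv ?_).congr_of_eventuallyEq
        (Filter.Eventually.of_forall fun t => by simp [tmpl])
      simp [hL, C, S, B, F, r]
  rw [hfd, hfd, PiLp.inner_apply, Fin.sum_univ_four]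
  simp only [hL, RCLike.inner_apply, conj_trivial, Matrix.cons_val_zero, Matrix.cons_val_one,
    Matrix.cons_val]
  rw [dot]
  linear_combination (w.1 * w'.1) * k2 + (w.1 * w'.2 + w.2 * w'.1) * k1 + (w.2 * w'.2) * k0
    + (S ^ 2 * (F * w.1) * (F * w'.1) + C ^ 2 * (ρ * w.2 + p * w.1) * (ρ * w'.2 + p * w'.1))
        * cos_sq_add_sin_sq A
    + (C ^ 2 * (F * w.1) * (F * w'.1) + S ^ 2 * (w.2 + r * w.1) * (w'.2 + r * w'.1))
        * cos_sq_add_sin_sq B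
    + ((F * w.1) * (F * w'.1) + (ρ * w.2 + p * w.1) * (ρ * w'.2 + p * w'.1)) * hC
    + ((F * w.1) * (F * w'.1) + (ρ * w.2 + p * w.1) * (ρ * w'.2 + p * w'.1)) * (congrArg (· ^ 2) hS)

omit hρ hρ1 hω in
theorem odd_slopes (X : ℝ) : sn ρ ω (-X) = -sn ρ ω X ∧ slopeP ρ ω (-X) = -slopeP ρ ω X ∧
    slopeR ρ ω (-X) = -slopeR ρ ω X := by
  have hp : prof (gam ρ ω) (-X) = -prof (gam ρ ω) X := by simp [prof]; ring
  have hs : sn ρ ω (-X) = -sn ρ ω X := by simp [sn, hp]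
  refine ⟨hs, ?_, ?_⟩
  · simp [slopeP, hs, wsq, rest, hp]; ring
  · simp [slopeR, wsq, rest, hp]; ring

omit hρ hρ1 hω in
theorem periodic_slopes : Function.Periodic (slopeP ρ ω) (2 * π) ∧
    Function.Periodic (slopeR ρ ω) (2 * π) :=
  ⟨fun X => by simp [slopeP, sn, wsq, rest, prof], fun X => by simp [slopeR, wsq, rest, prof]⟩

omit hρ hρ1 in
/-- The primitive of an odd periodic function is even and periodic. -/
theorem phase_symm {s : ℝ → ℝ} (hs : Continuous s) (hodd : ∀ X, s (-X) = -s X)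
    (hper : Function.Periodic s (2 * π)) (x : ℝ) :
    phase s ω (-x) = phase s ω x ∧ phase s ω (x + 2 * π / ω) = phase s ω x := by
  have hω0 : ω ≠ 0 := by linarith
  have hd := fun x => hasDerivAt_phase (ω := ω) hs x
  have he : ∀ x, phase s ω (-x) = phase s ω x := fun x => by
    have h1 : ∀ y, HasDerivAt (fun y => phase s ω (-y) - phase s ω y) 0 y := fun y => by
      refine (((hd (-y)).comp y (hasDerivAt_neg y)).sub (hd y)).congr_deriv ?_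
      simp only [mul_neg, hodd]; ring
    have h2 := is_const_of_deriv_eq_zero (fun y => (h1 y).differentiableAt) (fun y => (h1 y).deriv) x 0
    simpa [sub_eq_zero] using h2
  refine ⟨he x, ?_⟩
  have h1 : ∀ y, HasDerivAt (fun y => phase s ω (y + 2 * π / ω) - phase s ω y) 0 y := fun y => by
    refine (((hd (y + 2 * π / ω)).comp y ((hasDerivAt_id y).add_const _)).sub (hd y)).congr_deriv ?_
    rw [mul_add, mul_div_cancel₀ _ hω0, hper]; ring
  have h2 := is_const_of_deriv_eq_zero (fun y => (h1 y).differentiableAt) (fun y => (h1 y).deriv)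
    x (-(π / ω))
  rw [show -(π / ω) + 2 * π / ω = π / ω by ring, he] at h2
  linarith

theorem periodic_tmpl (z : ℝ × ℝ) : tmpl ρ ω (z + (2 * π / ω, 0)) = tmpl ρ ω z := by
  obtain ⟨hs1, hs2⟩ := contDiff_slopes hρ hρ1 hω
  obtain ⟨hp1, hp2⟩ := periodic_slopes (ρ := ρ) (ω := ω)
  have hω0 : ω ≠ 0 := by linarith
  have e1 := (phase_symm hω hs1.continuous (fun X => (odd_slopes X).2.1) hp1 z.1).2
  have e2 := (phase_symm hω hs2.continuous (fun X => (odd_slopes X).2.2) hp2 z.1).2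
  have e3 : angle ρ ω (z.1 + 2 * π / ω) = angle ρ ω z.1 := by
    simp [angle, sn, prof, mul_add, mul_div_cancel₀ _ hω0]
  simp only [tmpl, Prod.fst_add, Prod.snd_add, add_zero, e1, e2, e3]

/-- The glide. -/
theorem glide_tmpl {q : ℕ} (hq : Odd q) (hρq : ρ * q = q - 1) (x y : ℝ) :
    tmpl ρ ω (-x, y + π * q) = tmpl ρ ω (x, y) := by
  obtain ⟨hs1, hs2⟩ := contDiff_slopes hρ hρ1 hω
  obtain ⟨hp1, hp2⟩ := periodic_slopes (ρ := ρ) (ω := ω)
  have e1 := (phase_symm hω hs1.continuous (fun X => (odd_slopes X).2.1) hp1 x).1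
  have e2 := (phase_symm hω hs2.continuous (fun X => (odd_slopes X).2.2) hp2 x).1
  have e3 : angle ρ ω (-x) = -angle ρ ω x := by
    simp [angle, (odd_slopes (ρ := ρ) (ω := ω) (ω * x)).1, arcsin_neg]
  obtain ⟨k, rfl⟩ := hq
  push_cast at hρq
  have a1 : ρ * (y + π * ((2 * k + 1 : ℕ) : ℝ)) + phase (slopeP ρ ω) ω x
      = ρ * y + phase (slopeP ρ ω) ω x + k * (2 * π) := by
    push_cast; linear_combination π * hρq
  have a2 : y + π * ((2 * k + 1 : ℕ) : ℝ) + phase (slopeR ρ ω) ω x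
      = y + phase (slopeR ρ ω) ω x + π + k * (2 * π) := by
    push_cast; ring
  simp only [tmpl, e1, e2, e3, a1, a2, cos_neg, sin_neg, cos_add_nat_mul_two_pi,
    sin_add_nat_mul_two_pi, cos_add_pi, sin_add_pi, neg_mul_neg]

end

end P205.Klein
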