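import Vale.Agent.P205.Klein.Interfaces
import Vale.Agent.P205.Klein.Template

/-!
P205, Klein bottles, module Profile: nearly flat Klein bottles in the unit sphere (`ProfileStmt`).
-/

namespace P205.Klein

open Real
open P205.Tori (R4 dot Periodic2)

/-- The normalised derivative of the logarithmic profile, a function of `(√η, γ, x)`. -/
noncomputable def logSlope (p : ℝ × ℝ × ℝ) : ℝ :=
  prof p.2.1 (2 * π * p.2.2) * (2 * π * cos (2 * π * p.2.2) * (1 + 3 * p.2.1 * sin (2 * π * p.2.2) ^ 2))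
    / (1 + p.1 ^ 2 * prof p.2.1 (2 * π * p.2.2) ^ 2)

/-- The derivative in the last variable. -/
noncomputable def dlast (F : ℝ × ℝ × ℝ → ℝ) (p : ℝ × ℝ × ℝ) : ℝ := fderiv ℝ F p (0, 0, 1)

theorem contDiff_logSlope : ContDiff ℝ (⊤ : ℕ∞) logSlope := by
  unfold logSlope prof
  refine ContDiff.div (by fun_prop) (by fun_prop) fun p => ?_
  positivity

theorem iterate_dlast (j : ℕ) : ContDiff ℝ (⊤ : ℕ∞) (dlast^[j] logSlope) ∧
    ∀ p : ℝ × ℝ × ℝ, dlast^[j] logSlope (p + (0, 0, 1)) = dlast^[j] logSlope p := by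
  induction j with
  | zero =>
    refine ⟨contDiff_logSlope, fun p => ?_⟩
    have e : 2 * π * (p.2.2 + 1) = 2 * π * p.2.2 + 2 * π := by ring
    simp [logSlope, prof, e]
  | succ j ih =>
    rw [Function.iterate_succ_apply']
    refine ⟨(ih.1.fderiv_right (by norm_cast)).clm_apply contDiff_const, fun p => ?_⟩
    simp only [dlast]
    rw [← fderiv_comp_add_right (0, 0, 1), funext ih.2]

theorem bound_dlast (j : ℕ) : ∃ B, 0 ≤ B ∧ ∀ e ∈ Set.Icc (0 : ℝ) 1, ∀ g ∈ Set.Icc (0 : ℝ) 1, ∀ x,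
    |dlast^[j] logSlope (e, g, x)| ≤ B := by
  obtain ⟨hc, hp⟩ := iterate_dlast j
  obtain ⟨B, hB⟩ := (isCompact_Icc.prod (isCompact_Icc.prod isCompact_Icc)).exists_bound_of_continuousOn
    (s := Set.Icc (0 : ℝ) 1 ×ˢ Set.Icc (0 : ℝ) 1 ×ˢ Set.Icc (0 : ℝ) 1) hc.continuous.continuousOn
  refine ⟨max B 0, le_max_right _ _, fun e he g hg x => ?_⟩
  have hper : Function.Periodic (fun y => dlast^[j] logSlope (e, g, y)) 1 := fun y => by
    have := hp (e, g, y); simpa using this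
  have hfr : dlast^[j] logSlope (e, g, x - (⌊x⌋ : ℝ) * 1) = dlast^[j] logSlope (e, g, x) :=
    hper.sub_int_mul_eq ⌊x⌋ (x := x)
  rw [mul_one, Int.self_sub_floor] at hfr
  rw [← hfr]
  exact (hB (e, g, Int.fract x)
    ⟨he, hg, Int.fract_nonneg _, (Int.fract_lt_one _).le⟩).trans (le_max_left _ _)

/-- The logarithm of the conformal factor, as a function of the turns. -/
noncomputable def om (ρ w x : ℝ) : ℝ := log (wsq ρ w (2 * π * x)) / 2

section

variable {ρ w : ℝ} (hρ : 0 < ρ) (hρ1 : ρ ≤ 1) (hw : 4 ≤ w)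
include hρ hρ1 hw

theorem iteratedDeriv_om (j : ℕ) : iteratedDeriv (j + 1) (om ρ w)
    = fun x => eta ρ w * dlast^[j] logSlope (sqrt (eta ρ w), gam ρ w, x) := by
  obtain ⟨-, -, -, he, -, -⟩ := consts hρ hρ1 hw
  induction j with
  | zero =>
    funext x
    rw [iteratedDeriv_one]
    refine HasDerivAt.deriv ?_
    have h1 : HasDerivAt (fun x => 2 * π * x) (2 * π) x := by
      simpa using (hasDerivAt_id x).const_mul (2 * π)
    have hp := h1.sin.add ((h1.sin.pow 3).const_mul (gam ρ w))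
    have h2 : HasDerivAt (fun x => wsq ρ w (2 * π * x)) _ x :=
      ((((hp.pow 2).const_mul (eta ρ w)).const_add 1).const_mul (ρ ^ 2))
    have hW := wsq_pos hρ hρ1 hw (2 * π * x)
    refine ((h2.log hW.ne').div_const 2).congr_deriv ?_
    simp only [Function.iterate_zero, id_eq, logSlope, wsq, prof, sq_sqrt he, Pi.add_apply,
      Pi.pow_apply, Nat.cast_ofNat]
    have : 0 < 1 + eta ρ w * (sin (2 * π * x) + gam ρ w * sin (2 * π * x) ^ 3) ^ 2 := by positivity
    field_simp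
    ring
  | succ j ih =>
    funext x
    rw [iteratedDeriv_succ, ih, Function.iterate_succ_apply']
    refine HasDerivAt.deriv ?_
    have hc := (((iterate_dlast j).1.differentiable (by simp)) (sqrt (eta ρ w), gam ρ w, x)).hasFDerivAt
    exact (hc.comp_hasDerivAt x ((hasDerivAt_const x (sqrt (eta ρ w))).prodMk
      ((hasDerivAt_const x (gam ρ w)).prodMk (hasDerivAt_id x)))).const_mul (eta ρ w)

theorem abs_om_le (x : ℝ) : |om ρ w x| ≤ ((1 - ρ ^ 2) / ρ ^ 2 + 4 * eta ρ w) / 2 := by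
  obtain ⟨-, hg0, hg1, he, -, -⟩ := consts hρ hρ1 hw
  set S := prof (gam ρ w) (2 * π * x) with hS
  have hS2 : S ^ 2 ≤ 4 := by
    have h2 : |S| ≤ 2 := by
      refine (abs_add_le _ _).trans ?_
      rw [abs_mul, abs_of_nonneg hg0, abs_pow]
      have := abs_sin_le_one (2 * π * x)
      have : |sin (2 * π * x)| ^ 3 ≤ 1 := pow_le_one₀ (abs_nonneg _) this
      nlinarith [abs_nonneg (sin (2 * π * x))]
    rw [← sq_abs]; nlinarith [abs_nonneg S]
  have h1 : 0 < 1 + eta ρ w * S ^ 2 := by positivity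
  have hl1 := one_sub_inv_le_log_of_pos (pow_pos hρ 2)
  have hl2 := log_le_sub_one_of_pos (pow_pos hρ 2)
  have hl3 := log_le_sub_one_of_pos h1
  have hl4 := log_nonneg (by nlinarith [sq_nonneg S] : (1 : ℝ) ≤ 1 + eta ρ w * S ^ 2)
  have e : (1 - ρ ^ 2) / ρ ^ 2 = (ρ ^ 2)⁻¹ - 1 := by field_simp
  have hr : ρ ^ 2 ≤ 1 := by nlinarith
  have h4 : eta ρ w * S ^ 2 ≤ 4 * eta ρ w := by nlinarith
  rw [om, abs_div, abs_two, div_le_div_iff_of_pos_right two_pos, wsq, ← hS,
    log_mul (by positivity) h1.ne', e, abs_le]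
  constructor <;> linarith

theorem eta_le {q : ℝ} (hq : 3 ≤ q) (hq2 : 1 - ρ ^ 2 ≤ 2 / q) :
    eta ρ w ≤ 1 / (8 * q) ∧ sqrt (eta ρ w) ≤ 1 ∧ gam ρ w ∈ Set.Icc (0:ℝ) 1 := by
  obtain ⟨-, hg0, hg1, he0, -, -⟩ := consts hρ hρ1 hw
  have h16 : (16 : ℝ) ≤ w ^ 2 := by nlinarith
  have h1 : eta ρ w ≤ 1 / (8 * q) := by
    rw [eta, div_le_iff₀ (by linarith)]
    refine hq2.trans ?_
    rw [div_mul_eq_mul_div, div_le_div_iff₀ (by linarith) (by linarith)]
    nlinarith
  refine ⟨h1, (sqrt_le_left zero_le_one).2 ?_, hg0, hg1.trans (by norm_num)⟩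
  refine h1.trans ?_
  rw [div_le_iff₀ (by linarith)]
  linarith

/-- The bound on the first derivatives of the logarithmic profile. -/
theorem bound_om {q : ℝ} (hq : 3 ≤ q) (hq2 : 1 - ρ ^ 2 ≤ 2 / q) (hq3 : 4/9 ≤ ρ ^ 2) {B : ℕ → ℝ}
    (hB0 : ∀ j, 0 ≤ B j)
    (hB : ∀ j, ∀ e ∈ Set.Icc (0 : ℝ) 1, ∀ g ∈ Set.Icc (0 : ℝ) 1, ∀ x,
      |dlast^[j] logSlope (e, g, x)| ≤ B j) {j : ℕ} (hj : j ≤ 4) (x : ℝ) :
    |iteratedDeriv j (om ρ w) x| ≤ (3 + (B 0 + B 1 + B 2 + B 3)) / q := by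
  obtain ⟨he1, hes, hg⟩ := eta_le hρ hρ1 hw hq hq2
  obtain ⟨-, -, -, he0, -, -⟩ := consts hρ hρ1 hw
  rcases j with _ | i
  · rw [iteratedDeriv_zero]
    refine (abs_om_le hρ hρ1 hw x).trans ?_
    have h1 : (1 - ρ ^ 2) / ρ ^ 2 ≤ 2 / q / (4/9) :=
      div_le_div₀ (by positivity) hq2 (by norm_num) hq3
    have : (2:ℝ) / q / (4/9) = 9 / 2 * (1 / q) := by ring
    have : (1:ℝ) / (8 * q) = 1 / 8 * (1 / q) := by ring
    have : (3 + (B 0 + B 1 + B 2 + B 3)) / q = (3 + (B 0 + B 1 + B 2 + B 3)) * (1 / q) := by ring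
    have h' : (0:ℝ) < 1 / q := by positivity
    have h'' : 0 ≤ (B 0 + B 1 + B 2 + B 3) * (1 / q) := by
      have := hB0 0; have := hB0 1; have := hB0 2; have := hB0 3; positivity
    linarith
  · rw [iteratedDeriv_om hρ hρ1 hw i, abs_mul, abs_of_nonneg he0]
    refine (mul_le_mul he1 (hB i _ ⟨sqrt_nonneg _, hes⟩ _ hg x) (abs_nonneg _)
      (by positivity)).trans ?_
    have hi : B i ≤ 3 + (B 0 + B 1 + B 2 + B 3) := by
      have : i ≤ 3 := by omega
      interval_cases i <;> linarith [hB0 0, hB0 1, hB0 2, hB0 3]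
    rw [div_mul_eq_mul_div, one_mul, div_le_div_iff₀ (by positivity) (by linarith)]
    nlinarith [hB0 i]

omit hw in
/-- The profile depends continuously on the parameter. -/
theorem continuousOn_om {W : ℝ → ℝ} (hW : Continuous W)
    (hW4 : ∀ t ∈ Set.Icc (0 : ℝ) 1, 4 ≤ W t) (j : ℕ) :
    ContinuousOn (fun p : ℝ × ℝ => iteratedDeriv j (om ρ (W p.1)) p.2)
      (Set.Icc 0 1 ×ˢ Set.univ) := by
  have hne : ∀ p ∈ Set.Icc (0:ℝ) 1 ×ˢ (Set.univ : Set ℝ), W p.1 ^ 2 ≠ 0 := fun p hp =>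
    pow_ne_zero 2 (by linarith [hW4 p.1 hp.1])
  have hctx : ContinuousOn (fun p : ℝ × ℝ => W p.1) (Set.Icc 0 1 ×ˢ Set.univ) :=
    (hW.comp continuous_fst).continuousOn
  have hceta : ContinuousOn (fun p : ℝ × ℝ => eta ρ (W p.1)) (Set.Icc 0 1 ×ˢ Set.univ) :=
    continuousOn_const.div (hctx.pow 2) hne
  have hcgam : ContinuousOn (fun p : ℝ × ℝ => gam ρ (W p.1)) (Set.Icc 0 1 ×ˢ Set.univ) :=
    (continuousOn_const.add (continuousOn_const.div (hctx.pow 2) hne)).div_const 6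
  rcases j with _ | i
  · simp only [iteratedDeriv_zero, om, wsq, prof]
    have hs : Continuous fun p : ℝ × ℝ => sin (2 * π * p.2) := by fun_prop
    exact ((continuousOn_const.mul (continuousOn_const.add (hceta.mul
      ((hs.continuousOn.add (hcgam.mul (hs.pow 3).continuousOn)).pow 2)))).log
      fun p hp => (wsq_pos hρ hρ1 (hW4 p.1 hp.1) (2 * π * p.2)).ne').div_const 2
  · refine ContinuousOn.congr ?_ fun p hp => congrFun (iteratedDeriv_om hρ hρ1 (hW4 p.1 hp.1) i) p.2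
    exact hceta.mul ((iterate_dlast i).1.continuous.comp_continuousOn
      ((continuous_sqrt.comp_continuousOn hceta).prodMk (hcgam.prodMk continuousOn_snd)))

theorem contDiff_om : ContDiff ℝ (⊤ : ℕ∞) (om ρ w) := by
  refine (ContDiff.log ?_ fun x => (wsq_pos hρ hρ1 hw (2 * π * x)).ne').div_const 2
  unfold wsq prof
  fun_prop

theorem metric_scaled (lam : ℝ) (z u u' : ℝ × ℝ) :
    inner ℝ (fderiv ℝ (fun z : ℝ × ℝ => tmpl ρ w (lam * z.2, lam * z.1)) z u)
      (fderiv ℝ (fun z : ℝ × ℝ => tmpl ρ w (lam * z.2, lam * z.1)) z u')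
      = lam ^ 2 * wsq ρ w (w * (lam * z.2)) * dot u u' := by
  set Lm : ℝ × ℝ →L[ℝ] ℝ × ℝ := (lam • ContinuousLinearMap.snd ℝ ℝ ℝ).prod
    (lam • ContinuousLinearMap.fst ℝ ℝ ℝ) with hLm
  have e : (fun z : ℝ × ℝ => tmpl ρ w (lam * z.2, lam * z.1)) = tmpl ρ w ∘ Lm := by
    funext z; simp [hLm]
  rw [e, fderiv_comp z ((contDiff_tmpl hρ hρ1 hw).differentiable (by simp) _)
    Lm.differentiableAt, Lm.fderiv]
  simp only [ContinuousLinearMap.comp_apply]
  rw [metric_tmpl hρ hρ1 hw]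
  simp [hLm, dot]
  ring

theorem periodic_scaled {q : ℕ} (hq : Odd q) (hρq : ρ * q = q - 1) {lam h P : ℝ} {k : ℕ}
    (hh : lam * h = π * q) (hP : lam * P = k * (2 * π / w)) :
    Periodic2 (fun z : ℝ × ℝ => tmpl ρ w (lam * z.2, lam * z.1)) (2 * h, 0) (0, P) ∧
      ∀ z : ℝ × ℝ, tmpl ρ w (lam * -z.2, lam * (z.1 + h)) = tmpl ρ w (lam * z.2, lam * z.1) := by
  have g1 : ∀ a b : ℝ, tmpl ρ w (-a, b + π * q) = tmpl ρ w (a, b) := glide_tmpl hρ hρ1 hw hq hρq
  have g2 : ∀ a b : ℝ, tmpl ρ w (a, b + π * q + π * q) = tmpl ρ w (a, b) := fun a b => by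
    have := (g1 (-a) (b + π * q)).trans (by simpa using g1 a b)
    simpa using this
  refine ⟨fun z => ⟨?_, ?_⟩, fun z => ?_⟩
  · simp only [Prod.fst_add, Prod.snd_add, add_zero]
    rw [show lam * (z.1 + 2 * h) = lam * z.1 + π * q + π * q by rw [mul_add]; linarith, g2]
  · have hp : Function.Periodic (fun a => tmpl ρ w (a, lam * z.1)) (2 * π / w) := fun a => by
      simpa using periodic_tmpl hρ hρ1 hw (a, lam * z.1)
    simp only [Prod.fst_add, Prod.snd_add, add_zero, mul_add, hP]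
    exact hp.nat_mul k (lam * z.2)
  · rw [mul_neg, mul_add, hh, g1]

end

/-- Nearly flat Klein bottles in the unit sphere. -/
theorem profile : ProfileStmt := by
  intro h L hh hL
  choose B hB0 hB using bound_dlast
  set C := max (4 * L / h + 1) (3 + (B 0 + B 1 + B 2 + B 3)) with hC
  refine ⟨C, 1 / 10, lt_of_lt_of_le (by positivity) (le_max_left _ _), by norm_num, fun N => ?_⟩
  obtain ⟨n₀, hn₀⟩ := exists_nat_ge (9 * h / (4 * L))
  set m := max N n₀ with hm
  set q := 2 * m + 3 with hq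
  refine ⟨q, by omega, ?_⟩
  have hqodd : Odd q := ⟨m + 1, by omega⟩
  have hq3 : (3 : ℝ) ≤ q := by exact_mod_cast (show 3 ≤ q by omega)
  have hqn : (n₀ : ℝ) ≤ q := by exact_mod_cast (show n₀ ≤ q by omega)
  set x := 4 * L * q / h with hx
  have hx9 : 9 ≤ x := by
    rw [hx, le_div_iff₀ hh]
    have := hn₀.trans hqn
    rw [div_le_iff₀ (by positivity)] at this
    linarith
  set k := ⌈x⌉₊ with hk
  have hk1 : x ≤ k := Nat.le_ceil x
  have hk2 : (k : ℝ) ≤ x + 1 := (Nat.ceil_lt_add_one (by linarith)).le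
  have hk0 : (0 : ℝ) < k := by linarith
  set ρ : ℝ := (q - 1) / q with hρd
  have hρ : 0 < ρ := div_pos (by linarith) (by linarith)
  have hρ1 : ρ ≤ 1 := (div_le_one (by linarith)).2 (by linarith)
  have hρq : ρ * q = q - 1 := div_mul_cancel₀ _ (by linarith)
  have hρ2 : 1 - ρ ^ 2 ≤ 2 / q := by
    rw [le_div_iff₀ (by linarith)]
    nlinarith [sq_nonneg (1 - ρ)]
  have hρ3 : 4/9 ≤ ρ ^ 2 := by
    have : 2/3 ≤ ρ := by rw [hρd, le_div_iff₀ (by linarith)]; linarith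
    nlinarith
  set W : ℝ → ℝ := fun t => 10 - 4 * t with hW
  have hW4 : ∀ t ∈ Set.Icc (0 : ℝ) 1, 4 ≤ W t := fun t ht => by simp only [hW]; linarith [ht.2]
  have hW0 : ∀ t ∈ Set.Icc (0 : ℝ) 1, 0 < W t := fun t ht => by linarith [hW4 t ht]
  have hWb : ∀ t ∈ Set.Icc (0 : ℝ) 1, 6 ≤ W t ∧ W t ≤ 10 := fun t ht => by
    simp only [hW]; exact ⟨by linarith [ht.2], by linarith [ht.1]⟩
  set P : ℝ → ℝ := fun t => 2 * k * h / (q * W t) with hP
  set lam : ℝ := q * π / h with hlam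
  have hP0 : ∀ t ∈ Set.Icc (0 : ℝ) 1, 0 < P t := fun t ht => by
    have := hW0 t ht; simp only [hP]; positivity
  have hPeq : ∀ t ∈ Set.Icc (0 : ℝ) 1, P t * W t * x = 8 * L * k := fun t ht => by
    have := hW0 t ht; simp only [hP, hx]; field_simp; ring
  have hper : ∀ t ∈ Set.Icc (0 : ℝ) 1, lam * P t = k * (2 * π / W t) := fun t ht => by
    have := hW0 t ht; simp only [hP, hlam]; field_simp
  have hlh : lam * h = π * q := by simp only [hlam]; field_simp
  have hX : ∀ t ∈ Set.Icc (0 : ℝ) 1, ∀ y : ℝ,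
      W t * (lam * y) = 2 * π * (k * (y / P t)) := fun t ht y => by
    have := hW0 t ht; simp only [hP, hlam]; field_simp
  have hcW : Continuous W := by simp only [hW]; fun_prop
  exact ⟨{
    k := k
    P := P
    ω := fun t => om ρ (W t)
    Φ := fun t z => tmpl ρ (W t) (lam * z.2, lam * z.1)
    k_pos := by exact_mod_cast hk0
    cont_P := continuousOn_const.div (continuousOn_const.mul hcW.continuousOn) fun t ht => by
      have := hW0 t ht; positivity
    P_ge := fun t ht => by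
      have := hPeq t ht
      obtain ⟨-, h10⟩ := hWb t ht
      by_contra hlt
      push Not at hlt
      nlinarith [mul_lt_mul_of_pos_right hlt (mul_pos (hW0 t ht) (by linarith : (0:ℝ) < x)),
        mul_le_mul_of_nonneg_left h10 (mul_nonneg hL.le (by linarith : (0:ℝ) ≤ x)),
        mul_le_mul_of_nonneg_left hk1 hL.le]
    P_le := fun t ht => by
      have := hPeq t ht
      obtain ⟨h6, -⟩ := hWb t ht
      by_contra hlt
      push Not at hlt
      nlinarith [mul_lt_mul_of_pos_right hlt (mul_pos (hW0 t ht) (by linarith : (0:ℝ) < x)),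
        mul_le_mul_of_nonneg_left h6 (mul_nonneg hL.le (by linarith : (0:ℝ) ≤ x)),
        mul_le_mul_of_nonneg_left hk2 hL.le]
    k_le := by
      refine hk2.trans (le_trans ?_ (mul_le_mul_of_nonneg_right (le_max_left _ _) (by linarith)))
      rw [hx]; field_simp; nlinarith
    left := by
      have h0 : (0 : ℝ) ∈ Set.Icc (0:ℝ) 1 := ⟨le_rfl, zero_le_one⟩
      have := hPeq 0 h0
      rw [show W 0 = 10 by simp [hW]] at this
      rw [le_div_iff₀ (hP0 0 h0)]
      nlinarith [hP0 0 h0]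
    right := by
      have h1 : (1 : ℝ) ∈ Set.Icc (0:ℝ) 1 := ⟨zero_le_one, le_rfl⟩
      have := hPeq 1 h1
      rw [show W 1 = 6 by simp [hW]; norm_num] at this
      rw [div_le_iff₀ (hP0 1 h1)]
      nlinarith [hP0 1 h1]
    smooth_ω := fun t ht => contDiff_om hρ hρ1 (hW4 t ht)
    periodic_ω := fun t _ x => by
      have e : 2 * π * (x + 1) = 2 * π * x + 2 * π := by ring
      simp [om, wsq, prof, e]
    even_ω := fun t _ x => by
      simp only [om, wsq, prof, mul_neg, sin_neg]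
      ring_nf
    bound_ω := fun j hj t ht y => (bound_om hρ hρ1 (hW4 t ht) hq3 hρ2 hρ3 hB0 hB hj y).trans
      (div_le_div_of_nonneg_right (le_max_right _ _) (by linarith))
    cont_ω := fun j _ => continuousOn_om hρ hρ1 hcW hW4 j
    smooth_Φ := fun t ht => (contDiff_tmpl hρ hρ1 (hW4 t ht)).comp (by fun_prop)
    norm_Φ := fun t _ z => norm_tmpl _
    periodic_Φ := fun t ht => (periodic_scaled hρ hρ1 (hW4 t ht) hqodd hρq hlh (hper t ht)).1
    glide_Φ := fun t ht => (periodic_scaled hρ hρ1 (hW4 t ht) hqodd hρq hlh (hper t ht)).2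
    metric_Φ := fun t ht z w w' => by
      rw [metric_scaled hρ hρ1 (hW4 t ht), show (2:ℝ) * om ρ (W t) (k * (z.2 / P t))
          = log (wsq ρ (W t) (2 * π * (k * (z.2 / P t)))) by rw [om]; ring,
        exp_log (wsq_pos hρ hρ1 (hW4 t ht) _)]
      congr 3
      exact hX t ht z.2 }⟩

end P205.Klein
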