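import Vale.Agent.P205.Klein.Parts
import Vale.Agent.P205.Klein.Profile

/-!
P205, Klein bottle, module Data (`LinkStmt`): the analytic data of `v` and of the profiles.
-/

namespace P205.Klein

open P205.Tori P205.Tori.Fourier

namespace Link

/-- The series of a function on `ℝ² / ℤ²`, zero if it is not smooth and periodic. -/
noncomputable def gen (G : ℝ × ℝ → ℝ) : L1 := by
  classical
  exact if h : SP (fun z => (G z : ℂ)) then L1.mk _ (Fourier.rd_coef h).summable_norm else 0

theorem gen_eq {G : ℝ × ℝ → ℝ} (h : SP (fun z => (G z : ℂ))) :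
    L1.coeff (gen G) = coef (fun z => (G z : ℂ)) := by
  funext k
  simp [gen, h]

theorem ev_gen {G : ℝ × ℝ → ℝ} (h : SP (fun z => (G z : ℂ))) (z : ℝ × ℝ) :
    L1.ev z (gen G) = (G z : ℂ) := by
  rw [L1.ev_apply, gen_eq h, Fourier.ser_coef h]

theorem rd_gen {G : ℝ × ℝ → ℝ} (h : SP (fun z => (G z : ℂ))) : RD (L1.coeff (gen G)) := by
  rw [gen_eq h]; exact Fourier.rd_coef h

theorem real_gen {G : ℝ × ℝ → ℝ} (h : SP (fun z => (G z : ℂ))) : L1.conjc (gen G) = gen G :=
  ext_ev fun z => by rw [L1.ev_conjc, ev_gen h, Complex.conj_ofReal]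

theorem sp_real {G : ℝ × ℝ → ℝ} (hs : ContDiff ℝ (⊤ : ℕ∞) G) (hp : Periodic2 G (1, 0) (0, 1)) :
    SP (fun z => (G z : ℂ)) :=
  ⟨Complex.ofRealCLM.contDiff.comp hs, fun z => ⟨congrArg _ (hp z).1, congrArg _ (hp z).2⟩⟩

/-- A function of the second variable. -/
def snd1 (k : ℕ) (c : ℝ) (g : ℝ → ℝ) (z : ℝ × ℝ) : ℝ := c * g (k * z.2)

theorem sp_snd1 (k : ℕ) (c : ℝ) {g : ℝ → ℝ} (hg : ContDiff ℝ (⊤ : ℕ∞) g)
    (hp : Function.Periodic g 1) : SP (fun z => (snd1 k c g z : ℂ)) := by
  refine sp_real (contDiff_const.mul (hg.comp (contDiff_const.mul contDiff_snd))) fun z => ⟨?_, ?_⟩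
  · simp [snd1]
  · simp only [snd1, Prod.snd_add, mul_add, mul_one]
    rw [show g (k * z.2 + k) = g (k * z.2) by simpa using (hp.nat_mul k) (k * z.2)]

theorem periodic_deriv {g : ℝ → ℝ} (hp : Function.Periodic g 1) : Function.Periodic (deriv g) 1 :=
  fun x => by rw [← deriv_comp_add_const, funext hp]

theorem contDiff_deriv {g : ℝ → ℝ} (hg : ContDiff ℝ (⊤ : ℕ∞) g) :
    ContDiff ℝ (⊤ : ℕ∞) (deriv g) :=
  (contDiff_infty_iff_deriv.1 hg).2

/-- The dilation of the second frequency. -/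
noncomputable def dil (k : ℕ) (a : L1) : L1 := ∑' j, L1.single ![j 0, k * j 1] (L1.coeff a j)

theorem norm_dil_le (k : ℕ) (a : L1) : ‖dil k a‖ ≤ ‖a‖ := by
  rw [L1.norm_eq a]
  exact tsum_of_norm_bounded (L1.summable_norm a).hasSum fun j => le_of_eq (L1.norm_single _ _)

theorem ev_dil (k : ℕ) (a : L1) (z : ℝ × ℝ) : L1.ev z (dil k a) = L1.ev (z.1, k * z.2) a := by
  have hs : Summable fun j => L1.single ![j 0, k * j 1] (L1.coeff a j) :=
    Summable.of_norm (by simpa [L1.norm_single] using L1.summable_norm a)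
  rw [dil, (L1.ev z).map_tsum hs, L1.ev_apply (z.1, k * z.2)]
  refine tsum_congr fun j => ?_
  rw [L1.ev_single, e, e, phase_apply, phase_apply]
  congr 2
  simp
  ring

/-- The norm of a rescaled profile is at most the sup of the profile and of its second derivative. -/
theorem norm_snd1_le (k : ℕ) (c : ℝ) {g : ℝ → ℝ} (hg : ContDiff ℝ (⊤ : ℕ∞) g)
    (hp : Function.Periodic g 1) {B : ℝ} (hB : ∀ x, |g x| ≤ B ∧ |deriv (deriv g) x| ≤ B) :
    ‖gen (snd1 k c g)‖ ≤ |c| * (sob * (2 * B)) := by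
  have hg1 := contDiff_deriv hg
  have hp1 := periodic_deriv hp
  have e1 : gen (snd1 k c g) = (c : ℂ) • dil k (gen (snd1 1 1 g)) := ext_ev fun z => by
    rw [ev_gen (sp_snd1 k c hg hp), map_smul, ev_dil, ev_gen (sp_snd1 1 1 hg hp)]
    simp [snd1]
  rw [e1, norm_smul, Complex.norm_real, Real.norm_eq_abs]
  refine mul_le_mul_of_nonneg_left ((norm_dil_le _ _).trans ?_) (abs_nonneg c)
  have hd : ∀ {f : ℝ → ℝ}, ContDiff ℝ (⊤ : ℕ∞) f → Function.Periodic f 1 →
      Der (1, 0) (gen (snd1 1 1 f)) 0 ∧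
        Der (0, 1) (gen (snd1 1 1 f)) (gen (snd1 1 1 (deriv f))) := fun {f} hf hpf => by
    have h := sp_snd1 1 1 hf hpf
    have h' := sp_snd1 1 1 (contDiff_deriv hf) (periodic_deriv hpf)
    have hfd : ∀ z w : ℝ × ℝ, fderiv ℝ (fun z => (snd1 1 1 f z : ℂ)) z w
        = ((w.2 * deriv f z.2 : ℝ) : ℂ) := fun z w => by
      have h0 : HasFDerivAt (fun z : ℝ × ℝ => f z.2)
          (deriv f z.2 • ContinuousLinearMap.snd ℝ ℝ ℝ) z :=
        ((hf.differentiable (by simp)) z.2).hasDerivAt.comp_hasFDerivAt z hasFDerivAt_snd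
      have h1 : HasFDerivAt (fun z : ℝ × ℝ => (snd1 1 1 f z : ℂ))
          (Complex.ofRealCLM.comp (deriv f z.2 • ContinuousLinearMap.snd ℝ ℝ ℝ)) z := by
        refine (Complex.ofRealCLM.hasFDerivAt.comp z h0).congr_of_eventuallyEq
          (Filter.Eventually.of_forall fun y => by simp [snd1])
      rw [h1.fderiv]
      simp [mul_comm]
    constructor
    · intro j
      have := coef_dx h j
      simp only [hfd, zero_mul, Complex.ofReal_zero] at this
      rw [L1.coeff_zero, gen_eq h, phase_apply]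
      simp [coef] at this ⊢
      rcases this with h1 | h1
      · exact Or.inl h1
      · exact Or.inr h1
    · intro j
      have := coef_dy h j
      simp only [hfd, one_mul] at this
      rw [gen_eq h', gen_eq h, phase_apply]
      have e : (fun z => (snd1 1 1 (deriv f) z : ℂ)) = fun z : ℝ × ℝ => ((deriv f z.2 : ℝ) : ℂ) := by
        funext z; simp [snd1]
      rw [e, this]
      push_cast
      ring
  obtain ⟨a0, a1⟩ := hd hg hp
  obtain ⟨-, a2⟩ := hd hg1 hp1
  refine norm_le_lap a0 Der.zero a1 a2 fun z => ?_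
  rw [sub_zero, map_sub, ev_gen (sp_snd1 1 1 hg hp),
    ev_gen (sp_snd1 1 1 (contDiff_deriv hg1) (periodic_deriv hp1)), ← Complex.ofReal_sub,
    Complex.norm_real, Real.norm_eq_abs, two_mul]
  simp only [snd1, Nat.cast_one, one_mul]
  exact (abs_sub _ _).trans (add_le_add (hB _).1 (hB _).2)

/-- A profile depending continuously on a parameter gives a continuous curve of series. -/
theorem continuous_snd1 (k : ℕ) {c : ℝ → ℝ} {g : ℝ → ℝ → ℝ}
    (hc : ContinuousOn c (Set.Icc 0 1)) (hg : ∀ t ∈ Set.Icc (0:ℝ) 1, ContDiff ℝ (⊤ : ℕ∞) (g t))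
    (hp : ∀ t ∈ Set.Icc (0:ℝ) 1, Function.Periodic (g t) 1)
    (h0 : ContinuousOn (fun p : ℝ × ℝ => g p.1 p.2) (Set.Icc 0 1 ×ˢ Set.univ))
    (h2 : ContinuousOn (fun p : ℝ × ℝ => deriv (deriv (g p.1)) p.2) (Set.Icc 0 1 ×ˢ Set.univ)) :
    ContinuousOn (fun t => gen (snd1 k (c t) (g t))) (Set.Icc 0 1) := by
  have key : ContinuousOn (fun t => gen (snd1 k 1 (g t))) (Set.Icc 0 1) := by
    rw [Metric.continuousOn_iff]
    intro t₀ ht₀ ε hε
    have hK : IsCompact (Set.Icc (0:ℝ) 1 ×ˢ Set.Icc (0:ℝ) 1) := isCompact_Icc.prod isCompact_Icc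
    have hsub : Set.Icc (0:ℝ) 1 ×ˢ Set.Icc (0:ℝ) 1 ⊆ Set.Icc (0:ℝ) 1 ×ˢ Set.univ :=
      Set.prod_mono subset_rfl (Set.subset_univ _)
    set η := ε / (sob * 2 + 1) with hη
    have hη0 : 0 < η := div_pos hε (by linarith [sob_nonneg])
    obtain ⟨d1, hd1, u1⟩ := Metric.uniformContinuousOn_iff.1
      (hK.uniformContinuousOn_of_continuous (h0.mono hsub)) η hη0
    obtain ⟨d2, hd2, u2⟩ := Metric.uniformContinuousOn_iff.1
      (hK.uniformContinuousOn_of_continuous (h2.mono hsub)) η hη0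
    refine ⟨min d1 d2, lt_min hd1 hd2, fun t ht htd => ?_⟩
    have s1 := hg t ht
    have s0 := hg t₀ ht₀
    have pp : Function.Periodic (fun x => g t x - g t₀ x) 1 := (hp t ht).sub (hp t₀ ht₀)
    have dd : ∀ x, deriv (deriv fun x => g t x - g t₀ x) x
        = deriv (deriv (g t)) x - deriv (deriv (g t₀)) x := fun x => by
      rw [show (deriv fun x => g t x - g t₀ x) = fun x => deriv (g t) x - deriv (g t₀) x from
        funext fun y => deriv_fun_sub (s1.differentiable (by simp) y) (s0.differentiable (by simp) y)]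
      exact deriv_fun_sub ((contDiff_deriv s1).differentiable (by simp) x)
        ((contDiff_deriv s0).differentiable (by simp) x)
    have e : gen (snd1 k 1 (g t)) - gen (snd1 k 1 (g t₀))
        = gen (snd1 k 1 fun x => g t x - g t₀ x) := ext_ev fun z => by
      rw [map_sub, ev_gen (sp_snd1 k 1 s1 (hp t ht)), ev_gen (sp_snd1 k 1 s0 (hp t₀ ht₀)),
        ev_gen (sp_snd1 k 1 (s1.sub s0) pp)]
      simp [snd1]
    rw [dist_eq_norm, e]
    refine lt_of_le_of_lt (norm_snd1_le k 1 (s1.sub s0) pp (B := η) fun x => ?_) ?_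
    · have hx : ∀ s ∈ Set.Icc (0:ℝ) 1, ∀ F : ℝ → ℝ → ℝ, Function.Periodic (F s) 1 →
          F s x = F s (Int.fract x) := fun s _ F hF => by
        have := hF.sub_int_mul_eq ⌊x⌋ (x := x)
        rw [mul_one, Int.self_sub_floor] at this
        exact this.symm
      have mem : ∀ s ∈ Set.Icc (0:ℝ) 1, (s, Int.fract x) ∈ Set.Icc (0:ℝ) 1 ×ˢ Set.Icc (0:ℝ) 1 :=
        fun s hs => ⟨hs, Int.fract_nonneg _, (Int.fract_lt_one _).le⟩
      have hdist : dist (t, Int.fract x) (t₀, Int.fract x) < min d1 d2 := by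
        simpa [Prod.dist_eq] using htd
      constructor
      · rw [hx t ht g (hp t ht), hx t₀ ht₀ g (hp t₀ ht₀)]
        have := u1 _ (mem t ht) _ (mem t₀ ht₀) (hdist.trans_le (min_le_left _ _))
        rw [Real.dist_eq] at this
        exact this.le
      · rw [dd, hx t ht (fun s => deriv (deriv (g s))) (periodic_deriv (periodic_deriv (hp t ht))),
          hx t₀ ht₀ (fun s => deriv (deriv (g s))) (periodic_deriv (periodic_deriv (hp t₀ ht₀)))]
        have := u2 _ (mem t ht) _ (mem t₀ ht₀) (hdist.trans_le (min_le_right _ _))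
        rw [Real.dist_eq] at this
        exact this.le
    · rw [abs_one, one_mul, hη, ← mul_assoc, ← mul_div_assoc, div_lt_iff₀ (by linarith [sob_nonneg])]
      nlinarith [sob_nonneg]
  refine ((Complex.continuous_ofReal.comp_continuousOn hc).smul key).congr fun t ht => ?_
  refine ext_ev fun z => ?_
  simp only [Pi.smul_apply', Function.comp_apply]
  rw [map_smul, ev_gen (sp_snd1 k (c t) (hg t ht) (hp t ht)),
    ev_gen (sp_snd1 k 1 (hg t ht) (hp t ht))]
  simp [snd1]

theorem deriv_odd {g : ℝ → ℝ} (h : ∀ x, g (-x) = g x) (x : ℝ) : deriv g (-x) = -deriv g x := by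
  have := deriv_comp_neg (f := g) (x := x)
  rw [funext h] at this
  linarith

theorem deriv_even {g : ℝ → ℝ} (h : ∀ x, g (-x) = -g x) (x : ℝ) : deriv g (-x) = deriv g x := by
  have := deriv_comp_neg (f := g) (x := x)
  rw [funext h, deriv.fun_neg] at this
  linarith

/-- The clamp to the unit interval. -/
noncomputable def cl (t : ℝ) : ℝ := (Set.projIcc 0 1 zero_le_one t : ℝ)

theorem cl_mem (t : ℝ) : cl t ∈ Set.Icc (0 : ℝ) 1 := (Set.projIcc 0 1 zero_le_one t).2

theorem cl_of_mem {t : ℝ} (ht : t ∈ Set.Icc (0 : ℝ) 1) : cl t = t := by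
  rw [cl, Set.projIcc_of_mem _ ht]

theorem continuous_cl : Continuous cl := continuous_subtype_val.comp continuous_projIcc

/-- Periodicity of the partial derivatives, and their behaviour under the glide. -/
theorem glide_pd {f : ℝ × ℝ → ℝ} {h : ℝ} {s : ℝ} (hf : Differentiable ℝ f)
    (hg : ∀ z, f (glide h z) = s * f z) (z : ℝ × ℝ) :
    dx f (glide h z) = s * dx f z ∧ dy f (glide h z) = -s * dy f z := by
  have hd : HasFDerivAt (glide h)
      ((ContinuousLinearMap.fst ℝ ℝ ℝ).prod (-ContinuousLinearMap.snd ℝ ℝ ℝ)) z :=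
    (hasFDerivAt_fst.add_const h).prodMk hasFDerivAt_snd.neg
  have h1 := ((hf (glide h z)).hasFDerivAt.comp z hd).fderiv
  rw [show f ∘ glide h = fun z => s * f z from funext hg, fderiv_const_mul (hf z)] at h1
  have a := congrArg (fun B : ℝ × ℝ →L[ℝ] ℝ => B (1, 0)) h1
  have b := congrArg (fun B : ℝ × ℝ →L[ℝ] ℝ => B (0, 1)) h1
  simp at a b
  refine ⟨a.symm, ?_⟩
  have e : fderiv ℝ f (glide h z) (0, -1) = -fderiv ℝ f (glide h z) (0, 1) := by
    rw [← map_neg]; simp
  simp only [dy]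
  rw [e] at b
  linarith

theorem periodic_pd {f : ℝ × ℝ → ℝ} {l₁ l₂ : ℝ × ℝ} (hf : Periodic2 f l₁ l₂) :
    Periodic2 (dx f) l₁ l₂ ∧ Periodic2 (dy f) l₁ l₂ := by
  have e : ∀ z, fderiv ℝ f (z + l₁) = fderiv ℝ f z ∧ fderiv ℝ f (z + l₂) = fderiv ℝ f z := fun z =>
    ⟨by rw [← fderiv_comp_add_right l₁, funext fun z => (hf z).1],
      by rw [← fderiv_comp_add_right l₂, funext fun z => (hf z).2]⟩
  exact ⟨fun z => ⟨by simp only [dx, (e z).1], by simp only [dx, (e z).2]⟩,
    fun z => ⟨by simp only [dy, (e z).1], by simp only [dy, (e z).2]⟩⟩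

/-- The rescaled function on the unit square. -/
def scaled (h L : ℝ) (f : ℝ × ℝ → ℝ) (z : ℝ × ℝ) : ℝ := f (2 * h * z.1, L * z.2)

theorem sp_scaled {h L : ℝ} {f : ℝ × ℝ → ℝ} (hs : ContDiff ℝ (⊤ : ℕ∞) f)
    (hp : Periodic2 f (2 * h, 0) (0, L)) : SP (fun z => (scaled h L f z : ℂ)) :=
  sp_real (hs.comp ((contDiff_const.mul contDiff_fst).prodMk (contDiff_const.mul contDiff_snd)))
    fun z => ⟨by
      have := (hp (2 * h * z.1, L * z.2)).1
      simpa [scaled, mul_add] using this, by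
      have := (hp (2 * h * z.1, L * z.2)).2
      simpa [scaled, mul_add] using this⟩

theorem refl_scaled {h L : ℝ} {f : ℝ × ℝ → ℝ} (hs : ContDiff ℝ (⊤ : ℕ∞) f)
    (hp : Periodic2 f (2 * h, 0) (0, L)) {s : ℝ} (hg : ∀ z, f (glide h z) = s * f z) :
    refl (gen (scaled h L f)) = (s : ℂ) • gen (scaled h L f) :=
  ext_ev fun z => by
    rw [ev_refl, map_smul, ev_gen (sp_scaled hs hp), ev_gen (sp_scaled hs hp), smul_eq_mul,
      ← Complex.ofReal_mul, Complex.ofReal_inj]
    simp only [scaled, ← hg, glide]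
    congr 2 <;> ring

end Link

open Link

/-- The series of the profiles. -/
theorem exists_series {h L C c₀ : ℝ} (hL : 0 < L) (hC : 0 ≤ C) {q : ℕ} (hq : 0 < q)
    (D : ProfileData h L C c₀ q) :
    ∃ W : ℕ → ℝ → L1, (∀ i, Continuous (W i)) ∧ ∀ i ≤ 2, ∀ t,
      RD (L1.coeff (W i t)) ∧ L1.conjc (W i t) = W i t ∧
      refl (W i t) = (((-1) ^ i : ℝ) : ℂ) • W i t ∧
      ‖W i t‖ ≤ (4 * C * q / L) ^ i * (sob * (2 * (C / q))) ∧
      ∀ z : ℝ × ℝ, L1.ev z (W i t)
        = ((((D.k : ℝ) / D.P (cl t)) ^ i * iteratedDeriv i (D.ω (cl t)) (D.k * z.2) : ℝ) : ℂ) := by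
  have hg : ∀ i, ∀ t ∈ Set.Icc (0:ℝ) 1, ContDiff ℝ (⊤ : ℕ∞) (iteratedDeriv i (D.ω t)) ∧
      Function.Periodic (iteratedDeriv i (D.ω t)) 1 := by
    intro i t ht
    induction i with
    | zero => rw [iteratedDeriv_zero]; exact ⟨D.smooth_ω t ht, D.periodic_ω t ht⟩
    | succ i ih => rw [iteratedDeriv_succ]; exact ⟨contDiff_deriv ih.1, periodic_deriv ih.2⟩
  have hev : ∀ i, ∀ t ∈ Set.Icc (0:ℝ) 1, ∀ x,
      iteratedDeriv i (D.ω t) (-x) = (-1) ^ i * iteratedDeriv i (D.ω t) x := by
    intro i t ht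
    induction i with
    | zero => intro x; simp [D.even_ω t ht x]
    | succ i ih =>
      intro x
      rw [iteratedDeriv_succ]
      rcases Nat.even_or_odd i with he | he
      · rw [deriv_odd (fun y => by rw [ih, he.neg_one_pow, one_mul]), pow_succ, he.neg_one_pow]
        ring
      · rw [deriv_even (fun y => by rw [ih, he.neg_one_pow, neg_one_mul]), pow_succ, he.neg_one_pow]
        ring
  refine ⟨fun i t => if i ≤ 2 then
      gen (snd1 D.k (((D.k : ℝ) / D.P (cl t)) ^ i) (iteratedDeriv i (D.ω (cl t)))) else 0,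
    fun i => ?_, fun i hi t => ?_⟩
  · by_cases hi : i ≤ 2
    · simp only [hi, if_true]
      refine (continuous_snd1 D.k (c := fun s => ((D.k : ℝ) / D.P s) ^ i)
        (g := fun s => iteratedDeriv i (D.ω s)) ?_ (fun s hs => (hg i s hs).1)
        (fun s hs => (hg i s hs).2) (D.cont_ω i (by omega)) ?_).comp_continuous continuous_cl cl_mem
      · exact (continuousOn_const.div D.cont_P fun s hs => by
          have := D.P_ge s hs; linarith).pow i
      · have := D.cont_ω (i + 2) (by omega)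
        simpa [iteratedDeriv_succ] using this
    · simp only [hi, if_false]; exact continuous_const
  · simp only [hi, if_true]
    have ht := cl_mem t
    obtain ⟨s1, p1⟩ := hg i _ ht
    set c := ((D.k : ℝ) / D.P (cl t)) ^ i with hc
    have hsp := sp_snd1 D.k c s1 p1
    refine ⟨rd_gen hsp, real_gen hsp, ext_ev fun z => ?_, ?_, fun z => ev_gen hsp z⟩
    · rw [ev_refl, map_smul, ev_gen hsp, ev_gen hsp, smul_eq_mul, ← Complex.ofReal_mul,
        Complex.ofReal_inj]
      simp only [snd1, mul_neg, hev i _ ht]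
      ring
    · refine (norm_snd1_le D.k c s1 p1 (B := C / q) fun x => ⟨D.bound_ω i (by omega) _ ht x, ?_⟩).trans
        (mul_le_mul_of_nonneg_right ?_ (by positivity [sob_nonneg]))
      · have := D.bound_ω (i + 2) (by omega) _ ht x
        simpa [iteratedDeriv_succ] using this
      · have hP := D.P_ge _ ht
        have h0 : 0 ≤ (D.k : ℝ) / D.P (cl t) := div_nonneg (Nat.cast_nonneg _) (by linarith)
        rw [hc, abs_pow, abs_of_nonneg h0]
        refine pow_le_pow_left₀ h0 ?_ i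
        rw [div_le_iff₀ (by linarith)]
        calc (D.k : ℝ) ≤ C * q := D.k_le
          _ = 4 * C * q / L * (L / 4) := by field_simp
          _ ≤ _ := mul_le_mul_of_nonneg_left hP (by positivity)

/-- Module Data. -/
theorem link : LinkStmt := by
  classical
  intro h L hh hL v hv hvp hvg
  obtain ⟨C, c₀, hC, hc₀, hprof⟩ := profile h L hh hL
  set Q : Set ℕ := {q | 0 < q ∧ Nonempty (ProfileData h L C c₀ q)} with hQ
  have D : ∀ q ∈ Q, ProfileData h L C c₀ q := fun q hq => hq.2.some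
  choose W hWc hW using fun q (hq : q ∈ Q) => exists_series hL hC.le hq.1 (D q hq)
  obtain ⟨px, py⟩ := periodic_pd hvp
  obtain ⟨pxx, pxy⟩ := periodic_pd px
  obtain ⟨-, pyy⟩ := periodic_pd py
  have hsx := Tori.contDiff_dx hv
  have hsy := Tori.contDiff_dy hv
  have g0 := fun z => glide_pd (s := 1) (hv.differentiable (by simp))
    (fun z => by rw [one_mul, hvg]) z
  have g1 := fun z => glide_pd (s := 1) (hsx.differentiable (by simp))
    (fun z => by rw [one_mul]; simpa using (g0 z).1) z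
  have g2 := fun z => glide_pd (s := -1) (hsy.differentiable (by simp))
    (fun z => by simpa using (g0 z).2) z
  set η : ℕ → ℝ := fun q => ((q : ℝ)⁻¹) ^ (((6 : ℕ) : ℝ)⁻¹) with hη
  have hη6 : ∀ q, η q ^ (6 : ℕ) = (q : ℝ)⁻¹ := fun q =>
    Real.rpow_inv_natCast_pow (by positivity) (by norm_num)
  set A : ℕ → ℕ → ℝ → L1 := fun i q t => if hq : q ∈ Q then W q hq i t else 0 with hA
  have hAq : ∀ i, ∀ q (hq : q ∈ Q), A i q = W q hq i := fun i q hq => by
    funext t; simp [hA, hq]
  set K := sob * (2 * C) with hK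
  have hK0 : 0 ≤ K := by positivity [sob_nonneg]
  set Cw := K * (1 + 4 * C / L + (4 * C / L) ^ 2) with hCw
  have hn : ∀ i ≤ 2, ∀ q ∈ Q, ∀ t, ‖A i q t‖ ≤ Cw * (q : ℝ) ^ i / q := fun i hi q hq t => by
    rw [hAq i q hq]
    refine ((hW q hq i hi t).2.2.2.1).trans ?_
    rw [show (4 * C * q / L) ^ i * (sob * (2 * (C / q))) = (K * (4 * C / L) ^ i) * (q : ℝ) ^ i / q by
      rw [hK]; ring]
    refine div_le_div_of_nonneg_right (mul_le_mul_of_nonneg_right ?_ (by positivity)) (by positivity)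
    refine mul_le_mul_of_nonneg_left ?_ hK0
    have : 0 ≤ 4 * C / L := by positivity
    interval_cases i <;> nlinarith
  refine ⟨{
      h := h, L := L, h_pos := hh, L_pos := hL, Q := Q, η := η
      η_pos := fun q hq => Real.rpow_pos_of_pos (inv_pos.2 (by exact_mod_cast hq.1)) _
      η_le := fun q hq => Real.rpow_le_one (by positivity)
        (inv_le_one_of_one_le₀ (by exact_mod_cast hq.1)) (by norm_num)
      eps := fun q => (h / (q * Real.pi)) ^ 2
      Ce := (h / Real.pi) ^ 2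
      eps_nonneg := fun q _ => sq_nonneg _
      eps_le := fun q _ => le_of_eq (by
        rw [show (12 : ℤ) = ((6 * 2 : ℕ) : ℤ) by norm_num, zpow_natCast, pow_mul, hη6]
        ring)
      P := fun q t => if hq : q ∈ Q then (D q hq).P (cl t) else L
      P_ge := fun q t => by
        split_ifs with hq
        · exact (D q hq).P_ge _ (cl_mem t)
        · linarith
      P_le := fun q t => by
        split_ifs with hq
        · exact (D q hq).P_le _ (cl_mem t)
        · linarith
      cont_P := fun q hq => by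
        simp only [dif_pos hq]
        exact (D q hq).cont_P.comp_continuous continuous_cl cl_mem
      vx := gen (scaled h L (dx v)), vy := gen (scaled h L (dy v))
      vxx := gen (scaled h L (dx (dx v))), vxy := gen (scaled h L (dy (dx v)))
      vyy := gen (scaled h L (dy (dy v)))
      rd_v := ⟨rd_gen (sp_scaled hsx px), rd_gen (sp_scaled hsy py),
        rd_gen (sp_scaled (Tori.contDiff_dx hsx) pxx), rd_gen (sp_scaled (Tori.contDiff_dy hsx) pxy),
        rd_gen (sp_scaled (Tori.contDiff_dy hsy) pyy)⟩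
      real_v := ⟨real_gen (sp_scaled hsx px), real_gen (sp_scaled hsy py),
        real_gen (sp_scaled (Tori.contDiff_dx hsx) pxx),
        real_gen (sp_scaled (Tori.contDiff_dy hsx) pxy),
        real_gen (sp_scaled (Tori.contDiff_dy hsy) pyy)⟩
      refl_v := ⟨by simpa using refl_scaled hsx px (s := 1) (fun z => (g0 z).1),
        by simpa using refl_scaled hsy py (s := -1) (fun z => (g0 z).2),
        by simpa using refl_scaled (Tori.contDiff_dx hsx) pxx (s := 1) (fun z => (g1 z).1),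
        by simpa using refl_scaled (Tori.contDiff_dy hsx) pxy (s := -1) (fun z => (g1 z).2),
        by simpa using refl_scaled (Tori.contDiff_dy hsy) pyy (s := 1) (fun z => by
            simpa using (g2 z).2)⟩
      W0 := A 0, W2 := A 1, W22 := A 2, Cw := Cw
      norm_W0 := fun q hq t => (hn 0 (by norm_num) q hq t).trans_eq (by
        rw [show (6 : ℤ) = ((6 : ℕ) : ℤ) by norm_num, zpow_natCast, hη6]; ring)
      norm_W2 := fun q hq t => (hn 1 (by norm_num) q hq t).trans_eq (by
        have : (q : ℝ) ≠ 0 := by exact_mod_cast hq.1.ne'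
        field_simp)
      norm_W22 := fun q hq t => (hn 2 le_rfl q hq t).trans_eq (by
        have : (q : ℝ) ≠ 0 := by exact_mod_cast hq.1.ne'
        rw [show (-6 : ℤ) = -((6 : ℕ) : ℤ) by norm_num, zpow_neg, zpow_natCast, hη6]
        field_simp)
      rd_W := fun q hq t => by
        simp only [hAq _ q hq]
        exact ⟨(hW q hq 0 (by norm_num) t).1, (hW q hq 1 (by norm_num) t).1,
          (hW q hq 2 le_rfl t).1⟩
      cont_W := fun q hq => by
        simp only [hAq _ q hq]
        exact ⟨hWc q hq 0, hWc q hq 1, hWc q hq 2⟩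
      real_W := fun q hq t => by
        simp only [hAq _ q hq]
        exact ⟨(hW q hq 0 (by norm_num) t).2.1, (hW q hq 1 (by norm_num) t).2.1,
          (hW q hq 2 le_rfl t).2.1⟩
      refl_W := fun q hq t => by
        simp only [hAq _ q hq]
        exact ⟨by simpa using (hW q hq 0 (by norm_num) t).2.2.1,
          by simpa using (hW q hq 1 (by norm_num) t).2.2.1,
          by simpa using (hW q hq 2 le_rfl t).2.2.1⟩ },
    C, c₀, D, rfl, rfl, hc₀, ?_⟩
  refine ⟨fun q hq => hq.1, fun δ hδ => ?_, fun q _ => rfl, fun q hq t ht => ?_, fun z => ?_,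
    fun q hq t ht z => ?_⟩
  · obtain ⟨N, hN⟩ := exists_nat_ge (δ ^ (6 : ℕ))⁻¹
    obtain ⟨q, hqN, hqD⟩ := hprof (max N 1)
    have hq0 : 0 < q := by omega
    refine ⟨q, ⟨hq0, hqD⟩, ?_⟩
    refine (pow_le_pow_iff_left₀ (Real.rpow_nonneg (by positivity) _) hδ.le
      (show 6 ≠ 0 by norm_num)).1 ?_
    show η q ^ 6 ≤ δ ^ 6
    rw [hη6, inv_le_comm₀ (by exact_mod_cast hq0) (pow_pos hδ 6)]
    exact hN.trans (by exact_mod_cast le_trans (le_max_left _ _) hqN)
  · simp only [dif_pos hq, cl_of_mem ht]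
  · exact ⟨ev_gen (sp_scaled hsx px) z, ev_gen (sp_scaled hsy py) z,
      ev_gen (sp_scaled (Tori.contDiff_dx hsx) pxx) z,
      ev_gen (sp_scaled (Tori.contDiff_dy hsx) pxy) z,
      ev_gen (sp_scaled (Tori.contDiff_dy hsy) pyy) z⟩
  · simp only [hAq _ q hq]
    have e := fun i (hi : i ≤ 2) => (hW q hq i hi t).2.2.2.2 z
    simp only [cl_of_mem ht] at e
    refine ⟨?_, ?_, ?_⟩
    · rw [e 0 (by norm_num)]; simp
    · rw [e 1 (by norm_num)]; simp
    · rw [e 2 le_rfl]; simp [iteratedDeriv_succ]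

end P205.Klein
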