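import Vale.Agent.P205.Tori.Main
import Vale.Agent.P205.Klein.Interfaces

/-!
P205, Klein bottles: from the rectangle to every metric, and the statement in Mathlib's terms.
-/

namespace P205.Klein

open P205.Tori

/-- Uniformization reduces every metric to the rectangle. -/
theorem metricGoal_of (hG : GoalStmt) (hU : UniformStmt) : MetricGoalStmt := by
  intro g hg
  obtain ⟨h, L, v, Z, hh, hL, hv, hvp, hvg, hZ, -, hZp, hZt, hZg⟩ := hU g hg
  obtain ⟨F, hF, hFp, hFt, hFg⟩ := hG h L hh hL v hv hvp hvg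
  refine ⟨F ∘ Z, hF.comp hZ, fun z => ?_, fun z => ?_, fun z w w' => ?_⟩
  · simp only [Function.comp_apply, (hZp z).1, (hZp z).2]
    exact hFp _
  · simp only [Function.comp_apply, hZt, hFt]
  · rw [fderiv_comp z ((hF.differentiable (by simp)) _) ((hZ.differentiable (by simp)) _)]
    simp only [ContinuousLinearMap.comp_apply, hFg, hZg z w w']

/-- The form of `MetricGoalStmt` in Mathlib's terms: a metric on the plane invariant under the
translation `(0, 1)` and the glide `(x, y) ↦ (x + 1/2, -y)` is induced by an invariant map. -/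
theorem klein_of (hM : MetricGoalStmt) :
    ∀ g : ℝ × ℝ → (ℝ × ℝ →L[ℝ] ℝ × ℝ →L[ℝ] ℝ), ContDiff ℝ (⊤ : ℕ∞) g →
      (∀ z, g (z + (0, 1)) = g z) →
      (∀ z w w', g (z.1 + 1 / 2, -z.2) (w.1, -w.2) (w'.1, -w'.2) = g z w w') →
      (∀ z w w', g z w w' = g z w' w) → (∀ z w, w ≠ 0 → 0 < g z w w) →
      ∃ F : ℝ × ℝ → EuclideanSpace ℝ (Fin 4), ContDiff ℝ (⊤ : ℕ∞) F ∧
        (∀ z, F (z + (0, 1)) = F z ∧ F (z.1 + 1 / 2, -z.2) = F z) ∧
        ∀ z, Function.Injective (fderiv ℝ F z) ∧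
          ∀ w w', inner ℝ (fderiv ℝ F z w) (fderiv ℝ F z w') = g z w w' := by
  intro g hg hper hgl hsym hpos
  have hper2 : ∀ z, g (z + (1, 0)) = g z := fun z => by
    refine ContinuousLinearMap.ext fun a => ContinuousLinearMap.ext fun b => ?_
    have h1 := hgl (z.1 + 1 / 2, -z.2) (a.1, -a.2) (b.1, -b.2)
    rw [hgl z a b] at h1
    simp only [neg_neg, Prod.mk.eta] at h1
    rw [← h1]
    congr 3
    ext <;> simp; ring
  have hs : ∀ a b : ℝ × ℝ, ContDiff ℝ (⊤ : ℕ∞) fun z => g z a b := fun a b =>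
    (hg.clm_apply contDiff_const).clm_apply contDiff_const
  have hp : ∀ a b : ℝ × ℝ, Periodic2 (fun z => g z a b) (1, 0) (0, 1) := fun a b z =>
    ⟨congrArg (fun B : ℝ × ℝ →L[ℝ] ℝ × ℝ →L[ℝ] ℝ => B a b) (hper2 z),
      congrArg (fun B : ℝ × ℝ →L[ℝ] ℝ × ℝ →L[ℝ] ℝ => B a b) (hper z)⟩
  have expand : ∀ z w w', g z w w' = g z (1, 0) (1, 0) * (w.1 * w'.1)
      + g z (1, 0) (0, 1) * (w.1 * w'.2 + w.2 * w'.1) + g z (0, 1) (0, 1) * (w.2 * w'.2) := by
    intro z w w'
    have e : ∀ u : ℝ × ℝ, u = u.1 • ((1 : ℝ), (0 : ℝ)) + u.2 • ((0 : ℝ), (1 : ℝ)) := fun u => by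
      ext <;> simp
    conv_lhs => rw [e w, e w']
    simp only [map_add, map_smul, add_apply, smul_apply, smul_eq_mul, hsym z (0, 1) (1, 0)]
    ring
  obtain ⟨F, hF, hFp, hFt, hFg⟩ := hM
    { g₁₁ := fun z => g z (1, 0) (1, 0), g₁₂ := fun z => g z (1, 0) (0, 1),
      g₂₂ := fun z => g z (0, 1) (0, 1), smooth₁₁ := hs _ _, smooth₁₂ := hs _ _,
      smooth₂₂ := hs _ _, periodic₁₁ := hp _ _, periodic₁₂ := hp _ _, periodic₂₂ := hp _ _,
      pos₁₁ := fun z => hpos z _ (by simp), pos_det := fun z => by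
        have h1 := hpos z (1, 0) (by simp)
        have h := hpos z (-g z (1, 0) (0, 1), g z (1, 0) (1, 0))
          (fun e => h1.ne' (congrArg Prod.snd e))
        rw [expand] at h
        exact pos_of_mul_pos_right (lt_of_lt_of_eq h (by ring :
          _ = g z (1, 0) (1, 0) * (g z (1, 0) (1, 0) * g z (0, 1) (0, 1) - g z (1, 0) (0, 1) ^ 2)))
          h1.le }
    (fun z w w' => by
      simp only [TorusMetric.val, glide₀, flip]
      rw [← expand, ← hgl z w w']
      exact (expand (z.1 + 1 / 2, -z.2) (w.1, -w.2) (w'.1, -w'.2)).symm)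
  refine ⟨F, hF, fun z => ⟨(hFp z).2, hFt z⟩, fun z => ?_⟩
  have key : ∀ w w', inner ℝ (fderiv ℝ F z w) (fderiv ℝ F z w') = g z w w' := fun w w' => by
    rw [hFg z w w', TorusMetric.val, expand z w w']
  refine ⟨(injective_iff_map_eq_zero (fderiv ℝ F z)).2 fun w hw => ?_, key⟩
  by_contra h
  have := hpos z w h
  rw [← key, hw, inner_zero_left] at this
  exact lt_irrefl _ this

end P205.Klein
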