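import Vale.Agent.P205.Tori.Uniform
import Vale.Agent.P205.Klein.Interfaces

/-!
P205, Klein bottles, module Uniform: a metric on the torus invariant under the glide
`(x, y) ↦ (x + 1/2, -y)` has isothermal coordinates in which the glide is `(x, y) ↦ (x + h, -y)`.
-/

namespace P205.Klein

open P205.Tori
open scoped ComplexConjugate

/-- An entire function with doubly periodic derivative is affine. -/
theorem affine_of_periodic_deriv {f : ℂ → ℂ} (hf : Differentiable ℂ f) {p q : ℂ}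
    (hpq : p.re * q.im - p.im * q.re ≠ 0)
    (hp : ∀ c, deriv f (c + p) = deriv f c) (hq : ∀ c, deriv f (c + q) = deriv f c) (c : ℂ) :
    f c = f 0 + deriv f 0 * c := by
  have hd : Differentiable ℂ (deriv f) := fun x => (hf.analyticAt x).deriv.differentiableAt
  obtain ⟨t₀, ht₀⟩ := Fourier.exists_max_per
    (f := fun t : ℝ × ℝ => ‖deriv f ((t.1 : ℂ) * p + (t.2 : ℂ) * q)‖)
    (by
      have := hd.continuous
      fun_prop)
    (fun t => by
      constructor
      · simp only [Prod.fst_add, Prod.snd_add, add_zero, Complex.ofReal_add, Complex.ofReal_one,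
          show ((t.1 : ℂ) + 1) * p + (t.2 : ℂ) * q = (t.1 : ℂ) * p + (t.2 : ℂ) * q + p by ring, hp]
      · simp only [Prod.fst_add, Prod.snd_add, add_zero, Complex.ofReal_add, Complex.ofReal_one,
          show (t.1 : ℂ) * p + ((t.2 : ℂ) + 1) * q = (t.1 : ℂ) * p + (t.2 : ℂ) * q + q by ring, hq])
  have hb : Bornology.IsBounded (Set.range (deriv f)) := by
    refine isBounded_iff_forall_norm_le.2
      ⟨‖deriv f ((t₀.1 : ℂ) * p + (t₀.2 : ℂ) * q)‖, ?_⟩
    rintro _ ⟨x, rfl⟩
    set d := p.re * q.im - p.im * q.re with hdd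
    have e : x = (((x.re * q.im - x.im * q.re) / d : ℝ) : ℂ) * p
        + (((p.re * x.im - p.im * x.re) / d : ℝ) : ℂ) * q := by
      apply Complex.ext <;> simp <;> field_simp <;> rw [hdd] <;> ring
    rw [e]
    exact ht₀ ((x.re * q.im - x.im * q.re) / d, (p.re * x.im - p.im * x.re) / d)
  have hconst : ∀ x, deriv f x = deriv f 0 := fun x => hd.apply_eq_apply_of_bounded hb x 0
  have h1 : ∀ x, HasDerivAt (fun y => f y - deriv f 0 * y) 0 x := fun x =>
    (((hf x).hasDerivAt).sub ((hasDerivAt_id x).const_mul (deriv f 0))).congr_deriv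
      (by rw [hconst x]; ring)
  have h2 := is_const_of_deriv_eq_zero (fun x => (h1 x).differentiableAt) (fun x => (h1 x).deriv) c 0
  simp only [mul_zero, sub_zero] at h2
  linear_combination h2

/-- A conformal map commuting up to sign with two translations is affine. -/
theorem affine_conformal {A : ℝ × ℝ → ℝ × ℝ} (hA : ContDiff ℝ (⊤ : ℕ∞) A) {l₁ l₂ a₁ a₂ : ℝ × ℝ}
    (hl : l₁.1 * l₂.2 - l₁.2 * l₂.1 ≠ 0)
    (h₁ : ∀ w, A (w + l₁) = A w + a₁) (h₂ : ∀ w, A (w + l₂) = A w + a₂) {c : ℝ × ℝ → ℝ}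
    (hc : ∀ w, 0 < c w)
    (hconf : ∀ w u u', dot (fderiv ℝ A w u) (fderiv ℝ A w u') = c w * dot u u') :
    ∃ b p r s : ℝ, ∃ x₀ : ℝ × ℝ, (s = 1 ∨ s = -1) ∧ b = p ^ 2 + r ^ 2 ∧ 0 < b ∧
      ∀ w, A w = x₀ + (p * w.1 - s * r * w.2, r * w.1 + s * p * w.2) := by
  set P := fun w => (fderiv ℝ A w (1, 0)).1 with hP
  set R := fun w => (fderiv ℝ A w (1, 0)).2 with hR
  set X := fun w => (fderiv ℝ A w (0, 1)).1 with hX
  set Y := fun w => (fderiv ℝ A w (0, 1)).2 with hY
  have hexp : ∀ w u, fderiv ℝ A w u = (u.1 * P w + u.2 * X w, u.1 * R w + u.2 * Y w) := fun w u => by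
    have e : u = u.1 • ((1 : ℝ), (0 : ℝ)) + u.2 • ((0 : ℝ), (1 : ℝ)) := by ext <;> simp
    conv_lhs => rw [e]
    rw [map_add, map_smul, map_smul]
    ext <;> simp [hP, hR, hX, hY]
  have e1 : ∀ w, P w ^ 2 + R w ^ 2 = c w := fun w => by
    have := hconf w (1, 0) (1, 0); simp [dot, hP, hR] at this ⊢; linarith
  have e2 : ∀ w, X w ^ 2 + Y w ^ 2 = c w := fun w => by
    have := hconf w (0, 1) (0, 1); simp [dot, hX, hY] at this ⊢; linarith
  have e3 : ∀ w, P w * X w + R w * Y w = 0 := fun w => by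
    have := hconf w (1, 0) (0, 1); simp [dot, hP, hR, hX, hY] at this ⊢; linarith
  set D := fun w => P w * Y w - R w * X w with hD
  have hD0 : ∀ w, D w ≠ 0 := fun w h0 => by
    have h2 : D w ^ 2 + (P w * X w + R w * Y w) ^ 2 = c w * c w := by
      nth_rewrite 1 [← e1 w]; rw [← e2 w]; simp only [hD]; ring
    rw [h0, e3 w] at h2
    nlinarith [hc w]
  have hAf := hA.continuous_fderiv (by simp)
  have hDc : Continuous D := by simp only [hD, hP, hR, hX, hY]; fun_prop
  obtain ⟨s, hs, hsD⟩ : ∃ s : ℝ, (s = 1 ∨ s = -1) ∧ ∀ w, 0 < s * D w := by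
    by_cases hpos : 0 < D 0
    · refine ⟨1, Or.inl rfl, fun w => ?_⟩
      rw [one_mul]
      by_contra hw
      obtain ⟨x, hx⟩ := intermediate_value_univ w 0 hDc ⟨not_lt.1 hw, hpos.le⟩
      exact hD0 x hx
    · refine ⟨-1, Or.inr rfl, fun w => ?_⟩
      by_contra hw
      obtain ⟨x, hx⟩ := intermediate_value_univ 0 w hDc ⟨not_lt.1 hpos, by linarith⟩
      exact hD0 x hx
  have hs2 : s * s = 1 := by rcases hs with h | h <;> simp [h]
  have hXY : ∀ w, X w = -(s * R w) ∧ Y w = s * P w := fun w => by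
    have hk : s * D w = c w := by
      have h2 : (s * D w) ^ 2 = c w ^ 2 := by
        have h3 : D w ^ 2 + (P w * X w + R w * Y w) ^ 2 = c w * c w := by
          nth_rewrite 1 [← e1 w]; rw [← e2 w]; simp only [hD]; ring
        rw [e3 w] at h3
        linear_combination h3 + D w ^ 2 * hs2
      exact (pow_left_inj₀ (hsD w).le (hc w).le two_ne_zero).1 h2
    have hn : (0 : ℝ) < c w := hc w
    constructor
    · apply mul_left_cancel₀ hn.ne'
      simp only [hD] at hk
      linear_combination (-X w) * e1 w + P w * e3 w - s * R w * hk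
        + (R w * (P w * Y w - R w * X w)) * hs2
    · apply mul_left_cancel₀ hn.ne'
      simp only [hD] at hk
      linear_combination (-Y w) * e1 w + R w * e3 w + s * P w * hk
        - (P w * (P w * Y w - R w * X w)) * hs2
  -- the complexified map
  set T : ℂ → ℝ × ℝ := fun x => (x.re, x.im) with hT
  set f : ℂ → ℂ := fun x => ((A (T x)).1 : ℂ) + ((s * (A (T x)).2 : ℝ) : ℂ) * Complex.I with hf
  have hderiv : ∀ x, HasDerivAt f ((P (T x) : ℂ) + ((s * R (T x) : ℝ) : ℂ) * Complex.I) x := by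
    intro x
    have hT' : HasFDerivAt T (Complex.reCLM.prod Complex.imCLM) x :=
      Complex.reCLM.hasFDerivAt.prodMk Complex.imCLM.hasFDerivAt
    have h0 := ((hA.differentiable (by simp)) (T x)).hasFDerivAt.comp x hT'
    have h1 := (Complex.ofRealCLM.hasFDerivAt.comp x (hasFDerivAt_fst.comp x h0)).add
      (((Complex.ofRealCLM.hasFDerivAt.comp x
        ((hasFDerivAt_snd.comp x h0).const_mul s))).mul_const Complex.I)
    have h1' : HasFDerivAt f _ x := h1
    refine hasDerivAt_iff_hasFDerivAt.2 (hasFDerivAt_of_restrictScalars ℝ h1' ?_)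
    refine ContinuousLinearMap.ext fun u => ?_
    apply Complex.ext <;>
      simp [hexp, (hXY _).1, (hXY _).2]
    · ring
    · linear_combination (-(u.im * P (T x))) * hs2
  have hfd : Differentiable ℂ f := fun x => (hderiv x).differentiableAt
  have hTadd : ∀ (x : ℂ) (l : ℝ × ℝ), T (x + ((l.1 : ℂ) + (l.2 : ℂ) * Complex.I)) = T x + l :=
    fun x l => by simp [hT, Prod.ext_iff]
  have hshift : ∀ (l a : ℝ × ℝ), (∀ w, A (w + l) = A w + a) → ∀ x : ℂ,
      deriv f (x + ((l.1 : ℂ) + (l.2 : ℂ) * Complex.I)) = deriv f x := fun l a h x => by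
    rw [(hderiv _).deriv, (hderiv _).deriv, hTadd]
    have : fderiv ℝ A (T x + l) = fderiv ℝ A (T x) := by
      rw [← fderiv_comp_add_right l, funext h, fderiv_add_const]
    simp only [hP, hR, this]
  have haff := affine_of_periodic_deriv hfd (p := (l₁.1 : ℂ) + (l₁.2 : ℂ) * Complex.I)
    (q := (l₂.1 : ℂ) + (l₂.2 : ℂ) * Complex.I) (by simpa using hl)
    (hshift l₁ a₁ h₁) (hshift l₂ a₂ h₂)
  refine ⟨c 0, P 0, R 0, s, A 0, hs, (e1 0).symm, hc 0, fun w => ?_⟩
  have hw := haff ((w.1 : ℂ) + (w.2 : ℂ) * Complex.I)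
  have hT0 : T 0 = 0 := by simp [hT, Prod.ext_iff]
  rw [(hderiv 0).deriv, hT0] at hw
  have hre := congrArg Complex.re hw
  have him := congrArg Complex.im hw
  simp [hf, hT] at hre him
  refine Prod.ext ?_ ?_
  · simp only [Prod.fst_add]
    rw [show ((0 : ℝ), (0 : ℝ)) = (0 : ℝ × ℝ) from rfl] at hre
    linarith
  · simp only [Prod.snd_add]
    rw [show ((0 : ℝ), (0 : ℝ)) = (0 : ℝ × ℝ) from rfl] at him
    linear_combination s * him - ((A w).2 - (A 0).2 - w.1 * R 0) * hs2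

/-- Isothermal coordinates adapted to the glide. -/
theorem uniform_glide (g : TorusMetric)
    (hg : ∀ z w w', g.val (z.1 + 1/2, -z.2) (w.1, -w.2) (w'.1, -w'.2) = g.val z w w') :
    ∃ (h L : ℝ) (v : ℝ × ℝ → ℝ) (Z : ℝ × ℝ → ℝ × ℝ), 0 < h ∧ 0 < L ∧
      ContDiff ℝ (⊤ : ℕ∞) v ∧ Periodic2 v (2 * h, 0) (0, L) ∧
      (∀ z, v (z.1 + h, -z.2) = v z) ∧ ContDiff ℝ (⊤ : ℕ∞) Z ∧ Function.Bijective Z ∧
      (∀ z, Z (z + (1, 0)) = Z z + (2 * h, 0) ∧ Z (z + (0, 1)) = Z z + (0, L)) ∧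
      (∀ z, Z (z.1 + 1/2, -z.2) = ((Z z).1 + h, -(Z z).2)) ∧
      ∀ z w w', g.val z w w'
        = Real.exp (2 * v (Z z)) * dot (fderiv ℝ Z z w) (fderiv ℝ Z z w') := by
  obtain ⟨l₁, l₂, v, Z, hl, hv, hvp, hZ, hZb, hZp, hZg⟩ := uniformStmt g
  have hpos : ∀ z w, w ≠ 0 → 0 < g.val z w w := fun z w hw => by
    have e : g.g₁₁ z * g.val z w w = (g.g₁₁ z * w.1 + g.g₁₂ z * w.2) ^ 2
        + (g.g₁₁ z * g.g₂₂ z - g.g₁₂ z ^ 2) * w.2 ^ 2 := by simp only [TorusMetric.val]; ring
    refine pos_of_mul_pos_right (e ▸ ?_) (g.pos₁₁ z).le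
    by_cases h2 : w.2 = 0
    · have h1 : w.1 ≠ 0 := fun h1 => hw (Prod.ext h1 h2)
      rw [h2, mul_zero, add_zero, zero_pow two_ne_zero, mul_zero, add_zero]
      exact lt_of_le_of_ne (sq_nonneg _) (pow_ne_zero 2 (mul_ne_zero (g.pos₁₁ z).ne' h1)).symm
    · have := g.pos_det z
      positivity
  have hinj : ∀ z, Function.Injective (fderiv ℝ Z z) := fun z =>
    (injective_iff_map_eq_zero _).2 fun w hw => by
      by_contra h
      have := hpos z w h
      rw [hZg, hw] at this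
      simp [dot] at this
  -- the smooth inverse
  set M : ℝ × ℝ →L[ℝ] ℝ × ℝ := (ContinuousLinearMap.fst ℝ ℝ ℝ).smulRight l₁
    + (ContinuousLinearMap.snd ℝ ℝ ℝ).smulRight l₂ with hM
  have hMi : Function.Injective M := (injective_iff_map_eq_zero _).2 fun w hw => by
    have hr : w.1 * l₁.1 + w.2 * l₂.1 = 0 := by simpa [hM] using congrArg Prod.fst hw
    have hi : w.1 * l₁.2 + w.2 * l₂.2 = 0 := by simpa [hM] using congrArg Prod.snd hw
    refine Prod.ext (mul_left_cancel₀ hl ?_) (mul_left_cancel₀ hl ?_)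
    · simp only [Prod.fst_zero, mul_zero]; linear_combination l₂.2 * hr - l₂.1 * hi
    · simp only [Prod.snd_zero, mul_zero]; linear_combination l₁.1 * hi - l₁.2 * hr
  set Le : (ℝ × ℝ) ≃L[ℝ] ℝ × ℝ :=
    (LinearEquiv.ofInjectiveEndo (M : (ℝ × ℝ) →ₗ[ℝ] ℝ × ℝ) hMi).toContinuousLinearEquiv
  obtain ⟨z₀, hz₀⟩ := Fourier.exists_max_per (f := fun z => ‖Z z - M z‖)
    (hZ.continuous.sub M.continuous).norm (fun z => by
      constructor
      · simp only [(hZp z).1, map_add]
        rw [show M (1, 0) = l₁ by simp [hM], add_sub_add_right_eq_sub]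
      · simp only [(hZp z).2, map_add]
        rw [show M (0, 1) = l₂ by simp [hM], add_sub_add_right_eq_sub])
  obtain ⟨Y, hY, hYZ, hZY⟩ := exists_smooth_inverse Z Le hZ hinj ⟨_, hz₀⟩
  have hYp : ∀ w, Y (w + l₁) = Y w + (1, 0) ∧ Y (w + l₂) = Y w + (0, 1) := fun w => by
    constructor
    · conv_lhs => rw [← hZY w, ← (hZp (Y w)).1]
      exact hYZ _
    · conv_lhs => rw [← hZY w, ← (hZp (Y w)).2]
      exact hYZ _
  -- the glide in the coordinates
  set tau : ℝ × ℝ → ℝ × ℝ := fun z => (z.1 + 1/2, -z.2) with htau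
  set A : ℝ × ℝ → ℝ × ℝ := fun w => Z (tau (Y w)) with hA
  have htauS : ContDiff ℝ (⊤ : ℕ∞) tau := by simp only [htau]; fun_prop
  have hAS : ContDiff ℝ (⊤ : ℕ∞) A := hZ.comp (htauS.comp hY)
  have hA1 : ∀ w, A (w + l₁) = A w + l₁ := fun w => by
    simp only [hA, htau, (hYp w).1]
    rw [← (hZp _).1]; congr 1; ext <;> simp; ring
  have hA2 : ∀ w, A (w + l₂) = A w + -l₂ := fun w => by
    simp only [hA, htau, (hYp w).2]
    have := (hZp ((Y w).1 + 1/2, -(Y w).2 - 1)).2
    rw [eq_add_neg_iff_add_eq]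
    convert this.symm using 2 <;> ext <;> simp <;> ring
  have hconf : ∀ w u u', dot (fderiv ℝ A w u) (fderiv ℝ A w u')
      = Real.exp (2 * v w - 2 * v (A w)) * dot u u' := by
    intro w u u'
    have hdY : HasFDerivAt Y (fderiv ℝ Y w) w := (hY.differentiable (by simp) w).hasFDerivAt
    have hdZ : ∀ z, HasFDerivAt Z (fderiv ℝ Z z) z := fun z =>
      (hZ.differentiable (by simp) z).hasFDerivAt
    set Dt : ℝ × ℝ →L[ℝ] ℝ × ℝ :=
      (ContinuousLinearMap.fst ℝ ℝ ℝ).prod (-ContinuousLinearMap.snd ℝ ℝ ℝ)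
    have hdt : HasFDerivAt tau Dt (Y w) :=
      (hasFDerivAt_fst.add_const (1/2)).prodMk hasFDerivAt_snd.neg
    have hdA : fderiv ℝ A w = (fderiv ℝ Z (tau (Y w))).comp (Dt.comp (fderiv ℝ Y w)) :=
      ((hdZ _).comp w (hdt.comp w hdY)).fderiv
    have hid : ∀ t, fderiv ℝ Z (Y w) (fderiv ℝ Y w t) = t := fun t => by
      have h1 : fderiv ℝ (fun x => Z (Y x)) w = (fderiv ℝ Z (Y w)).comp (fderiv ℝ Y w) :=
        ((hdZ _).comp w hdY).fderiv
      rw [funext hZY, fderiv_fun_id] at h1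
      exact (congrArg (fun B : ℝ × ℝ →L[ℝ] ℝ × ℝ => B t) h1).symm
    have key := hg (Y w) (fderiv ℝ Y w u) (fderiv ℝ Y w u')
    rw [hZg, hZg, hid, hid, hZY] at key
    rw [hdA, Real.exp_sub, div_mul_eq_mul_div, eq_div_iff (Real.exp_pos _).ne', mul_comm]
    simpa [Dt, htau, hA] using key
  obtain ⟨b, p, r, s, x₀, hs, hb, hb0, hAf⟩ :=
    affine_conformal hAS hl hA1 hA2 (fun w => Real.exp_pos _) hconf
  -- the linear part is a reflection fixing `l₁`
  have q1a : p * l₁.1 - s * r * l₁.2 = l₁.1 := by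
    have := congrArg Prod.fst (hA1 0); simp [hAf] at this; linarith
  have q1b : r * l₁.1 + s * p * l₁.2 = l₁.2 := by
    have := congrArg Prod.snd (hA1 0); simp [hAf] at this; linarith
  have q2a : p * l₂.1 - s * r * l₂.2 = -l₂.1 := by
    have := congrArg Prod.fst (hA2 0); simp [hAf] at this; linarith
  have q2b : r * l₂.1 + s * p * l₂.2 = -l₂.2 := by
    have := congrArg Prod.snd (hA2 0); simp [hAf] at this; linarith
  have hn : 0 < l₁.1 ^ 2 + l₁.2 ^ 2 := by
    by_contra h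
    exact hl (by
      rw [show l₁.1 = 0 by nlinarith [sq_nonneg l₁.2], show l₁.2 = 0 by nlinarith [sq_nonneg l₁.1]]
      ring)
  have hs' : s = -1 := by
    rcases hs with h | h
    · subst h
      have hp : p = 1 := by
        have : (p - 1) * (l₁.1 ^ 2 + l₁.2 ^ 2) = 0 := by linear_combination l₁.1 * q1a + l₁.2 * q1b
        rcases mul_eq_zero.1 this with h | h <;> linarith
      have hr : r = 0 := by
        have : r * (l₁.1 ^ 2 + l₁.2 ^ 2) = 0 := by linear_combination l₁.1 * q1b - l₁.2 * q1a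
        rcases mul_eq_zero.1 this with h | h <;> linarith
      subst hp hr
      exact absurd (by rw [show l₂.1 = 0 by linarith, show l₂.2 = 0 by linarith]; ring) hl
    · exact h
  subst hs'
  set N := Real.sqrt (l₁.1 ^ 2 + l₁.2 ^ 2) with hN
  have hN0 : 0 < N := Real.sqrt_pos.2 hn
  have hN2 : N ^ 2 = l₁.1 ^ 2 + l₁.2 ^ 2 := Real.sq_sqrt hn.le
  set c := l₁.1 / N with hc
  set d := l₁.2 / N with hd
  have hcd : c ^ 2 + d ^ 2 = 1 := by simp only [hc, hd]; field_simp; linarith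
  have r1 : p * c + r * d = c := by simp only [hc, hd]; field_simp; linarith
  have r2 : r * c - p * d = d := by simp only [hc, hd]; field_simp; linarith
  have hperp : c * l₂.1 + d * l₂.2 = 0 := by
    linear_combination (1/2 : ℝ) * (c * q2a + d * q2b - l₂.1 * r1 - l₂.2 * r2)
  set t := -d * l₂.1 + c * l₂.2 with ht
  have ht0 : t ≠ 0 := fun h => hl (by
    have a1 : l₂.1 = 0 := by linear_combination c * hperp - d * h - l₂.1 * hcd
    have a2 : l₂.2 = 0 := by linear_combination d * hperp + c * h - l₂.2 * hcd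
    rw [a1, a2]; ring)
  obtain ⟨e, he, het⟩ : ∃ e : ℝ, e * e = 1 ∧ 0 < e * t := by
    rcases lt_or_gt_of_ne ht0 with h | h
    · exact ⟨-1, by norm_num, by linarith⟩
    · exact ⟨1, by norm_num, by linarith⟩
  set β := e * (-d * x₀.1 + c * x₀.2) with hβ
  set R : ℝ × ℝ → ℝ × ℝ := fun w => (c * w.1 + d * w.2, e * (-d * w.1 + c * w.2) - β / 2) with hR
  set Ri : ℝ × ℝ → ℝ × ℝ :=
    fun u => (c * u.1 - d * (e * (u.2 + β / 2)), d * u.1 + c * (e * (u.2 + β / 2))) with hRi
  have hRRi : ∀ u, R (Ri u) = u := fun u => by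
    refine Prod.ext ?_ ?_ <;> simp only [hR, hRi]
    · linear_combination u.1 * hcd
    · linear_combination (e * e * (u.2 + β / 2)) * hcd + (u.2 + β / 2) * he
  have hRiR : ∀ w, Ri (R w) = w := fun w => by
    refine Prod.ext ?_ ?_ <;> simp only [hR, hRi]
    · linear_combination w.1 * hcd + (-d * (-d * w.1 + c * w.2)) * he
    · linear_combination w.2 * hcd + (c * (-d * w.1 + c * w.2)) * he
  -- the glide after the change of coordinates
  have hRA : ∀ w, R (A w) = ((R w).1 + (c * x₀.1 + d * x₀.2), -(R w).2) := fun w => by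
    refine Prod.ext ?_ ?_ <;> simp only [hR, hAf, Prod.fst_add, Prod.snd_add]
    · linear_combination w.1 * r1 + w.2 * r2
    · rw [hβ]
      linear_combination (e * w.1) * r2 - (e * w.2) * r1
  have hAA : A (A 0) = l₁ := by
    have h1 : tau (Y (A 0)) = Y 0 + (1, 0) := by
      simp only [hA, htau, hYZ]; ext <;> simp; ring
    show Z (tau (Y (A 0))) = l₁
    rw [h1, (hZp _).1, hZY, zero_add]
  have hh : c * x₀.1 + d * x₀.2 = N / 2 := by
    have h1 := congrArg Prod.fst (hRA (A 0))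
    rw [hAA, (congrArg Prod.fst (hRA 0) : (R (A 0)).1 = _)] at h1
    have h2 : (R l₁).1 = N := by simp only [hR, hc, hd]; field_simp; linarith
    have h3 : (R 0).1 = 0 := by simp [hR]
    rw [h2, h3] at h1
    linarith
  have hR1 : ∀ w, R (w + l₁) = R w + (N, 0) := fun w => by
    refine Prod.ext ?_ ?_ <;> simp only [hR, Prod.fst_add, Prod.snd_add, hc, hd]
    · field_simp; linarith
    · ring
  have hR2 : ∀ w, R (w + l₂) = R w + (0, e * t) := fun w => by
    refine Prod.ext ?_ ?_ <;> simp only [hR, Prod.fst_add, Prod.snd_add, ht]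
    · linarith
    · ring
  have hdR : ∀ w, HasFDerivAt R
      ((c • ContinuousLinearMap.fst ℝ ℝ ℝ + d • ContinuousLinearMap.snd ℝ ℝ ℝ).prod
        (e • ((-d) • ContinuousLinearMap.fst ℝ ℝ ℝ + c • ContinuousLinearMap.snd ℝ ℝ ℝ))) w :=
    fun w => ((hasFDerivAt_fst.const_mul c).add (hasFDerivAt_snd.const_mul d)).prodMk
      ((((hasFDerivAt_fst.const_mul (-d)).add (hasFDerivAt_snd.const_mul c)).const_mul e).sub_const _)
  have hvA : ∀ w, v (A w) = v w := fun w => by
    have h := hconf w (1, 0) (1, 0)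
    have hd1 : fderiv ℝ A w (1, 0) = (p, r) := by
      have : HasFDerivAt A
          ((p • ContinuousLinearMap.fst ℝ ℝ ℝ + r • ContinuousLinearMap.snd ℝ ℝ ℝ).prod
            (r • ContinuousLinearMap.fst ℝ ℝ ℝ + (-p) • ContinuousLinearMap.snd ℝ ℝ ℝ)) w := by
        rw [show A = fun w => x₀ + (p * w.1 + r * w.2, r * w.1 + -p * w.2) from funext fun w => by
          rw [hAf]; simp]
        exact ((((hasFDerivAt_fst.const_mul p).add (hasFDerivAt_snd.const_mul r))).prodMk
          ((hasFDerivAt_fst.const_mul r).add (hasFDerivAt_snd.const_mul (-p)))).const_add _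
      rw [this.fderiv]; simp
    have hpr : p ^ 2 + r ^ 2 = 1 := by
      linear_combination (p * c + r * d + c) * r1 + (r * c - p * d + d) * r2
        - (p ^ 2 + r ^ 2 - 1) * hcd
    rw [hd1] at h
    simp [dot] at h
    have h1 : Real.exp (2 * v w - 2 * v (A w)) = 1 := by linarith [hpr, h]
    linarith [(Real.exp_eq_one_iff _).1 h1]
  refine ⟨N / 2, e * t, v ∘ Ri, R ∘ Z, half_pos hN0, het,
    hv.comp (by simp only [hRi]; fun_prop), fun u => ?_, fun u => ?_,
    ContDiff.comp (by simp only [hR]; fun_prop) hZ,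
    (Function.bijective_iff_has_inverse.2 ⟨Ri, hRiR, hRRi⟩).comp hZb, fun z => ?_, fun z => ?_,
    fun z w w' => ?_⟩
  · obtain ⟨w, rfl⟩ : ∃ w, R w = u := ⟨Ri u, hRRi u⟩
    rw [show 2 * (N / 2) = N by ring, ← hR1, ← hR2]
    simp only [Function.comp_apply, hRiR, (hvp w).1, (hvp w).2, and_self]
  · obtain ⟨w, rfl⟩ : ∃ w, R w = u := ⟨Ri u, hRRi u⟩
    rw [← hh, ← hRA]
    simp only [Function.comp_apply, hRiR, hvA]
  · simp only [Function.comp_apply, (hZp z).1, (hZp z).2, hR1, hR2]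
    rw [show 2 * (N / 2) = N by ring]
    trivial
  · simp only [Function.comp_apply, ← hh]
    rw [← hRA]
    simp only [hA, htau, hYZ]
  · have hd' : fderiv ℝ (R ∘ Z) z = _ :=
      ((hdR (Z z)).comp z (hZ.differentiable (by simp) z).hasFDerivAt).fderiv
    simp only [Function.comp_apply, hRiR, hd', hZg]
    congr 1
    simp [dot]
    linear_combination (-((fderiv ℝ Z z w).1 * (fderiv ℝ Z z w').1
        + (fderiv ℝ Z z w).2 * (fderiv ℝ Z z w').2)) * hcd
      - ((-d * (fderiv ℝ Z z w).1 + c * (fderiv ℝ Z z w).2)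
          * (-d * (fderiv ℝ Z z w').1 + c * (fderiv ℝ Z z w').2)) * he

/-- Module Uniform. -/
theorem uniform : UniformStmt := fun g hg => uniform_glide g hg

end P205.Klein
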