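import Vale.Agent.P205.Klein.VerifyInterface
import Vale.Agent.P205.Klein.Link
import Vale.Agent.P205.Klein.Closing
import Vale.Agent.P205.Klein.Uniform
import Vale.Agent.P205.Klein.Statement

/-!
P205, Klein bottle, module Main: the parameter with matching periods, and the assembly.
-/

namespace P205.Klein

open P205.Tori

/-- An estimated family along a continuous curve in the ball is continuous. -/
theorem Est.continuous_along {S : Setup} {s : ℂ} {a b c : ℤ} {T : ℕ → ℝ → Unk → L1}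
    (hT : Est S s a b c T) {q : ℕ} (hq : q ∈ S.Q) {X : ℝ → Unk} (hX : Continuous X)
    (hball : ∀ t, S.Ball q (X t)) : Continuous fun t => T q t (X t) := by
  obtain ⟨C, -, h⟩ := hT
  obtain ⟨-, h2, h3, -⟩ := h q hq
  refine continuous_iff_continuousAt.2 fun t₀ => tendsto_iff_norm_sub_tendsto_zero.2 ?_
  refine squeeze_zero (fun _ => norm_nonneg _) (fun t =>
    (norm_sub_le_norm_sub_add_norm_sub _ (T q t (X t₀)) _).trans
      (add_le_add (h2 t _ _ (hball t) (hball t₀)) le_rfl)) ?_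
  have e : Continuous fun t => C * (S.η q ^ b * ‖(X t).1 - (X t₀).1‖
      + S.η q ^ c * ‖(X t).2 - (X t₀).2‖) + ‖T q t (X t₀) - T q t₀ (X t₀)‖ :=
    (continuous_const.mul ((continuous_const.mul (hX.fst.sub continuous_const).norm).add
      (continuous_const.mul (hX.snd.sub continuous_const).norm))).add
      ((h3 _ (hball t₀)).sub continuous_const).norm
  simpa using e.tendsto t₀

/-- The discrepancy is within `3 δ₀` of `1 - L / P`. -/
theorem disc_near {S : Setup} {q : ℕ} {δ₀ : ℝ} (hδ1 : δ₀ ≤ 1) (hc : S.Contr q δ₀) {t : ℝ}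
    {x : Unk} (hx : S.Sol q t x) : |S.disc q t x - (1 - S.L / S.P q t)| ≤ 3 * δ₀ := by
  obtain ⟨n1, n2, -⟩ := hc.near t x hx.ball
  have e : S.Hc q t x = x.2.2.2 := congrArg (fun y : L1 × L1 × L1 => y.2.2) hx.eqH
  rw [e] at n1
  have hδ0 : 0 ≤ δ₀ := (norm_nonneg _).trans n1
  have h1 : ‖x.2.2.2 * S.E22 q t x - 1‖ ≤ 3 * δ₀ := by
    rw [show x.2.2.2 * S.E22 q t x - 1
      = (x.2.2.2 - 1) * (S.E22 q t x - 1) + (x.2.2.2 - 1) + (S.E22 q t x - 1) by ring]
    refine (norm_add₃_le).trans ?_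
    have := (norm_mul_le (x.2.2.2 - 1) (S.E22 q t x - 1)).trans
      (mul_le_mul n1 n2 (norm_nonneg _) hδ0)
    nlinarith
  have h2 := (Complex.abs_re_le_norm _).trans ((L1.norm_coeff_le _ 0).trans h1)
  rw [L1.coeff_sub, L1.one_def, L1.coeff_single, if_pos rfl, Complex.sub_re, Complex.one_re] at h2
  refine le_of_eq_of_le ?_ h2
  congr 1
  simp only [Setup.disc]
  ring

/-- Verify gives the immersion of every rectangle. -/
theorem goal_of (hV : VerifyStmt) : GoalStmt := by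
  intro h L hh hL v hv hvp hvg
  obtain ⟨S, C, c₀, D, rfl, rfl, hc₀, hlink⟩ := link h L hh hL v hv hvp hvg
  set δ₀ := min tolV (c₀ / 4) with hδd
  have hδ : 0 < δ₀ := lt_min (by norm_num [tolV]) (by linarith)
  have hδ1 : δ₀ ≤ 1 := (min_le_left _ _).trans (by norm_num [tolV])
  obtain ⟨η₀, hη₀, hcon⟩ := S.exists_contr δ₀ hδ
  obtain ⟨q, hq, hqη⟩ := hlink.small η₀ hη₀
  have hc := hcon q hq hqη
  obtain ⟨X, hX, hsol⟩ := S.exists_sol hq hc
  have hball := fun t => (hsol t).ball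
  have hcd : Continuous fun t => S.disc q t (X t) := by
    have hE := S.est_E22.continuous_along hq hX hball
    exact (Complex.continuous_re.comp ((L1.coeffCLM 0).continuous.comp
      ((hX.snd.snd.snd).mul hE))).sub
      (continuous_const.div (S.cont_P q hq) fun t => (S.P_pos q t).ne')
  have h0 : (0 : ℝ) ∈ Set.Icc (0 : ℝ) 1 := ⟨le_rfl, zero_le_one⟩
  have h1 : (1 : ℝ) ∈ Set.Icc (0 : ℝ) 1 := ⟨zero_le_one, le_rfl⟩
  have e0 := abs_le.1 (disc_near hδ1 hc (hsol 0))
  have e1 := abs_le.1 (disc_near hδ1 hc (hsol 1))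
  rw [hlink.P_eq q hq 0 h0] at e0
  rw [hlink.P_eq q hq 1 h1] at e1
  have l0 := (D q hq).left
  have r1 := (D q hq).right
  have hδc : δ₀ ≤ c₀ / 4 := min_le_right _ _
  obtain ⟨t, ht, hdisc⟩ := intermediate_value_Icc zero_le_one hcd.continuousOn
    (show (0 : ℝ) ∈ Set.Icc (S.disc q 0 (X 0)) (S.disc q 1 (X 1)) from
      ⟨by linarith [e0.2], by linarith [e1.1]⟩)
  obtain ⟨u, z, hu, hz, hup, hug, hzp, hzg, hm⟩ :=
    hV S v C c₀ D hv hvp hvg hlink q hq δ₀ (min_le_left _ _) hc t ht (X t) (hsol t) hdisc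
  exact closing S.h S.L C c₀ q S.h_pos S.L_pos (hlink.pos q hq) (D q hq) t ht v hv hvp hvg
    u z hu hz hup hug hzp hzg hm

/-- Verify gives every metric on the Klein bottle. -/
theorem metricGoal_of_verify (hV : VerifyStmt) : MetricGoalStmt :=
  metricGoal_of (goal_of hV) uniform

end P205.Klein
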