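import Vale.Agent.P205.Klein.System

/-!
P205, Klein bottle: the fixed point, by contraction; weighted balls give smoothness.
-/

namespace P205.Klein

open P205.Tori P205.Tori.Fourier Filter Topology

namespace Setup

variable {S : Setup}

theorem sym_shift {s : ℂ} {u : L1} (r : ℝ) (hs : s = 1)
    (h : L1.conjc (u - (r : ℂ) • (1 : L1)) = u - (r : ℂ) • (1 : L1) ∧
      refl (u - (r : ℂ) • (1 : L1)) = s • (u - (r : ℂ) • (1 : L1))) :
    L1.conjc u = u ∧ refl u = u := by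
  obtain ⟨h1, h2⟩ := h
  rw [L1.conjc_sub, L1.conjc_smul, L1.conjc_one] at h1
  rw [map_sub, map_smul, refl_one, hs, one_smul] at h2
  exact ⟨sub_left_injective h1, sub_left_injective h2⟩

theorem Bd_shift {n : ℕ} {δ R B : ℝ} {u : L1} (hδ : 0 ≤ δ) {r : ℝ}
    (h : L1.Bd n δ R (u - (r : ℂ) • (1 : L1))) (hB : R + |r| ≤ B) : L1.Bd n δ B u := by
  have h2 := h.add hδ ((L1.Bd.one (n := n) (δ := δ)).smul (r : ℂ))
  rw [sub_add_cancel, Complex.norm_real, mul_one] at h2
  exact h2.mono hB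

theorem wball_zero {q : ℕ} (hq : q ∈ S.Q) (n : ℕ) (δ : ℝ) : S.WBall q n δ 0 :=
  have h := fun e : ℤ => zpow_nonneg (S.η_pos q hq).le e
  ⟨L1.Bd.zero (h 3), L1.Bd.zero zero_le_two, L1.Bd.zero zero_le_two, L1.Bd.zero (h 2),
    L1.Bd.zero (h 2), L1.Bd.zero zero_le_two⟩

theorem symX_zero : SymX 0 :=
  ⟨⟨Solve.IsR.zero, map_zero _⟩, ⟨Solve.IsR.zero, map_zero _⟩, ⟨Solve.IsR.zero, map_zero _⟩,
    ⟨Solve.IsR.zero, map_zero _⟩, ⟨Solve.IsR.zero, by simp⟩, Solve.IsR.zero, map_zero _⟩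

theorem isClosed_symX : IsClosed {x : Unk | SymX x} := by
  have hc := L1.continuous_conjc
  have hr := refl.continuous
  simp only [SymX, Set.ext_iff, Set.setOf_and]
  repeat' (first | exact isClosed_eq (by fun_prop) (by fun_prop) | apply IsClosed.inter)

theorem isClosed_wball (q n : ℕ) (δ : ℝ) : IsClosed {x : Unk | S.WBall q n δ x} := by
  simp only [WBall, Set.setOf_and]
  repeat' (first
    | exact L1.isClosed_Bd.preimage (by fun_prop : Continuous fun x : Unk => _)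
    | apply IsClosed.inter)

/-- What the contraction gives. -/
structure Contr (S : Setup) (q : ℕ) (δ₀ : ℝ) : Prop where
  maps : ∀ t n δ, S.Good q t n δ → ∀ x, S.WBall q n δ x → S.WBall q n δ (S.step q t x)
  sym : ∀ t x, S.Ball q x → SymX x → SymX (S.step q t x)
  lip : ∀ t x y, S.Ball q x → S.Ball q y → ‖S.step q t x - S.step q t y‖ ≤ ‖x - y‖ / 2
  cont : ∀ x, S.Ball q x → Continuous fun t => S.step q t x
  near : ∀ t x, S.Ball q x →
    ‖S.Hc q t x - 1‖ ≤ δ₀ ∧ ‖S.E22 q t x - 1‖ ≤ δ₀ ∧ ‖S.gam q x * S.qq q t x‖ ≤ δ₀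

theorem est_E22' : Est S 1 3 0 6 fun q t x => S.E22 q t x - 1 :=
  Est.congr ((((est_trig.2.2.mul est_a12).fit (by norm_num)).add ((est_trig.2.1.mul est_a22).fit (by norm_num))).add
    ((est_gam'.mul (est_pb.mul est_pb)).fit (by norm_num))) fun q t x => by simp only [E22, a22]; ring

theorem exists_contr (δ₀ : ℝ) (hδ₀ : 0 < δ₀) :
    ∃ η₀ : ℝ, 0 < η₀ ∧ ∀ q ∈ S.Q, S.η q ≤ η₀ → S.Contr q δ₀ := by
  obtain ⟨A, hA, hf⟩ := est_Ff (S := S)
  obtain ⟨B, hB, hg⟩ := est_Fg (S := S)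
  obtain ⟨C, hC, hi⟩ := est_Fi (S := S)
  obtain ⟨D, hD, h1⟩ := est_Hg1 (S := S)
  obtain ⟨E, hE, h2⟩ := est_Hg2 (S := S)
  obtain ⟨G, hG, hc⟩ := est_Hc (S := S)
  obtain ⟨J, hJ, h22⟩ := est_E22' (S := S)
  obtain ⟨W, hW, hgq⟩ := est_gq (S := S)
  set KF := A + B + C
  set KH := D + E + G
  set K := KF + KH + J + W + 2 * KH * (2 * KF + 1) + 4 * KF + 1
  have hKF : 0 ≤ KF := by positivity
  have hKH : 0 ≤ KH := by positivity
  have hK : 1 ≤ K := le_add_of_nonneg_left (by positivity)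
  have hKHF : 0 ≤ 2 * KH * (2 * KF + 1) := by positivity
  refine ⟨min 1 δ₀ / (2 * K), by positivity, fun q hq hη => ?_⟩
  have hp := S.η_pos q hq
  have hηK : 2 * K * S.η q ≤ min 1 δ₀ := by
    rw [le_div_iff₀ (by positivity)] at hη; linarith
  -- a constant times a positive power is small
  have small : ∀ (M : ℝ) (e e' : ℤ), 0 ≤ M → M ≤ K → e' < e →
      M * S.η q ^ e ≤ min 1 δ₀ / 2 * S.η q ^ e' := by
    intro M e e' hM hMK he
    have h := mul_le_mul_of_nonneg_left (S.zpow_anti hq (show e' + 1 ≤ e by omega)) hM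
    rw [zpow_add_one₀ hp.ne'] at h
    refine h.trans ?_
    have := zpow_nonneg hp.le e'
    nlinarith [mul_le_mul_of_nonneg_right hMK hp.le]
  have hm1 : min 1 δ₀ / 2 ≤ 1 / 2 := by linarith [min_le_left 1 δ₀]
  have hm2 : min 1 δ₀ / 2 ≤ δ₀ := by linarith [min_le_right 1 δ₀, hδ₀]
  obtain ⟨f1, f2, f3, f4⟩ := hf q hq
  obtain ⟨g1, g2, g3, g4⟩ := hg q hq
  obtain ⟨i1, i2, i3, i4⟩ := hi q hq
  obtain ⟨a1, a2, a3, a4⟩ := h1 q hq
  obtain ⟨b1, b2, b3, b4⟩ := h2 q hq
  obtain ⟨c1, c2, c3, c4⟩ := hc q hq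
  have e1 : ∀ u : L1, u - 1 = u - ((1 : ℝ) : ℂ) • (1 : L1) := fun u => by simp
  simp only [e1] at i1 i4 c1 c4
  have mF : ∀ t n δ, S.Good q t n δ → ∀ x, S.WBall q n δ x →
      L1.Bd n δ (S.η q ^ (3 : ℤ)) (S.Ff q t x) ∧ L1.Bd n δ 2 (S.Fg q t x) ∧
        L1.Bd n δ 2 (S.Fi q t x) := fun t n δ gd x hx => by
    refine ⟨(f1 t n δ gd x hx).mono ((small A 6 3 hA (by linarith) (by norm_num)).trans
        (mul_le_of_le_one_left (zpow_nonneg hp.le _) (by linarith))),
      Bd_shift gd.1 (g1 t n δ gd x hx) ?_,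
      Bd_shift gd.1 (i1 t n δ gd x hx) ?_⟩
    · have := small B 6 0 hB (by linarith) (by norm_num)
      rw [zpow_zero, mul_one] at this
      rw [abs_of_nonneg (by norm_num)]
      linarith
    · have := small C 6 0 hC (by linarith) (by norm_num)
      rw [zpow_zero, mul_one] at this
      rw [abs_of_nonneg (by norm_num)]
      linarith
  have pair : ∀ t n δ, S.Good q t n δ → ∀ x, S.WBall q n δ x →
      S.WBall q n δ (S.F q t x, x.2) := fun t n δ gd x hx => by
    obtain ⟨p1, p2, p3⟩ := mF t n δ gd x hx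
    exact ⟨p1, p2, p3, hx.2.2.2⟩
  have pairB : ∀ t x, S.Ball q x → S.Ball q (S.F q t x, x.2) := fun t x hx =>
    pair t 0 0 (S.good_zero hq t) x hx
  have lF : ∀ t x y, S.Ball q x → S.Ball q y →
      ‖S.F q t x - S.F q t y‖ ≤ KF * S.η q ^ (6 : ℤ) * (2 * ‖x - y‖) := fun t x y hx hy => by
    have key : ∀ {M : ℝ} {u v : L1}, 0 ≤ M → M ≤ KF →
        ‖u - v‖ ≤ M * (S.η q ^ (6 : ℤ) * ‖x.1 - y.1‖ + S.η q ^ (6 : ℤ) * ‖x.2 - y.2‖) →
        ‖u - v‖ ≤ KF * S.η q ^ (6 : ℤ) * (2 * ‖x - y‖) := fun {M u v} hM hMK h => by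
      refine h.trans ?_
      rw [← mul_add, ← mul_assoc]
      exact mul_le_mul (mul_le_mul_of_nonneg_right hMK (zpow_nonneg hp.le _))
        (by linarith [(norm_fst_le x y).1, (norm_fst_le x y).2]) (by positivity) (by positivity)
    refine max_le (key hA (by linarith) (f2 t x y hx hy)) (max_le ?_ ?_)
    · have h := g2 t x y hx hy
      rw [sub_sub_sub_cancel_right] at h
      exact key hB (by linarith) h
    · have h := i2 t x y hx hy
      rw [sub_sub_sub_cancel_right] at h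
      exact key hC (by linarith) h
  have lH : ∀ t x y, S.Ball q x → S.Ball q y →
      ‖S.H q t x - S.H q t y‖ ≤ KH * (‖x.1 - y.1‖ + S.η q ^ (3 : ℤ) * ‖x.2 - y.2‖) :=
    fun t x y hx hy => by
    have key : ∀ {M : ℝ} {u v : L1}, 0 ≤ M → M ≤ KH →
        ‖u - v‖ ≤ M * (S.η q ^ (0 : ℤ) * ‖x.1 - y.1‖ + S.η q ^ (3 : ℤ) * ‖x.2 - y.2‖) →
        ‖u - v‖ ≤ KH * (‖x.1 - y.1‖ + S.η q ^ (3 : ℤ) * ‖x.2 - y.2‖) := fun {M u v} hM hMK h => by
      rw [zpow_zero, one_mul] at h
      exact h.trans (mul_le_mul_of_nonneg_right hMK (by positivity))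
    refine max_le (key hD (by linarith) (a2 t x y hx hy))
      (max_le (key hE (by linarith) (b2 t x y hx hy)) ?_)
    have h := c2 t x y hx hy
    rw [sub_sub_sub_cancel_right] at h
    exact key hG (by linarith) h
  refine ⟨fun t n δ gd x hx => ?_, fun t x hx hs => ?_, fun t x y hx hy => ?_, fun x hx => ?_,
    fun t x hx => ⟨?_, ?_, ?_⟩⟩
  · obtain ⟨p1, p2, p3⟩ := mF t n δ gd x hx
    have hy := pair t n δ gd x hx
    refine ⟨p1, p2, p3, (a1 t n δ gd _ hy).mono ((small D 3 2 hD (by linarith) (by norm_num)).trans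
        (mul_le_of_le_one_left (zpow_nonneg hp.le _) (by linarith))),
      (b1 t n δ gd _ hy).mono ((small E 3 2 hE (by linarith) (by norm_num)).trans
        (mul_le_of_le_one_left (zpow_nonneg hp.le _) (by linarith))),
      Bd_shift gd.1 (c1 t n δ gd _ hy) ?_⟩
    have := small G 3 0 hG (by linarith) (by norm_num)
    rw [zpow_zero, mul_one] at this
    rw [abs_of_nonneg (by norm_num)]
    linarith
  · have pf : SymX (S.F q t x, x.2) := by
      refine ⟨?_, sym_shift _ rfl (g4 t x hx hs), sym_shift 1 rfl (i4 t x hx hs), hs.2.2.2⟩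
      exact ⟨(f4 t x hx hs).1, by simpa [F] using (f4 t x hx hs).2⟩
    have hy := pairB t x hx
    exact ⟨pf.1, pf.2.1, pf.2.2.1, ⟨(a4 t _ hy pf).1, by simpa [step, H] using (a4 t _ hy pf).2⟩,
      ⟨(b4 t _ hy pf).1, by simpa [step, H] using (b4 t _ hy pf).2⟩,
      sym_shift 1 rfl (c4 t _ hy pf)⟩
  · have n1 := lF t x y hx hy
    have n2 := lH t _ _ (pairB t x hx) (pairB t y hy)
    have hn := norm_nonneg (x - y)
    have s1 : KF * S.η q ^ (6 : ℤ) * (2 * ‖x - y‖) ≤ ‖x - y‖ / 2 := by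
      have := small (2 * KF) 6 0 (by positivity) (by linarith) (by norm_num)
      rw [zpow_zero, mul_one] at this
      nlinarith
    refine max_le (n1.trans s1) (n2.trans ?_)
    have p63 : S.η q ^ (6 : ℤ) ≤ S.η q ^ (3 : ℤ) := S.zpow_anti hq (by norm_num)
    have := small (KH * (2 * KF + 1)) 3 0 (by positivity) (by linarith) (by norm_num)
    rw [zpow_zero, mul_one] at this
    calc KH * (‖S.F q t x - S.F q t y‖ + S.η q ^ (3 : ℤ) * ‖x.2 - y.2‖)
        ≤ KH * (KF * S.η q ^ (3 : ℤ) * (2 * ‖x - y‖) + S.η q ^ (3 : ℤ) * ‖x - y‖) := by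
          refine mul_le_mul_of_nonneg_left (add_le_add (n1.trans ?_) ?_) hKH
          · exact mul_le_mul_of_nonneg_right (mul_le_mul_of_nonneg_left p63 hKF) (by positivity)
          · exact mul_le_mul_of_nonneg_left (norm_fst_le x y).2 (zpow_nonneg hp.le _)
      _ = KH * (2 * KF + 1) * S.η q ^ (3 : ℤ) * ‖x - y‖ := by ring
      _ ≤ _ := by nlinarith
  · have cg : Continuous fun t => S.Fg q t x := by
      simpa [Pi.add_def] using (g3 x hx).add (continuous_const (y := ((1 / 2 : ℝ) : ℂ) • (1 : L1)))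
    have ci : Continuous fun t => S.Fi q t x := by
      simpa [Pi.add_def] using (i3 x hx).add (continuous_const (y := (1 : L1)))
    have cF : Continuous fun t => S.F q t x := (f3 x hx).prodMk (cg.prodMk ci)
    have cH : ∀ y, S.Ball q y → Continuous fun t => S.H q t y := fun y hy => by
      have cc : Continuous fun t => S.Hc q t y := by
        simpa [Pi.add_def] using (c3 y hy).add (continuous_const (y := (1 : L1)))
      exact (a3 y hy).prodMk ((b3 y hy).prodMk cc)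
    refine cF.prodMk (continuous_iff_continuousAt.2 fun t₀ => ?_)
    have hy₀ := pairB t₀ x hx
    refine tendsto_iff_norm_sub_tendsto_zero.2 (squeeze_zero (fun _ => norm_nonneg _)
      (fun t => (norm_sub_le_norm_sub_add_norm_sub _ (S.H q t (S.F q t₀ x, x.2)) _).trans
        (add_le_add (lH t _ _ (pairB t x hx) hy₀) le_rfl)) ?_)
    have e := (((cF.sub (continuous_const (y := S.F q t₀ x))).norm.const_mul KH).add
      ((cH _ hy₀).sub (continuous_const (y := S.H q t₀ (S.F q t₀ x, x.2)))).norm).tendsto t₀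
    simpa [Pi.add_def] using e
  · rw [e1]
    refine (Bd_zero_iff.1 (c1 t 0 0 (S.good_zero hq t) x hx)).trans ?_
    have := small G 3 0 hG (by linarith) (by norm_num)
    rw [zpow_zero, mul_one] at this
    linarith
  · refine (Bd_zero_iff.1 ((h22 q hq).1 t 0 0 (S.good_zero hq t) x hx)).trans ?_
    have := small J 3 0 hJ (by linarith) (by norm_num)
    rw [zpow_zero, mul_one] at this
    linarith
  · refine (Bd_zero_iff.1 ((hgq q hq).1 t 0 0 (S.good_zero hq t) x hx)).trans ?_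
    have := small W 12 0 hW (by linarith) (by norm_num)
    rw [zpow_zero, mul_one] at this
    linarith

/-- A solution. -/
structure Sol (S : Setup) (q : ℕ) (t : ℝ) (x : Unk) : Prop where
  ball : S.Ball q x
  sym : SymX x
  eqF : S.F q t x = x.1
  eqH : S.H q t x = x.2
  rd : RD (L1.coeff x.1.1) ∧ RD (L1.coeff x.1.2.1) ∧ RD (L1.coeff x.1.2.2) ∧
    RD (L1.coeff x.2.1) ∧ RD (L1.coeff x.2.2.1) ∧ RD (L1.coeff x.2.2.2)
  smooth : ∀ {s : ℂ} {a b c : ℤ} {T : ℕ → ℝ → Unk → L1}, Est S s a b c T →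
    RD (L1.coeff (T q t x))

/-- The fixed points, continuous in the parameter. -/
theorem exists_sol {q : ℕ} (hq : q ∈ S.Q) {δ₀ : ℝ} (hc : S.Contr q δ₀) :
    ∃ X : ℝ → Unk, Continuous X ∧ ∀ t, S.Sol q t (X t) := by
  have hK : IsClosed {x : Unk | S.Ball q x ∧ SymX x} :=
    (S.isClosed_wball q 0 0).inter isClosed_symX
  have ball_step : ∀ t x, S.Ball q x → S.Ball q (S.step q t x) := fun t x hx =>
    hc.maps t 0 0 (S.good_zero hq t) x hx
  have hmap : ∀ t, Set.MapsTo (S.step q t) {x : Unk | S.Ball q x ∧ SymX x}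
      {x : Unk | S.Ball q x ∧ SymX x} := fun t x hx =>
    ⟨ball_step t x hx.1, hc.sym t x hx.1 hx.2⟩
  have key : ∀ t, ∃ x, (S.Ball q x ∧ SymX x) ∧ S.step q t x = x ∧
      Tendsto (fun n => (S.step q t)^[n] 0) atTop (𝓝 x) := by
    intro t
    have hlip : ContractingWith (1 / 2 : NNReal) ((hmap t).restrict (S.step q t) _ _) :=
      ⟨by norm_num, LipschitzWith.of_dist_le_mul fun x y => by
        rw [Subtype.dist_eq, Subtype.dist_eq, dist_eq_norm, dist_eq_norm]
        refine (hc.lip t _ _ x.2.1 y.2.1).trans_eq ?_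
        push_cast; ring⟩
    obtain ⟨x, hx, hfix, hlim, -⟩ := hlip.exists_fixedPoint' hK.isComplete (hmap t)
      (x := 0) ⟨S.wball_zero hq 0 0, symX_zero⟩ (edist_ne_top _ _)
    exact ⟨x, hx, hfix, hlim⟩
  choose X hX hfix hlim using key
  refine ⟨X, continuous_iff_continuousAt.2 fun t₀ => ?_, fun t => ?_⟩
  · have c := (hc.cont (X t₀) (hX t₀).1).sub (continuous_const (y := X t₀))
    refine tendsto_iff_norm_sub_tendsto_zero.2 (squeeze_zero (fun _ => norm_nonneg _) (fun t => ?_)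
      (by simpa [hfix t₀] using (c.norm.const_mul 2).tendsto t₀))
    have h := norm_sub_le_norm_sub_add_norm_sub (S.step q t (X t)) (S.step q t (X t₀)) (X t₀)
    have h2 := hc.lip t _ _ (hX t).1 (hX t₀).1
    rw [hfix t] at h h2
    linarith
  · have wb : ∀ n, ∃ δ, 0 < δ ∧ δ ≤ 1 ∧ S.Good q t n δ ∧ S.WBall q n δ (X t) := fun n => by
      obtain ⟨δ, hδ, hδ1, hg⟩ := S.exists_good hq t n
      refine ⟨δ, hδ, hδ1, hg, (S.isClosed_wball q n δ).mem_of_tendsto (hlim t)
        (Eventually.of_forall fun k => ?_)⟩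
      induction k with
      | zero => exact S.wball_zero hq n δ
      | succ k ih => rw [Function.iterate_succ_apply']; exact hc.maps t n δ hg _ ih
    have hf : S.F q t (X t) = (X t).1 := congrArg Prod.fst (hfix t)
    have hh : S.H q t (X t) = (X t).2 := by
      have h := congrArg Prod.snd (hfix t)
      simp only [step, hf, Prod.mk.eta] at h
      exact h
    refine ⟨(hX t).1, (hX t).2, hf, hh, ?_, fun hT => ?_⟩
    · refine ⟨?_, ?_, ?_, ?_, ?_, ?_⟩
      all_goals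
        refine L1.rd_of_Bd fun n => ?_
        obtain ⟨δ, hδ, hδ1, -, h1, h2, h3, h4, h5, h6⟩ := wb n
        first
          | exact ⟨δ, _, hδ, hδ1, h1⟩
          | exact ⟨δ, _, hδ, hδ1, h2⟩
          | exact ⟨δ, _, hδ, hδ1, h3⟩
          | exact ⟨δ, _, hδ, hδ1, h4⟩
          | exact ⟨δ, _, hδ, hδ1, h5⟩
          | exact ⟨δ, _, hδ, hδ1, h6⟩
    · obtain ⟨C, -, h⟩ := hT
      refine L1.rd_of_Bd fun n => ?_
      obtain ⟨δ, hδ, hδ1, hg, hw⟩ := wb n
      exact ⟨δ, _, hδ, hδ1, (h q hq).1 t n δ hg _ hw⟩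

end Setup

end P205.Klein
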