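import Vale.Agent.P205.Tori.Coeff
import Vale.Agent.P205.Tori.Solve
import Vale.Agent.P205.Klein.Interfaces

/-!
P205, Klein bottle: the reflection of coefficient families induced by the glide, derivative
relations in the Wiener algebra, and the bound of the `ℓ¹` norm by the supremum of `(1 - Δ)`.
-/

namespace P205.Klein

open P205.Tori P205.Tori.Fourier MeasureTheory
open scoped ComplexConjugate

/-- The frequency seen through the reflection. -/
def flipK (k : Idx) : Idx := fun i => if i = 0 then k 0 else -k 1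

@[simp] theorem flipK_zero (k : Idx) : flipK k 0 = k 0 := rfl

@[simp] theorem flipK_one (k : Idx) : flipK k 1 = -k 1 := rfl

theorem flipK_flipK (k : Idx) : flipK (flipK k) = k := by
  funext i; fin_cases i <;> simp [flipK]

/-- The reflection as a permutation. -/
def flipE : Idx ≃ Idx :=
  { toFun := flipK
    invFun := flipK
    left_inv := flipK_flipK
    right_inv := flipK_flipK }

@[simp] theorem flipE_apply (k : Idx) : flipE k = flipK k := rfl

theorem flipK_add (j k : Idx) : flipK (j + k) = flipK j + flipK k := by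
  funext i
  fin_cases i <;> simp [flipK] <;> ring

theorem nk_flipK (k : Idx) : nk (flipK k) = nk k := by simp [nk]

/-- The sign of a frequency under the half translation. -/
noncomputable def sgn (k : Idx) : ℂ := (-1) ^ (k 0)

theorem norm_sgn (k : Idx) : ‖sgn k‖ = 1 := by simp [sgn]

theorem sgn_add (j k : Idx) : sgn (j + k) = sgn j * sgn k := by
  simp only [sgn, Pi.add_apply]
  exact zpow_add₀ (by norm_num) _ _

theorem sgn_flipK (k : Idx) : sgn (flipK k) = sgn k := by simp [sgn]

theorem sgn_mul_self (k : Idx) : sgn k * sgn k = 1 := by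
  rw [sgn, ← mul_zpow]; norm_num

theorem e_glide (k : Idx) (z : ℝ × ℝ) : e k (z.1 + 1 / 2, -z.2) = sgn k * e (flipK k) z := by
  have h : sgn k = Complex.exp ((k 0 : ℂ) * (Real.pi * Complex.I)) := by
    rw [Complex.exp_int_mul, Complex.exp_pi_mul_I, sgn]
  rw [h, e, e, phase_apply, phase_apply, ← Complex.exp_add]
  congr 1
  simp only [flipK_zero, flipK_one]
  push_cast
  ring

/-- The action of the glide on coefficient families. -/
noncomputable def refl : L1 →L[ℂ] L1 :=
  LinearMap.mkContinuous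
    { toFun := fun a => L1.mk (fun k => sgn k * L1.coeff a (flipK k))
        ((flipE.summable_iff.2 (L1.summable_norm a)).congr fun k => by simp [norm_sgn])
      map_add' := fun a b => by ext k; simp [mul_add]
      map_smul' := fun c a => by ext k; simp [mul_left_comm] }
    1 fun a => by
      rw [one_mul, L1.norm_eq, L1.norm_eq, ← flipE.tsum_eq fun k => ‖L1.coeff a k‖]
      simp [norm_sgn]

theorem coeff_refl (a : L1) (k : Idx) :
    L1.coeff (refl a) k = sgn k * L1.coeff a (flipK k) := rfl

theorem norm_refl (a : L1) : ‖refl a‖ = ‖a‖ := by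
  rw [L1.norm_eq, L1.norm_eq, ← flipE.tsum_eq fun k => ‖L1.coeff a k‖]
  simp [coeff_refl, norm_sgn]

theorem refl_refl (a : L1) : refl (refl a) = a := by
  ext k; rw [coeff_refl, coeff_refl, flipK_flipK, sgn_flipK, ← mul_assoc, sgn_mul_self, one_mul]

theorem refl_single (k : Idx) (c : ℂ) :
    refl (L1.single k c) = L1.single (flipK k) (sgn k * c) := by
  ext j
  rw [coeff_refl, L1.coeff_single, L1.coeff_single]
  rcases eq_or_ne j (flipK k) with rfl | hj
  · rw [flipK_flipK, if_pos rfl, if_pos rfl, sgn_flipK]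
  · rw [if_neg hj, if_neg (fun h => hj (by rw [← h, flipK_flipK])), mul_zero]

theorem refl_mul (a b : L1) : refl (a * b) = refl a * refl b := by
  have h1 : ∀ j, refl.comp (L1.mulL (L1.single j 1))
      = (L1.mulL (refl (L1.single j 1))).comp refl := fun j => L1.clm_ext fun k => by
    simp only [ContinuousLinearMap.comp_apply, L1.mulL_single_single, refl_single, mul_one]
    rw [L1.single_smul (flipK j) (sgn j), map_smul, smul_apply,
      L1.single_smul (flipK k) (sgn k), map_smul, L1.mulL_single_single, smul_smul,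
      ← L1.single_smul, flipK_add, sgn_add]
  have h2 : refl.comp (L1.mulL.flip b) = (L1.mulL.flip (refl b)).comp refl := L1.clm_ext fun j => by
    simpa using congrFun (congrArg DFunLike.coe (h1 j)) b
  exact congrFun (congrArg DFunLike.coe h2) a

theorem refl_one : refl (1 : L1) = 1 := by
  rw [L1.one_def, refl_single]
  have h : flipK (0 : Idx) = 0 := by funext i; fin_cases i <;> simp [flipK]
  simp [h, sgn]

theorem refl_pow (a : L1) (n : ℕ) : refl (a ^ n) = refl a ^ n := by
  induction n with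
  | zero => simpa using refl_one
  | succ n ih => rw [pow_succ, pow_succ, refl_mul, ih]

theorem refl_exp (a : L1) : refl (NormedSpace.exp a) = NormedSpace.exp (refl a) := by
  have h := (NormedSpace.exp_series_hasSum_exp' (𝕂 := ℂ) a).mapL refl
  simp only [map_smul, refl_pow] at h
  exact h.unique (NormedSpace.exp_series_hasSum_exp' (𝕂 := ℂ) (refl a))

theorem ev_refl (a : L1) (z : ℝ × ℝ) : L1.ev z (refl a) = L1.ev (z.1 + 1 / 2, -z.2) a := by
  have h : (L1.ev z).comp refl = L1.ev (z.1 + 1 / 2, -z.2) := L1.clm_ext fun k => by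
    rw [ContinuousLinearMap.comp_apply, refl_single, L1.ev_single, L1.ev_single, e_glide, one_mul,
      mul_one]
  exact congrFun (congrArg DFunLike.coe h) a

theorem Bd_refl {n : ℕ} {δ R : ℝ} {a : L1} (h : L1.Bd n δ R a) : L1.Bd n δ R (refl a) := fun s => by
  refine le_of_eq_of_le ?_ (h (s.map flipE.toEmbedding))
  rw [Finset.sum_map]
  refine Finset.sum_congr rfl fun k _ => ?_
  simp only [coeff_refl, norm_mul, norm_sgn, one_mul, Equiv.coe_toEmbedding, flipE_apply, L1.wt,
    nk_flipK]

/-! ### Derivative relations -/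

/-- `a'` is the derivative of `a` in the direction `v`. -/
def Der (v : ℝ × ℝ) (a a' : L1) : Prop := ∀ k, L1.coeff a' k = phase k v * L1.coeff a k

namespace Der

variable {v : ℝ × ℝ} {a a' b b' : L1}

theorem zero : Der v 0 0 := fun k => by simp

theorem one : Der v 1 0 := fun k => by
  rw [L1.coeff_zero, L1.one_def, L1.coeff_single]
  split_ifs with h
  · simp [h, phase_apply]
  · simp

theorem add (ha : Der v a a') (hb : Der v b b') : Der v (a + b) (a' + b') := fun k => by
  simp only [L1.coeff_add, ha k, hb k]; ring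

theorem sub (ha : Der v a a') (hb : Der v b b') : Der v (a - b) (a' - b') := fun k => by
  simp only [L1.coeff_sub, ha k, hb k]; ring

theorem smul (c : ℂ) (ha : Der v a a') : Der v (c • a) (c • a') := fun k => by
  simp only [L1.coeff_smul, ha k]; ring

theorem single (k : Idx) (c : ℂ) : Der v (L1.single k c) (L1.single k (phase k v * c)) := fun j => by
  rw [L1.coeff_single, L1.coeff_single]
  split_ifs with h
  · rw [h]
  · rw [mul_zero]

theorem mul (ha : Der v a a') (hb : Der v b b') : Der v (a * b) (a' * b + a * b') := fun k => by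
  have hs : ∀ x y : L1, Summable fun j => L1.coeff x j * L1.coeff y (k - j) := fun x y =>
    Summable.of_norm_bounded ((L1.summable_norm x).mul_right ‖y‖) fun j => by
      rw [norm_mul]; exact mul_le_mul_of_nonneg_left (L1.norm_coeff_le y _) (norm_nonneg _)
  rw [L1.coeff_add, L1.coeff_mul, L1.coeff_mul, L1.coeff_mul, ← Summable.tsum_add (hs _ _) (hs _ _),
    ← tsum_mul_left]
  refine tsum_congr fun j => ?_
  rw [ha j, hb (k - j)]
  have e1 : phase k v = phase j v + phase (k - j) v := by
    simp only [phase_apply, Pi.sub_apply, Int.cast_sub]; push_cast; ring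
  rw [e1]; ring

theorem pow (ha : Der v a a') : ∀ n : ℕ, Der v (a ^ (n + 1)) (((n + 1 : ℕ) : ℂ) • (a ^ n * a'))
  | 0 => by simpa using ha
  | n + 1 => by
    have h := (pow ha n).mul ha
    rw [← pow_succ] at h
    convert h using 1
    simp only [Algebra.smul_def, map_add, map_natCast, map_one, Nat.cast_add, Nat.cast_one,
      pow_succ]
    ring

theorem exp (ha : Der v a a') : Der v (NormedSpace.exp a) (a' * NormedSpace.exp a) := fun k => by
  have h := ((NormedSpace.exp_series_hasSum_exp' (𝕂 := ℂ) a).mapL (L1.coeffCLM k)).mul_left (phase k v)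
  have h0 : Der v (a ^ 0) 0 := by simpa using one
  simp only [map_smul, L1.coeffCLM_apply, smul_eq_mul] at h
  have h1 := (hasSum_nat_add_iff' 1).2 h
  simp only [Finset.sum_range_one, Nat.factorial_zero, Nat.cast_one, inv_one, one_mul] at h1
  rw [← h0 k, L1.coeff_zero, sub_zero] at h1
  have h2 := (((NormedSpace.exp_series_hasSum_exp' (𝕂 := ℂ) a).mul_left a').mapL (L1.coeffCLM k))
  simp only [L1.coeffCLM_apply] at h2
  refine (h2.unique (h1.congr_fun fun n => ?_))
  rw [mul_smul_comm, L1.coeff_smul, mul_left_comm, ← (pow ha n) k, L1.coeff_smul, mul_comm a',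
    ← mul_assoc]
  congr 1
  rw [Nat.factorial_succ]
  push_cast
  field_simp

end Der

/-! ### The norm from the supremum of `(1 - Δ)` -/

theorem coeff_eq_integral (a : L1) (k : Idx) :
    L1.coeff a k = ∫ z in square, e (-k) z * L1.ev z a := by
  have hint : ∀ l, Integrable (fun z => e (-k) z * (L1.coeff a l * e l z))
      (volume.restrict square) := fun l =>
    integrableOn_square ((continuous_e _).mul (continuous_const.mul (continuous_e l)))
  have hsum : Summable (fun l => ∫ z in square, ‖e (-k) z * (L1.coeff a l * e l z)‖) := by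
    simpa [norm_e, measureReal_def, volume_square] using L1.summable_norm a
  have h2 : ∀ l, ∫ z in square, e (-k) z * (L1.coeff a l * e l z)
      = if k = l then L1.coeff a l else 0 := fun l => by
    show coef (fun z => L1.coeff a l * e l z) k = _
    rw [coef_const_mul, coef_e]; simp
  calc L1.coeff a k = ∑' l, ∫ z in square, e (-k) z * (L1.coeff a l * e l z) := by
        rw [tsum_eq_single k (fun l hl => by rw [h2, if_neg (Ne.symm hl)]), h2, if_pos rfl]
    _ = ∫ z in square, ∑' l, e (-k) z * (L1.coeff a l * e l z) :=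
        integral_tsum_of_summable_integral_norm hint hsum
    _ = _ := by
        refine integral_congr_ae (Filter.Eventually.of_forall fun z => ?_)
        simp [L1.ev_apply, ser, tsum_mul_left]

/-- Two series with the same values are equal. -/
theorem ext_ev {a b : L1} (h : ∀ z, L1.ev z a = L1.ev z b) : a = b := by
  ext k; simp only [coeff_eq_integral, h]

theorem sum_sq_le {a : L1} {B : ℝ} (h : ∀ z, ‖L1.ev z a‖ ≤ B) (s : Finset Idx) :
    ∑ k ∈ s, ‖L1.coeff a k‖ ^ 2 ≤ B ^ 2 := by
  set b := a * L1.conjc a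
  have hsum : Summable fun j => ‖L1.coeff a j‖ ^ 2 := by
    refine Summable.of_nonneg_of_le (fun j => sq_nonneg _) (fun j => ?_)
      ((L1.summable_norm a).mul_right ‖a‖)
    rw [sq]; exact mul_le_mul_of_nonneg_left (L1.norm_coeff_le a _) (norm_nonneg _)
  have h1 : L1.coeff b 0 = ((∑' j, ‖L1.coeff a j‖ ^ 2 : ℝ) : ℂ) := by
    rw [Complex.ofReal_tsum, L1.coeff_mul]
    refine tsum_congr fun j => ?_
    rw [L1.coeff_conjc, zero_sub, neg_neg, Complex.mul_conj, Complex.normSq_eq_norm_sq]
  have h2 : ‖L1.coeff b 0‖ ≤ B ^ 2 := by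
    rw [coeff_eq_integral]
    have := norm_setIntegral_le_of_norm_le_const (μ := volume) (s := square)
      (f := fun z => e (-0) z * L1.ev z b) (C := B ^ 2) (by simp [volume_square])
      (fun z _ => by
        rw [norm_mul, norm_e, one_mul, L1.ev_mul, L1.ev_conjc, norm_mul, Complex.norm_conj, ← sq]
        exact pow_le_pow_left₀ (norm_nonneg _) (h z) 2)
    simpa [measureReal_def, volume_square] using this
  rw [h1, Complex.norm_real, Real.norm_eq_abs] at h2
  exact (hsum.sum_le_tsum s fun j _ => sq_nonneg _).trans ((le_abs_self _).trans h2)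

/-- The constant of the embedding. -/
noncomputable def sob : ℝ := Real.sqrt (∑' k : Idx, ((1 + nk k) ^ 4)⁻¹)

theorem sob_nonneg : 0 ≤ sob := Real.sqrt_nonneg _

theorem norm_le_lap {a a₀ a₀₀ a₁ a₁₁ : L1} {B : ℝ} (h₀ : Der (1, 0) a a₀)
    (h₀₀ : Der (1, 0) a₀ a₀₀) (h₁ : Der (0, 1) a a₁) (h₁₁ : Der (0, 1) a₁ a₁₁)
    (hB : ∀ z, ‖L1.ev z (a - a₀₀ - a₁₁)‖ ≤ B) : ‖a‖ ≤ sob * B := by
  have hB0 : 0 ≤ B := (norm_nonneg _).trans (hB 0)
  rw [L1.norm_eq]
  refine Real.tsum_le_of_sum_le (fun k => norm_nonneg _) fun s => ?_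
  have key : ∀ k, (1 + nk k) ^ 2 * ‖L1.coeff a k‖ ≤ ‖L1.coeff (a - a₀₀ - a₁₁) k‖ := fun k => by
    have e1 : L1.coeff (a - a₀₀ - a₁₁) k
        = ((1 + 4 * Real.pi ^ 2 * ((k 0 : ℝ) ^ 2 + (k 1 : ℝ) ^ 2) : ℝ) : ℂ) * L1.coeff a k := by
      simp only [L1.coeff_sub, h₀₀ k, h₀ k, h₁₁ k, h₁ k, phase_apply, mul_zero, mul_one, add_zero,
        zero_add]
      push_cast
      linear_combination (-(4 * (Real.pi : ℂ) ^ 2 * ((k 0 : ℂ) ^ 2 + (k 1 : ℂ) ^ 2)
        * L1.coeff a k)) * Complex.I_sq
    rw [e1, norm_mul, Complex.norm_real, Real.norm_of_nonneg (by positivity)]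
    refine mul_le_mul_of_nonneg_right ?_ (norm_nonneg _)
    have h9 : (9 : ℝ) ≤ Real.pi ^ 2 := by nlinarith [Real.pi_gt_three]
    have hx := abs_nonneg (k 0 : ℝ)
    have hy := abs_nonneg (k 1 : ℝ)
    unfold nk
    rw [← sq_abs (k 0 : ℝ), ← sq_abs (k 1 : ℝ)]
    by_cases hk : |(k 0 : ℝ)| = 0 ∧ |(k 1 : ℝ)| = 0
    · rw [hk.1, hk.2]; norm_num
    · have h1 : 1 ≤ |(k 0 : ℝ)| + |(k 1 : ℝ)| := by
        have hint : ∀ m : ℤ, |(m : ℝ)| ≠ 0 → 1 ≤ |(m : ℝ)| := fun m hm => by
          exact_mod_cast Int.one_le_abs (fun h => hm (by simp [h]))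
        rcases not_and_or.1 hk with h | h
        · linarith [hint _ h]
        · linarith [hint _ h]
      nlinarith [sq_nonneg (|(k 0 : ℝ)| - |(k 1 : ℝ)|)]
  calc ∑ k ∈ s, ‖L1.coeff a k‖
      ≤ ∑ k ∈ s, ((1 + nk k) ^ 2)⁻¹ * ‖L1.coeff (a - a₀₀ - a₁₁) k‖ := by
        refine Finset.sum_le_sum fun k _ => ?_
        rw [inv_mul_eq_div, le_div_iff₀ (pow_pos (nk1_pos k) 2), mul_comm]
        exact key k
    _ ≤ Real.sqrt ((∑ k ∈ s, (((1 + nk k) ^ 2)⁻¹) ^ 2)
          * ∑ k ∈ s, ‖L1.coeff (a - a₀₀ - a₁₁) k‖ ^ 2) :=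
        Real.le_sqrt_of_sq_le (Finset.sum_mul_sq_le_sq_mul_sq _ _ _)
    _ ≤ sob * B := by
        rw [Real.sqrt_mul (Finset.sum_nonneg fun k _ => sq_nonneg _)]
        refine mul_le_mul (Real.sqrt_le_sqrt ?_) ?_ (Real.sqrt_nonneg _) sob_nonneg
        · refine le_of_eq_of_le (Finset.sum_congr rfl fun k _ => ?_)
            (summable_inv_nk.sum_le_tsum s fun k _ => ?_)
          · rw [← inv_pow, ← inv_pow, ← pow_mul]
          · have := nk1_pos k; positivity
        · exact (Real.sqrt_le_sqrt (sum_sq_le hB s)).trans_eq (Real.sqrt_sq hB0)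

end P205.Klein
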