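import Vale.Agent.P205.Klein.Terms

/-!
P205, Klein bottle: the nonlinear system, term by term.
-/

namespace P205.Klein

open P205.Tori P205.Tori.Fourier

namespace Setup

variable (S : Setup) (q : ℕ) (t : ℝ) (x : Unk)

/-- `s`. -/
noncomputable def s₀ : L1 := (S.lat q t).M0 x.1.1
noncomputable def sx : L1 := (S.lat q t).Mx x.1.1
noncomputable def sy : L1 := (S.lat q t).My x.1.1
noncomputable def sxx : L1 := (S.lat q t).Mxx x.1.1
noncomputable def sxy : L1 := (S.lat q t).Mxy x.1.1
noncomputable def syy : L1 := (S.lat q t).Myy x.1.1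

/-- The derivatives of the change of coordinates. -/
noncomputable def z1x : L1 := 1 + (S.lat q t).Mx x.2.1
noncomputable def z1y : L1 := (S.lat q t).My x.2.1
noncomputable def z2x : L1 := (S.lat q t).Mx x.2.2.1
noncomputable def z2y : L1 := ((S.L / S.P q t : ℝ) : ℂ) • (1 : L1) + (S.lat q t).My x.2.2.1

/-- The gradient of the logarithm of the factor. -/
noncomputable def pa : L1 :=
  S.cmp S.vx q t x * S.z1x q t x + S.cmp S.vy q t x * S.z2x q t x + S.sx q t x
noncomputable def pb : L1 :=
  S.cmp S.vx q t x * S.z1y q t x + S.cmp S.vy q t x * S.z2y q t x + S.sy q t x - S.W2 q t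

/-- The Hessian of the logarithm of the factor. -/
noncomputable def H11 : L1 :=
  S.cmp S.vxx q t x * (S.z1x q t x * S.z1x q t x)
    + (S.cmp S.vxy q t x * (S.z1x q t x * S.z2x q t x) + S.cmp S.vxy q t x * (S.z1x q t x * S.z2x q t x))
    + S.cmp S.vyy q t x * (S.z2x q t x * S.z2x q t x)
    + S.cmp S.vx q t x * (S.lat q t).Mxx x.2.1 + S.cmp S.vy q t x * (S.lat q t).Mxx x.2.2.1
    + S.sxx q t x
noncomputable def H12 : L1 :=
  S.cmp S.vxx q t x * (S.z1x q t x * S.z1y q t x)
    + S.cmp S.vxy q t x * (S.z1x q t x * S.z2y q t x + S.z1y q t x * S.z2x q t x)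
    + S.cmp S.vyy q t x * (S.z2x q t x * S.z2y q t x)
    + S.cmp S.vx q t x * (S.lat q t).Mxy x.2.1 + S.cmp S.vy q t x * (S.lat q t).Mxy x.2.2.1
    + S.sxy q t x
noncomputable def H22 : L1 :=
  S.cmp S.vxx q t x * (S.z1y q t x * S.z1y q t x)
    + (S.cmp S.vxy q t x * (S.z1y q t x * S.z2y q t x) + S.cmp S.vxy q t x * (S.z1y q t x * S.z2y q t x))
    + S.cmp S.vyy q t x * (S.z2y q t x * S.z2y q t x)
    + S.cmp S.vx q t x * (S.lat q t).Myy x.2.1 + S.cmp S.vy q t x * (S.lat q t).Myy x.2.2.1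
    + S.syy q t x - S.W22 q t

noncomputable def Ry : L1 := S.sy q t x - S.W2 q t
noncomputable def Ryy : L1 := S.syy q t x - S.W22 q t
noncomputable def qq : L1 := S.pa q t x * S.pa q t x + S.pb q t x * S.pb q t x
noncomputable def e2w : L1 := NormedSpace.exp (((-2 : ℝ) : ℂ) • S.W0 q t)
noncomputable def chi : L1 := (S.eps q : ℂ) • S.e2w q t
noncomputable def gam : L1 := (S.eps q : ℂ) • x.1.2.1
noncomputable def sig : L1 := 1 + S.gam q x * S.qq q t x
noncomputable def xi : L1 := S.pb q t x * S.sx q t x - S.pa q t x * S.Ry q t x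
noncomputable def eta : L1 := -(S.pa q t x * S.W2 q t)
noncomputable def V1 : L1 := S.H11 q t x * S.pb q t x - S.pa q t x * S.H12 q t x
noncomputable def V2 : L1 := S.pb q t x * S.H12 q t x - S.pa q t x * S.H22 q t x
noncomputable def det : L1 := S.H11 q t x * S.H22 q t x - S.H12 q t x * S.H12 q t x
/-- `a H11 + b H12` and `a H12 + b H22`. -/
noncomputable def ph1 : L1 := S.pa q t x * S.H11 q t x + S.pb q t x * S.H12 q t x
noncomputable def ph2 : L1 := S.pa q t x * S.H12 q t x + S.pb q t x * S.H22 q t x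
noncomputable def XX : L1 := S.chi q t * S.ph1 q t x
noncomputable def YY : L1 := S.chi q t * (S.ph2 q t x - S.W2 q t * S.qq q t x)
noncomputable def gx : L1 := -(S.gam q x * S.gam q x * S.ph1 q t x)
noncomputable def gy : L1 :=
  -(S.W2 q t * S.chi q t + S.gam q x * S.gam q x * S.ph2 q t x)
noncomputable def xix : L1 :=
  S.H12 q t x * S.sx q t x + S.pb q t x * S.sxx q t x
    - S.H11 q t x * S.Ry q t x - S.pa q t x * S.sxy q t x
noncomputable def xiy : L1 :=
  S.H22 q t x * S.sx q t x + S.pb q t x * S.sxy q t x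
    - S.H12 q t x * S.Ry q t x - S.pa q t x * S.Ryy q t x
noncomputable def N1 : L1 :=
  -S.sy q t x + S.gam q x * S.V1 q t x + S.chi q t * (S.xi q t x * S.pa q t x)
noncomputable def N2 : L1 :=
  S.sx q t x + S.gam q x * S.V2 q t x + S.chi q t * (S.xi q t x * S.pb q t x)
/-- `ε G`, the right-hand side of the equation for `Δ s`. -/
noncomputable def GG : L1 :=
  -(S.chi q t * (S.qq q t x * (S.sxx q t x + S.syy q t x)))
    - S.chi q t * (S.sig q t x * S.sig q t x * (S.pb q t x * S.xix q t x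
        - S.pa q t x * S.xiy q t x - (S.xi q t x * S.eta q t x + S.xi q t x * S.eta q t x)))
    + (S.sig q t x * S.sig q t x * (S.gam q x * S.det q t x)
        + S.sig q t x * S.sig q t x * (S.gam q x * S.det q t x))
    - S.sig q t x * (S.gx q t x * S.V2 q t x - S.gy q t x * S.V1 q t x)
    + S.XX q t x * S.N2 q t x - S.YY q t x * S.N1 q t x

/-- The connection form. -/
noncomputable def T1 : L1 := x.1.2.2 * S.N1 q t x
noncomputable def T2 : L1 := x.1.2.2 * S.N2 q t x
noncomputable def th : L1 := (S.lat q t).Mx (S.T1 q t x) + (S.lat q t).My (S.T2 q t x)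
noncomputable def co : L1 := Est.cexpc (S.s₀ q t x) (S.th q t x)
noncomputable def si : L1 := Est.cexps (S.s₀ q t x) (S.th q t x)
noncomputable def a11 : L1 := 1 + S.gam q x * (S.pa q t x * S.pa q t x)
noncomputable def a12 : L1 := S.gam q x * (S.pa q t x * S.pb q t x)
noncomputable def a22 : L1 := 1 + S.gam q x * (S.pb q t x * S.pb q t x)
/-- The two divergences, with the connection term. -/
noncomputable def K1 : L1 :=
  S.sx q t x * S.a11 q t x + S.sy q t x * S.a12 q t x
    + x.1.2.2 * (S.gx q t x * (S.pa q t x * S.pa q t x) + S.gy q t x * (S.pa q t x * S.pb q t x))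
    + S.gam q x * (S.pa q t x * S.H11 q t x + S.pa q t x * S.H11 q t x
        + S.H12 q t x * S.pb q t x + S.pa q t x * S.H22 q t x)
    - (S.T1 q t x * S.a12 q t x + S.T2 q t x * S.a22 q t x)
noncomputable def K2 : L1 :=
  S.sx q t x * S.a12 q t x + S.sy q t x * S.a22 q t x
    + x.1.2.2 * (S.gx q t x * (S.pa q t x * S.pb q t x) + S.gy q t x * (S.pb q t x * S.pb q t x))
    + S.gam q x * (S.H11 q t x * S.pb q t x + S.pa q t x * S.H12 q t x
        + S.pb q t x * S.H22 q t x + S.pb q t x * S.H22 q t x)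
    + (S.T1 q t x * S.a11 q t x + S.T2 q t x * S.a12 q t x)
noncomputable def E11 : L1 := S.co q t x * S.a11 q t x - S.si q t x * S.a12 q t x
noncomputable def E22 : L1 := S.si q t x * S.a12 q t x + S.co q t x * S.a22 q t x

noncomputable def Ff : L1 := S.GG q t x
noncomputable def Fg : L1 :=
  ((1 / 2 : ℝ) : ℂ) • (S.e2w q t - (S.eps q : ℂ) • (x.1.2.1 * x.1.2.1 * S.qq q t x))
noncomputable def Fi : L1 := 1 - S.gam q x * S.qq q t x * x.1.2.2
noncomputable def Hg1 : L1 :=
  x.2.2.2 * (S.co q t x * S.K1 q t x - S.si q t x * S.K2 q t x)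
noncomputable def Hg2 : L1 :=
  x.2.2.2 * (S.si q t x * S.K1 q t x + S.co q t x * S.K2 q t x)
noncomputable def Hc : L1 := 1 - P0 (S.E11 q t x - 1) * x.2.2.2

/-- The first block. -/
noncomputable def F : L1 × L1 × L1 := (S.Ff q t x, S.Fg q t x, S.Fi q t x)
/-- The second block. -/
noncomputable def H : L1 × L1 × L1 := (S.Hg1 q t x, S.Hg2 q t x, S.Hc q t x)
/-- The step of the iteration. -/
noncomputable def step : Unk := (S.F q t x, S.H q t (S.F q t x, x.2))

variable {S}

theorem est_s₀ : Est S 1 3 0 20 S.s₀ := est_M0 est_f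
theorem est_sx : Est S 1 3 0 20 S.sx := est_Mx est_f
theorem est_sy : Est S (-1) 3 0 20 S.sy := est_My est_f
theorem est_sxx : Est S 1 3 0 20 S.sxx := est_Mxx est_f
theorem est_sxy : Est S (-1) 3 0 20 S.sxy := est_Mxy est_f
theorem est_syy : Est S 1 3 0 20 S.syy := est_Myy est_f

theorem est_nu : Est S 1 0 20 20 fun q t _ => ((S.L / S.P q t : ℝ) : ℂ) • (1 : L1) :=
  ((Est.one (b := 20) (c := 20)).scal (fun q t => S.L / S.P q t) 0 4 (by norm_num) fun q hq =>
    ⟨fun t => by
      have hP := S.P_pos q t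
      rw [abs_of_pos (div_pos S.L_pos hP), zpow_zero, mul_one, div_le_iff₀ hP]
      linarith [S.P_ge q t],
      continuous_const.div (S.cont_P q hq) fun t => (S.P_pos q t).ne'⟩).fit (by norm_num)

theorem est_z1x : Est S 1 0 20 0 S.z1x :=
  (Est.one (b := 20) (c := 0)).add ((est_Mx est_g1).fit (by norm_num))
theorem est_z1y : Est S (-1) 2 20 0 S.z1y := est_My est_g1
theorem est_z2x : Est S (-1) 2 20 0 S.z2x := est_Mx est_g2
theorem est_z2y : Est S 1 0 20 0 S.z2y := ((est_nu).fit (by norm_num)).add ((est_My est_g2).fit (by norm_num))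

theorem est_pa : Est S 1 0 0 0 S.pa :=
  (((est_vx.mul est_z1x).fit (by norm_num)).add ((est_vy.mul est_z2x).fit (by norm_num))).add ((est_sx).fit (by norm_num))
theorem est_pb : Est S (-1) 0 0 0 S.pb :=
  ((((est_vx.mul est_z1y).fit (by norm_num)).add ((est_vy.mul est_z2y).fit (by norm_num))).add ((est_sy).fit (by norm_num))).sub ((est_W2).fit (by norm_num))

theorem est_H11 : Est S 1 0 0 0 S.H11 :=
  ((((((est_vxx.mul (est_z1x.mul est_z1x)).fit (by norm_num)).add
    (((est_vxy.mul (est_z1x.mul est_z2x)).fit (by norm_num)).add ((est_vxy.mul (est_z1x.mul est_z2x)).fit (by norm_num)))).add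
    ((est_vyy.mul (est_z2x.mul est_z2x)).fit (by norm_num))).add
    ((est_vx.mul (est_Mxx est_g1)).fit (by norm_num))).add ((est_vy.mul (est_Mxx est_g2)).fit (by norm_num))).add ((est_sxx).fit (by norm_num))
theorem est_H12 : Est S (-1) 0 0 0 S.H12 :=
  ((((((est_vxx.mul (est_z1x.mul est_z1y)).fit (by norm_num)).add
    ((est_vxy.mul (((est_z1x.mul est_z2y).fit (by norm_num) : Est S 1 0 0 0 _).add
      ((est_z1y.mul est_z2x).fit (by norm_num)))).fit (by norm_num))).add
    ((est_vyy.mul (est_z2x.mul est_z2y)).fit (by norm_num))).add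
    ((est_vx.mul (est_Mxy est_g1)).fit (by norm_num))).add ((est_vy.mul (est_Mxy est_g2)).fit (by norm_num))).add ((est_sxy).fit (by norm_num))
theorem est_H22 : Est S 1 (-6) 0 0 S.H22 :=
  (((((((est_vxx.mul (est_z1y.mul est_z1y)).fit (by norm_num)).add
    (((est_vxy.mul (est_z1y.mul est_z2y)).fit (by norm_num)).add ((est_vxy.mul (est_z1y.mul est_z2y)).fit (by norm_num)))).add
    ((est_vyy.mul (est_z2y.mul est_z2y)).fit (by norm_num))).add
    ((est_vx.mul (est_Myy est_g1)).fit (by norm_num))).add ((est_vy.mul (est_Myy est_g2)).fit (by norm_num))).add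
    ((est_syy).fit (by norm_num))).sub ((est_W22).fit (by norm_num))

theorem est_Ry : Est S (-1) 0 0 20 S.Ry := ((est_sy).fit (by norm_num)).sub ((est_W2).fit (by norm_num))
theorem est_Ryy : Est S 1 (-6) 0 20 S.Ryy := ((est_syy).fit (by norm_num)).sub ((est_W22).fit (by norm_num))
theorem est_qq : Est S 1 0 0 0 S.qq := ((est_pa.mul est_pa).fit (by norm_num)).add ((est_pb.mul est_pb).fit (by norm_num))

theorem est_exp_W : Est S 1 0 20 20 (fun q t _ => S.e2w q t) ∧
    Est S 1 6 20 20 (fun q t _ => S.e2w q t - 1) := by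
  have h := Est.trig (a := 6) (b := 20) (c := 20) (S := S) (by norm_num)
    (est_W0.smulc (-2)) (Est.zero (s := -1))
  have e : ∀ u : L1, Est.cexpc u 0 = NormedSpace.exp u := fun u => by
    simp only [Est.cexpc, Est.rotE, smul_zero, add_zero]
    rw [← two_smul ℂ, smul_smul]; norm_num
  simp only [e] at h
  exact ⟨h.1, h.2.1⟩

theorem est_chi : Est S 1 12 20 20 fun q t _ => S.chi q t := (eps_smul est_exp_W.1).fit (by norm_num)
theorem est_gam' : Est S 1 12 12 20 fun q _ x => S.gam q x := (eps_smul est_gam).fit (by norm_num)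
theorem est_gq : Est S 1 12 12 12 fun q t x => S.gam q x * S.qq q t x := (est_gam'.mul est_qq).fit (by norm_num)
theorem est_sig : Est S 1 0 12 12 S.sig := (Est.one (b := 12) (c := 12)).add ((est_gq).fit (by norm_num))
theorem est_xi' : Est S (-1) 0 0 0 S.xi :=
  ((est_pb.mul est_sx).fit (by norm_num)).sub ((est_pa.mul est_Ry).fit (by norm_num))
theorem est_eta : Est S (-1) 0 0 0 S.eta := ((est_pa.mul est_W2).fit (by norm_num)).neg
theorem est_V1 : Est S (-1) 0 0 0 S.V1 :=
  ((est_H11.mul est_pb).fit (by norm_num)).sub ((est_pa.mul est_H12).fit (by norm_num))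
theorem est_V2 : Est S 1 (-6) (-6) (-6) S.V2 :=
  ((est_pb.mul est_H12).fit (by norm_num)).sub ((est_pa.mul est_H22).fit (by norm_num))
theorem est_det : Est S 1 (-6) (-6) (-6) S.det :=
  ((est_H11.mul est_H22).fit (by norm_num)).sub ((est_H12.mul est_H12).fit (by norm_num))
theorem est_ph1 : Est S 1 0 0 0 S.ph1 :=
  ((est_pa.mul est_H11).fit (by norm_num)).add ((est_pb.mul est_H12).fit (by norm_num))
theorem est_ph2 : Est S (-1) (-6) (-6) (-6) S.ph2 :=
  ((est_pa.mul est_H12).fit (by norm_num)).add ((est_pb.mul est_H22).fit (by norm_num))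
theorem est_XX : Est S 1 12 12 12 S.XX := (est_chi.mul est_ph1).fit (by norm_num)
theorem est_YY : Est S (-1) 6 6 6 S.YY :=
  (est_chi.mul (est_ph2.sub ((est_W2.mul est_qq).fit (by norm_num)))).fit (by norm_num)
theorem est_gx : Est S 1 18 18 18 S.gx := (((est_gam'.mul est_gam').mul est_ph1).fit (by norm_num)).neg
theorem est_gy : Est S (-1) 12 12 12 S.gy :=
  (((est_W2.mul est_chi).fit (by norm_num)).add (((est_gam'.mul est_gam').mul est_ph2).fit (by norm_num))).neg
theorem est_xix : Est S (-1) 0 0 0 S.xix :=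
  ((((est_H12.mul est_sx).fit (by norm_num)).add ((est_pb.mul est_sxx).fit (by norm_num))).sub ((est_H11.mul est_Ry).fit (by norm_num))).sub
    ((est_pa.mul est_sxy).fit (by norm_num))
theorem est_xiy : Est S 1 (-6) (-6) (-6) S.xiy :=
  ((((est_H22.mul est_sx).fit (by norm_num)).add ((est_pb.mul est_sxy).fit (by norm_num))).sub ((est_H12.mul est_Ry).fit (by norm_num))).sub
    ((est_pa.mul est_Ryy).fit (by norm_num))
theorem est_N1 : Est S (-1) 3 0 12 S.N1 :=
  (((est_sy.neg).fit (by norm_num)).add ((est_gam'.mul est_V1).fit (by norm_num))).add ((est_chi.mul (est_xi'.mul est_pa)).fit (by norm_num))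
theorem est_N2 : Est S 1 3 0 6 S.N2 :=
  (((est_sx).fit (by norm_num)).add ((est_gam'.mul est_V2).fit (by norm_num))).add ((est_chi.mul (est_xi'.mul est_pb)).fit (by norm_num))

theorem est_brk : Est S 1 (-6) (-6) (-6) fun q t x => S.pb q t x * S.xix q t x
    - S.pa q t x * S.xiy q t x - (S.xi q t x * S.eta q t x + S.xi q t x * S.eta q t x) :=
  (((est_pb.mul est_xix).fit (by norm_num)).sub ((est_pa.mul est_xiy).fit (by norm_num))).sub
    (((est_xi'.mul est_eta).fit (by norm_num)).add ((est_xi'.mul est_eta).fit (by norm_num)))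

theorem est_GG : Est S 1 6 6 6 S.GG :=
  (((((((est_chi.mul (est_qq.mul (est_sxx.add est_syy))).fit (by norm_num))).neg.sub
    ((est_chi.mul ((est_sig.mul est_sig).mul est_brk)).fit (by norm_num))).add
    ((((est_sig.mul est_sig).mul (est_gam'.mul est_det)).fit (by norm_num)).add
      (((est_sig.mul est_sig).mul (est_gam'.mul est_det)).fit (by norm_num)))).sub
    ((est_sig.mul (((est_gx.mul est_V2).fit (by norm_num) : Est S 1 12 12 12 _).sub
      ((est_gy.mul est_V1).fit (by norm_num)))).fit (by norm_num))).add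
    ((est_XX.mul est_N2).fit (by norm_num))).sub ((est_YY.mul est_N1).fit (by norm_num))

theorem est_T1 : Est S (-1) 3 0 6 S.T1 := (est_iot.mul est_N1).fit (by norm_num)
theorem est_T2 : Est S 1 3 0 6 S.T2 := (est_iot.mul est_N2).fit (by norm_num)
theorem est_th : Est S (-1) 3 0 6 S.th := ((est_Mx est_T1).fit (by norm_num)).add ((est_My est_T2).fit (by norm_num))

theorem est_trig : Est S 1 0 0 6 S.co ∧ Est S 1 3 0 6 (fun q t x => S.co q t x - 1) ∧
    Est S (-1) 3 0 6 S.si :=
  Est.trig (by norm_num) ((est_s₀).fit (by norm_num)) est_th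

theorem est_a11 : Est S 1 0 12 12 S.a11 :=
  (Est.one (b := 12) (c := 12)).add ((est_gam'.mul (est_pa.mul est_pa)).fit (by norm_num))
theorem est_a12 : Est S (-1) 12 12 12 S.a12 := (est_gam'.mul (est_pa.mul est_pb)).fit (by norm_num)
theorem est_a22 : Est S 1 0 12 12 S.a22 :=
  (Est.one (b := 12) (c := 12)).add ((est_gam'.mul (est_pb.mul est_pb)).fit (by norm_num))

theorem est_K1 : Est S 1 3 0 6 S.K1 :=
  (((((est_sx.mul est_a11).fit (by norm_num)).add ((est_sy.mul est_a12).fit (by norm_num))).add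
    ((est_iot.mul (((est_gx.mul (est_pa.mul est_pa)).fit (by norm_num) : Est S 1 12 12 12 _).add
      ((est_gy.mul (est_pa.mul est_pb)).fit (by norm_num)))).fit (by norm_num))).add
    ((est_gam'.mul (((((est_pa.mul est_H11).fit (by norm_num) : Est S 1 (-6) (-6) (-6) _).add
      ((est_pa.mul est_H11).fit (by norm_num))).add ((est_H12.mul est_pb).fit (by norm_num))).add ((est_pa.mul est_H22).fit (by norm_num)))).fit (by norm_num))).sub
    (((est_T1.mul est_a12).fit (by norm_num)).add ((est_T2.mul est_a22).fit (by norm_num)))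
theorem est_K2 : Est S (-1) 3 0 6 S.K2 :=
  (((((est_sx.mul est_a12).fit (by norm_num)).add ((est_sy.mul est_a22).fit (by norm_num))).add
    ((est_iot.mul (((est_gx.mul (est_pa.mul est_pb)).fit (by norm_num) : Est S (-1) 12 12 12 _).add
      ((est_gy.mul (est_pb.mul est_pb)).fit (by norm_num)))).fit (by norm_num))).add
    ((est_gam'.mul (((((est_H11.mul est_pb).fit (by norm_num) : Est S (-1) (-6) (-6) (-6) _).add
      ((est_pa.mul est_H12).fit (by norm_num))).add ((est_pb.mul est_H22).fit (by norm_num))).add ((est_pb.mul est_H22).fit (by norm_num)))).fit (by norm_num))).add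
    (((est_T1.mul est_a11).fit (by norm_num)).add ((est_T2.mul est_a12).fit (by norm_num)))

theorem est_E11 : Est S 1 3 0 6 fun q t x => S.E11 q t x - 1 :=
  Est.congr ((((est_trig.2.1.mul est_a11).fit (by norm_num)).add ((est_gam'.mul (est_pa.mul est_pa)).fit (by norm_num))).sub
    ((est_trig.2.2.mul est_a12).fit (by norm_num))) fun q t x => by simp only [E11, a11]; ring
theorem est_E22 : Est S 1 0 0 6 S.E22 :=
  ((est_trig.2.2.mul est_a12).fit (by norm_num)).add ((est_trig.1.mul est_a22).fit (by norm_num))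

theorem est_Ff : Est S 1 6 6 6 S.Ff := est_GG
theorem est_Fg : Est S 1 6 6 6 fun q t x => S.Fg q t x - ((1 / 2 : ℝ) : ℂ) • (1 : L1) :=
  Est.congr ((((est_exp_W.2).fit (by norm_num)).sub ((eps_smul ((est_gam.mul est_gam).mul est_qq)).fit (by norm_num))).smulc
    (1 / 2)) fun q t x => by
      simp only [Fg]
      rw [← smul_sub]
      congr 1
      abel
theorem est_Fi : Est S 1 6 6 6 fun q t x => S.Fi q t x - 1 :=
  Est.congr (((est_gq.mul est_iot).neg).fit (by norm_num)) fun q t x => by simp only [Fi]; ring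
theorem est_Hg1 : Est S 1 3 0 3 S.Hg1 :=
  (est_c.mul (((est_trig.1.mul est_K1).fit (by norm_num) : Est S 1 3 0 6 _).sub
    ((est_trig.2.2.mul est_K2).fit (by norm_num)))).fit (by norm_num)
theorem est_Hg2 : Est S (-1) 3 0 3 S.Hg2 :=
  (est_c.mul (((est_trig.2.2.mul est_K1).fit (by norm_num) : Est S (-1) 3 0 6 _).add
    ((est_trig.1.mul est_K2).fit (by norm_num)))).fit (by norm_num)
theorem est_Hc : Est S 1 3 0 3 fun q t x => S.Hc q t x - 1 :=
  Est.congr ((((est_P0 est_E11).mul est_c).neg).fit (by norm_num)) fun q t x => by simp only [Hc]; ring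

end Setup

end P205.Klein
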