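import Vale.Agent.P205.Klein.Est

/-!
P205, Klein bottle: the terms of the nonlinear system and their estimates.
-/

namespace P205.Klein

open P205.Tori P205.Tori.Fourier
open scoped ComplexConjugate

variable {S : Setup} {s s' : ℂ} {a b c a' b' c' : ℤ} {T U : ℕ → ℝ → Unk → L1}

theorem Est.cast (hT : Est S s a b c T) (hs : s = s') (ha : a' ≤ a) (hb : b' ≤ b) (hc : c' ≤ c) :
    Est S s' a' b' c' T := hs ▸ hT.mono ha hb hc

/-- Adjust the exponents and the parity of an estimate. -/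
theorem Est.fit (hT : Est S s a b c T) (h : s = s' ∧ a' ≤ a ∧ b' ≤ b ∧ c' ≤ c) :
    Est S s' a' b' c' T := hT.cast h.1 h.2.1 h.2.2.1 h.2.2.2

namespace Setup

theorem q_x (q : ℕ) (t : ℝ) (k : Idx) : (S.lat q t).q k (1, 0) = Real.pi * k 0 / S.h := by
  have := S.h_pos
  have := S.P_pos q t
  simp [Solve.Lat.q, Solve.Lat.W_apply, lat, phase_apply, Solve.Lat.d]
  field_simp

theorem q_y (q : ℕ) (t : ℝ) (k : Idx) :
    (S.lat q t).q k (0, 1) = 2 * Real.pi * k 1 / S.P q t := by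
  have := S.h_pos
  have := S.P_pos q t
  simp [Solve.Lat.q, Solve.Lat.W_apply, lat, phase_apply, Solve.Lat.d]
  field_simp

theorem phase_x (q : ℕ) (t : ℝ) (k : Idx) :
    phase k ((S.lat q t).W (1, 0)) = ((Real.pi * k 0 / S.h : ℝ) : ℂ) * Complex.I := by
  rw [Solve.Lat.phase_eq, q_x]

theorem phase_y (q : ℕ) (t : ℝ) (k : Idx) :
    phase k ((S.lat q t).W (0, 1)) = ((2 * Real.pi * k 1 / S.P q t : ℝ) : ℂ) * Complex.I := by
  rw [Solve.Lat.phase_eq, q_y]

theorem D_flip (q : ℕ) (t : ℝ) (k : Idx) : (S.lat q t).D (flipK k) = (S.lat q t).D k := by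
  simp only [Solve.Lat.D, q_x, q_y, flipK_zero, flipK_one, Int.cast_neg]; ring

theorem cont_m0 {q : ℕ} (hq : q ∈ S.Q) (k : Idx) :
    Continuous fun t => (S.lat q t).m0 k := by
  rcases eq_or_ne k 0 with rfl | hk
  · simp only [Solve.Lat.m0, Solve.Lat.D_zero]; exact continuous_const
  · simp only [Solve.Lat.m0]
    refine Complex.continuous_ofReal.comp (Continuous.neg (Continuous.inv₀ ?_
      fun t => (S.lat q t).D_ne hk))
    simp only [Solve.Lat.D, q_x, q_y]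
    exact continuous_const.add
      ((continuous_const.div (S.cont_P q hq) fun t => (S.P_pos q t).ne').pow 2)

theorem cont_phase_y {q : ℕ} (hq : q ∈ S.Q) (k : Idx) :
    Continuous fun t => phase k ((S.lat q t).W (0, 1)) := by
  simp only [phase_y]
  exact (Complex.continuous_ofReal.comp
    (continuous_const.div (S.cont_P q hq) fun t => (S.P_pos q t).ne')).mul continuous_const

theorem cont_phase_x (q : ℕ) (k : Idx) :
    Continuous fun t => phase k ((S.lat q t).W (1, 0)) := by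
  simp only [phase_x]; exact continuous_const

theorem est_M0 (h : Est S s a b c T) :
    Est S s a b c fun q t x => (S.lat q t).M0 (T q t x) := by
  have e := h.mult (fun q t => (S.lat q t).m0) (fun q t => (S.lat q t).C) S.CM 1
    (fun q t => (S.lat q t).norm_m0) S.lat_C_le (fun q hq k => cont_m0 hq k)
    (fun q t => (S.lat q t).conj_m0)
    (fun q t k => by rw [Solve.Lat.m0, D_flip, one_mul]; rfl) (one_mul 1)
  exact e.cast (one_mul s) le_rfl le_rfl le_rfl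

theorem est_Mx (h : Est S s a b c T) :
    Est S s a b c fun q t x => (S.lat q t).Mx (T q t x) := by
  have e := h.mult (fun q t => (S.lat q t).mx) (fun q t => (S.lat q t).C) S.CM 1
    (fun q t => (S.lat q t).norm_mx) S.lat_C_le
    (fun q hq k => (cont_phase_x q k).mul (cont_m0 hq k))
    (fun q t k => by simp only [Solve.Lat.mx, map_mul, Solve.Lat.conj_phase, Solve.Lat.conj_m0])
    (fun q t k => by simp [Solve.Lat.mx, Solve.Lat.m0, phase_x, D_flip]) (one_mul 1)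
  exact e.cast (one_mul s) le_rfl le_rfl le_rfl

theorem est_My (h : Est S s a b c T) :
    Est S (-s) a b c fun q t x => (S.lat q t).My (T q t x) := by
  have e := h.mult (fun q t => (S.lat q t).my) (fun q t => (S.lat q t).C) S.CM (-1)
    (fun q t => (S.lat q t).norm_my) S.lat_C_le
    (fun q hq k => (cont_phase_y hq k).mul (cont_m0 hq k))
    (fun q t k => by simp only [Solve.Lat.my, map_mul, Solve.Lat.conj_phase, Solve.Lat.conj_m0])
    (fun q t k => by simp [Solve.Lat.my, Solve.Lat.m0, phase_y, D_flip]; ring) (by norm_num)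
  exact e.cast (neg_one_mul s) le_rfl le_rfl le_rfl

theorem est_Mxx (h : Est S s a b c T) :
    Est S s a b c fun q t x => (S.lat q t).Mxx (T q t x) := by
  have e := h.mult (fun q t => (S.lat q t).mxx) (fun q t => (S.lat q t).C) S.CM 1
    (fun q t => (S.lat q t).norm_mxx) S.lat_C_le
    (fun q hq k => (cont_phase_x q k).mul ((cont_phase_x q k).mul (cont_m0 hq k)))
    (fun q t k => by
      simp only [Solve.Lat.mxx, Solve.Lat.mx, map_mul, Solve.Lat.conj_phase, Solve.Lat.conj_m0])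
    (fun q t k => by simp [Solve.Lat.mxx, Solve.Lat.mx, Solve.Lat.m0, phase_x, D_flip]) (one_mul 1)
  exact e.cast (one_mul s) le_rfl le_rfl le_rfl

theorem est_Mxy (h : Est S s a b c T) :
    Est S (-s) a b c fun q t x => (S.lat q t).Mxy (T q t x) := by
  have e := h.mult (fun q t => (S.lat q t).mxy) (fun q t => (S.lat q t).C) S.CM (-1)
    (fun q t => (S.lat q t).norm_mxy) S.lat_C_le
    (fun q hq k => (cont_phase_y hq k).mul ((cont_phase_x q k).mul (cont_m0 hq k)))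
    (fun q t k => by
      simp only [Solve.Lat.mxy, Solve.Lat.mx, map_mul, Solve.Lat.conj_phase, Solve.Lat.conj_m0])
    (fun q t k => by
      simp [Solve.Lat.mxy, Solve.Lat.mx, Solve.Lat.m0, phase_x, phase_y, D_flip]; ring)
    (by norm_num)
  exact e.cast (neg_one_mul s) le_rfl le_rfl le_rfl

theorem est_Myy (h : Est S s a b c T) :
    Est S s a b c fun q t x => (S.lat q t).Myy (T q t x) := by
  have e := h.mult (fun q t => (S.lat q t).myy) (fun q t => (S.lat q t).C) S.CM 1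
    (fun q t => (S.lat q t).norm_myy) S.lat_C_le
    (fun q hq k => (cont_phase_y hq k).mul ((cont_phase_y hq k).mul (cont_m0 hq k)))
    (fun q t k => by
      simp only [Solve.Lat.myy, Solve.Lat.my, map_mul, Solve.Lat.conj_phase, Solve.Lat.conj_m0])
    (fun q t k => by
      simp [Solve.Lat.myy, Solve.Lat.my, Solve.Lat.m0, phase_y, D_flip]; ring) (one_mul 1)
  exact e.cast (one_mul s) le_rfl le_rfl le_rfl

end Setup

/-! ### The mean -/

/-- The multiplier of the mean. -/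
noncomputable def pm (k : Idx) : ℂ := if k = 0 then 1 else 0

theorem norm_pm (k : Idx) : ‖pm k‖ ≤ 1 := by unfold pm; split_ifs <;> simp

/-- The mean, as an element of the algebra. -/
noncomputable def P0 : L1 →L[ℂ] L1 := L1.multiplier pm 1 norm_pm

theorem P0_eq (u : L1) : P0 u = L1.coeff u 0 • (1 : L1) := by
  ext k
  rw [P0, L1.coeff_multiplier, L1.coeff_smul, L1.one_def, L1.coeff_single, pm]
  by_cases h : k = 0
  · simp [h]
  · simp [h]

theorem flipK_eq_zero {k : Idx} : flipK k = 0 ↔ k = 0 := by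
  constructor
  · intro h
    rw [← flipK_flipK k, h]
    funext i; fin_cases i <;> simp [flipK]
  · rintro rfl
    funext i; fin_cases i <;> simp [flipK]

theorem est_P0 (h : Est S s a b c T) : Est S s a b c fun q t x => P0 (T q t x) := by
  have e := h.mult (fun _ _ => pm) (fun _ _ => 1) 1 1 (fun _ _ => norm_pm) (fun _ _ => le_rfl)
    (fun _ _ _ => continuous_const) (fun _ _ k => by unfold pm; split_ifs <;> simp_all)
    (fun _ _ k => by rw [one_mul, pm, pm]; simp only [flipK_eq_zero]) (one_mul 1)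
  exact e.cast (one_mul s) le_rfl le_rfl le_rfl

/-! ### The unknowns -/

theorem norm_fst_le (x y : Unk) : ‖x.1 - y.1‖ ≤ ‖x - y‖ ∧ ‖x.2 - y.2‖ ≤ ‖x - y‖ :=
  ⟨le_max_left _ _, le_max_right _ _⟩

theorem Est.proj₁ (p : L1 × L1 × L1 → L1) (hp : ∀ u v, ‖p u - p v‖ ≤ ‖u - v‖)
    (h₁ : ∀ q ∈ S.Q, ∀ n δ, ∀ x : Unk, S.WBall q n δ x → L1.Bd n δ (2 * S.η q ^ a) (p x.1))
    (h₂ : ∀ x : Unk, SymX x → L1.conjc (p x.1) = p x.1 ∧ refl (p x.1) = s • p x.1) :
    Est S s a 0 20 fun _ _ x => p x.1 :=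
  ⟨2, zero_le_two, fun q hq => ⟨fun _ n δ _ x hx => h₁ q hq n δ x hx, fun _ x y _ _ => by
    have := zpow_nonneg (S.η_pos q hq).le (20 : ℤ)
    rw [zpow_zero, one_mul]
    nlinarith [hp x.1 y.1, norm_nonneg (x.1 - y.1), norm_nonneg (x.2 - y.2)],
    fun _ _ => continuous_const, fun _ x _ hx => h₂ x hx⟩⟩

theorem Est.proj₂ (p : L1 × L1 × L1 → L1) (hp : ∀ u v, ‖p u - p v‖ ≤ ‖u - v‖)
    (h₁ : ∀ q ∈ S.Q, ∀ n δ, ∀ x : Unk, S.WBall q n δ x → L1.Bd n δ (2 * S.η q ^ a) (p x.2))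
    (h₂ : ∀ x : Unk, SymX x → L1.conjc (p x.2) = p x.2 ∧ refl (p x.2) = s • p x.2) :
    Est S s a 20 0 fun _ _ x => p x.2 :=
  ⟨2, zero_le_two, fun q hq => ⟨fun _ n δ _ x hx => h₁ q hq n δ x hx, fun _ x y _ _ => by
    have := zpow_nonneg (S.η_pos q hq).le (20 : ℤ)
    rw [zpow_zero, one_mul]
    nlinarith [hp x.2 y.2, norm_nonneg (x.1 - y.1), norm_nonneg (x.2 - y.2)],
    fun _ _ => continuous_const, fun _ x _ hx => h₂ x hx⟩⟩

theorem norm_p1 (u v : L1 × L1 × L1) : ‖u.1 - v.1‖ ≤ ‖u - v‖ := le_max_left _ _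

theorem norm_p2 (u v : L1 × L1 × L1) : ‖u.2.1 - v.2.1‖ ≤ ‖u - v‖ :=
  (le_max_left _ _).trans (le_max_right _ _)

theorem norm_p3 (u v : L1 × L1 × L1) : ‖u.2.2 - v.2.2‖ ≤ ‖u - v‖ :=
  (le_max_right _ _).trans (le_max_right _ _)

namespace Setup

theorem two_le {q : ℕ} (hq : q ∈ S.Q) (e : ℤ) : S.η q ^ e ≤ 2 * S.η q ^ e :=
  le_mul_of_one_le_left (zpow_nonneg (S.η_pos q hq).le e) one_le_two

theorem est_f : Est S 1 3 0 20 fun _ _ x => x.1.1 :=
  Est.proj₁ (fun u => u.1) norm_p1 (fun q hq n δ x hx => hx.1.mono (two_le hq 3))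
    fun x hx => by simpa using hx.1

theorem est_gam : Est S 1 0 0 20 fun _ _ x => x.1.2.1 :=
  Est.proj₁ (fun u => u.2.1) norm_p2 (fun q hq n δ x hx => hx.2.1.mono (by simp))
    fun x hx => by simpa using hx.2.1

theorem est_iot : Est S 1 0 0 20 fun _ _ x => x.1.2.2 :=
  Est.proj₁ (fun u => u.2.2) norm_p3 (fun q hq n δ x hx => hx.2.2.1.mono (by simp))
    fun x hx => by simpa using hx.2.2.1

theorem est_g1 : Est S 1 2 20 0 fun _ _ x => x.2.1 :=
  Est.proj₂ (fun u => u.1) norm_p1 (fun q hq n δ x hx => hx.2.2.2.1.mono (two_le hq 2))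
    fun x hx => by simpa using hx.2.2.2.1

theorem est_g2 : Est S (-1) 2 20 0 fun _ _ x => x.2.2.1 :=
  Est.proj₂ (fun u => u.2.1) norm_p2 (fun q hq n δ x hx => hx.2.2.2.2.1.mono (two_le hq 2))
    fun x hx => by simpa using hx.2.2.2.2.1

theorem est_c : Est S 1 0 20 0 fun _ _ x => x.2.2.2 :=
  Est.proj₂ (fun u => u.2.2) norm_p3 (fun q hq n δ x hx => hx.2.2.2.2.2.mono (by simp))
    fun x hx => by simpa using hx.2.2.2.2.2

end Setup

/-! ### Composition with the change of coordinates -/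

/-- The real part of a series. -/
noncomputable def rep (u : L1) : L1 := ((1 / 2 : ℝ) : ℂ) • (u + L1.conjc u)

theorem conjc_rep (u : L1) : L1.conjc (rep u) = rep u := by
  rw [rep, L1.conjc_smul, L1.conjc_add]
  congr 1
  ext k
  simp [L1.coeff_conjc, add_comm]

theorem rep_of_real {u : L1} (h : L1.conjc u = u) : rep u = u := by
  rw [rep, h, ← two_smul ℂ u, smul_smul]
  norm_num

theorem Bd_conjc {n : ℕ} {δ R : ℝ} {u : L1} (h : L1.Bd n δ R u) : L1.Bd n δ R (L1.conjc u) :=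
  fun s => by
    refine le_of_eq_of_le ?_ (h (s.map (Equiv.neg Idx).toEmbedding))
    rw [Finset.sum_map]
    refine Finset.sum_congr rfl fun k _ => ?_
    simp [L1.coeff_conjc, L1.wt, nk_neg]

theorem Bd_rep {n : ℕ} {δ R : ℝ} {u : L1} (hδ : 0 ≤ δ) (h : L1.Bd n δ R u) :
    L1.Bd n δ R (rep u) :=
  ((h.add hδ (Bd_conjc h)).smul _).mono (by
    rw [Complex.norm_real, Real.norm_of_nonneg (by norm_num)]; linarith)

theorem rep_sub (u v : L1) : rep u - rep v = rep (u - v) := by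
  rw [rep, rep, rep, L1.conjc_sub, ← smul_sub, add_sub_add_comm]

theorem norm_rep_le (u : L1) : ‖rep u‖ ≤ ‖u‖ :=
  Bd_zero_iff.1 (Bd_rep (δ := 0) le_rfl (Bd_zero_iff.2 le_rfl))

theorem continuous_rep : Continuous rep := by
  unfold rep
  exact (continuous_id.add L1.continuous_conjc).const_smul ((1 / 2 : ℝ) : ℂ)

theorem Est.rePart (hT : Est S s a b c T) : Est S s a b c fun q t x => rep (T q t x) := by
  obtain ⟨C, hC, h⟩ := hT
  refine ⟨C, hC, fun q hq => ?_⟩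
  obtain ⟨h1, h2, h3, h4⟩ := h q hq
  refine ⟨fun t n δ g x hx => Bd_rep g.1 (h1 t n δ g x hx), fun t x y hx hy => ?_,
    fun x hx => continuous_rep.comp (h3 x hx), fun t x hx hs => ?_⟩
  · rw [rep_sub]; exact (norm_rep_le _).trans (h2 t x y hx hy)
  · obtain ⟨u1, u2⟩ := h4 t x hx hs
    simp only [rep_of_real u1]
    exact ⟨u1, u2⟩

namespace Setup

variable (S)

/-- The first displacement, in the coordinates of the phases. -/
noncomputable def xi0 (q : ℕ) (t : ℝ) (x : Unk) : L1 :=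
  (((2 * S.h)⁻¹ : ℝ) : ℂ) • (S.lat q t).M0 (rep x.2.1)

/-- The second displacement, in the coordinates of the phases. -/
noncomputable def xi1 (q : ℕ) (t : ℝ) (x : Unk) : L1 :=
  ((S.L⁻¹ : ℝ) : ℂ) • (S.lat q t).M0 (rep x.2.2.1)

/-- A function of `z`, read at the new coordinates. -/
noncomputable def cmp (a : L1) (q : ℕ) (t : ℝ) (x : Unk) : L1 :=
  comp a (S.xi0 q t x) (S.xi1 q t x)

variable {S}

theorem small_disp {q : ℕ} (t : ℝ) {r : ℝ} (hr : 0 ≤ r)
    (h1 : 2 * S.CM * (r * (2 * S.h)) ≤ S.rad) (h2 : 2 * S.CM * (r * (2 * S.h) ^ 2) ≤ S.rad)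
    (h3 : 2 * S.CM * (r * (4 * S.L)) ≤ S.rad) (h4 : 2 * S.CM * (r * (4 * S.L) ^ 2) ≤ S.rad)
    {n : ℕ} {δ : ℝ} (hδ : 0 ≤ δ) {u : L1} (hu : L1.Bd n δ 2 u) :
    ∃ x₀ x₀₀ x₁ x₁₁, Small S.rad ((r : ℂ) • (S.lat q t).M0 (rep u)) x₀ x₀₀ x₁ x₁₁ ∧
      L1.Bd n δ S.rad x₀ ∧ L1.Bd n δ S.rad x₁ := by
  set Λ := S.lat q t
  set v := rep u
  have hP := S.P_pos q t
  have hP' := S.P_le q t
  have hh := S.h_pos
  have hCM : 0 ≤ S.CM := (S.lat q t).C_nonneg.trans (S.lat_C_le q t)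
  have bd : ∀ (m : Idx → ℂ) (hm : ∀ k, ‖m k‖ ≤ Λ.C) (c : ℝ) (K : ℝ), 0 ≤ c → c ≤ K →
      2 * S.CM * (r * K) ≤ S.rad →
      L1.Bd n δ S.rad (((r * c : ℝ) : ℂ) • L1.multiplier m Λ.C hm v) := by
    intro m hm c K hc hcK hle
    refine (((Bd_rep hδ hu).multiplier hδ m Λ.C hm).smul _).mono (le_trans ?_ hle)
    rw [Complex.norm_real, Real.norm_of_nonneg (mul_nonneg hr hc)]
    nlinarith [mul_le_mul_of_nonneg_left (mul_le_mul hcK (S.lat_C_le q t) Λ.C_nonneg
      (hc.trans hcK)) hr]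
  have nb : ∀ {w : L1}, L1.Bd n δ S.rad w → ‖w‖ ≤ S.rad := fun h =>
    Bd_zero_iff.1 (Bd_le_of_le hδ (Nat.zero_le n) h)
  have b0 := bd Λ.mx Λ.norm_mx (2 * S.h) _ (by positivity) le_rfl h1
  have b00 := bd Λ.mxx Λ.norm_mxx ((2 * S.h) ^ 2) _ (by positivity) le_rfl h2
  have b1 := bd Λ.my Λ.norm_my (S.P q t) _ hP.le hP' h3
  have b11 := bd Λ.myy Λ.norm_myy (S.P q t ^ 2) _ (by positivity) (pow_le_pow_left₀ hP.le hP' 2) h4
  refine ⟨_, _, _, _, ⟨Solve.IsR.smul r (Λ.isR_M0 (conjc_rep u)), fun k => ?_, fun k => ?_,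
    fun k => ?_, fun k => ?_, nb b0, nb b00, nb b1, nb b11⟩, b0, b1⟩
  all_goals
    simp only [L1.coeff_smul, L1.coeff_multiplier, Solve.Lat.M0, Solve.Lat.mx, Solve.Lat.mxx,
      Solve.Lat.my, Solve.Lat.myy, Λ]
    simp only [phase_x, phase_y]
    simp only [phase_apply]
    have : (S.h : ℂ) ≠ 0 := by exact_mod_cast hh.ne'
    have : (S.P q t : ℂ) ≠ 0 := by exact_mod_cast hP.ne'
    push_cast
    field_simp
    ring

theorem small_xi {q : ℕ} (hq : q ∈ S.Q) (t : ℝ) {n : ℕ} {δ : ℝ} (hδ : 0 ≤ δ) {x : Unk}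
    (hx : S.WBall q n δ x) :
    (∃ x₀ x₀₀ x₁ x₁₁, Small S.rad (S.xi0 q t x) x₀ x₀₀ x₁ x₁₁ ∧
      L1.Bd n δ S.rad x₀ ∧ L1.Bd n δ S.rad x₁) ∧
    ∃ x₀ x₀₀ x₁ x₁₁, Small S.rad (S.xi1 q t x) x₀ x₀₀ x₁ x₁₁ ∧
      L1.Bd n δ S.rad x₀ ∧ L1.Bd n δ S.rad x₁ := by
  have hη : S.η q ^ (2 : ℤ) ≤ 2 := (two_le hq 2).trans
    (mul_le_of_le_one_right zero_le_two (by simpa using zpow_anti hq (a := 0) (b := 2) (by norm_num)))
  obtain ⟨-, -, -, g1, g2, -⟩ := hx
  have hh := S.h_pos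
  have hL := S.L_pos
  have hCM : 0 ≤ 2 * S.CM := by
    have := (S.lat q t).C_nonneg.trans (S.lat_C_le q t); positivity
  have p1 : 0 ≤ 2 * S.h / S.L := by positivity
  have p2 : 0 ≤ (2 * S.h) ^ 2 / S.L := by positivity
  have p3 : 0 ≤ 4 * S.L / (2 * S.h) := by positivity
  have p4 : 0 ≤ (4 * S.L) ^ 2 / (2 * S.h) := by positivity
  refine ⟨small_disp t (by positivity) ?_ ?_ ?_ ?_ hδ (g1.mono hη),
    small_disp t (by positivity) ?_ ?_ ?_ ?_ hδ (g2.mono hη)⟩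
  all_goals
    refine mul_le_mul_of_nonneg_left ?_ hCM
    have e1 : (2 * S.h)⁻¹ * (2 * S.h) = 1 := inv_mul_cancel₀ (by positivity)
    have e2 : (2 * S.h)⁻¹ * (2 * S.h) ^ 2 = 2 * S.h := by field_simp
    have e3 : (2 * S.h)⁻¹ * (4 * S.L) = 4 * S.L / (2 * S.h) := inv_mul_eq_div ..
    have e4 : (2 * S.h)⁻¹ * (4 * S.L) ^ 2 = (4 * S.L) ^ 2 / (2 * S.h) := inv_mul_eq_div ..
    have e5 : S.L⁻¹ * (2 * S.h) = 2 * S.h / S.L := inv_mul_eq_div ..
    have e6 : S.L⁻¹ * (2 * S.h) ^ 2 = (2 * S.h) ^ 2 / S.L := inv_mul_eq_div ..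
    have e7 : S.L⁻¹ * (4 * S.L) = 4 := by field_simp
    have e8 : S.L⁻¹ * (4 * S.L) ^ 2 = 16 * S.L := by field_simp; ring
    linarith

theorem est_xi0 : Est S 1 2 20 0 S.xi0 := (est_M0 est_g1.rePart).smulc _

theorem est_xi1 : Est S (-1) 2 20 0 S.xi1 := (est_M0 est_g2.rePart).smulc _

theorem est_cmp {u : L1} (hu : u ∈ [S.vx, S.vy, S.vxx, S.vxy, S.vyy]) (hre : L1.conjc u = u)
    (hs : refl u = s • u) : Est S s 0 20 0 (S.cmp u) := by
  have hrd : RD (L1.coeff u) := by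
    obtain ⟨r1, r2, r3, r4, r5⟩ := S.rd_v
    simp only [List.mem_cons, List.not_mem_nil, or_false] at hu
    rcases hu with rfl | rfl | rfl | rfl | rfl <;> assumption
  obtain ⟨C, hC, h⟩ := est_xi0 (S := S)
  obtain ⟨D, hD, g⟩ := est_xi1 (S := S)
  have hρ : 0 ≤ S.rad := rad_nonneg
  have hK := compL_nonneg S.rad hρ u
  set B := |compC S.rad u + 1| + compL S.rad u * (C + D)
  refine ⟨B, by positivity, fun q hq => ?_⟩
  have hη := S.η_pos q hq
  obtain ⟨-, l0, c0, s0⟩ := h q hq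
  obtain ⟨-, l1, c1, s1⟩ := g q hq
  have lip : ∀ t t' x y, S.Ball q x → S.Ball q y → ‖S.cmp u q t x - S.cmp u q t' y‖
      ≤ compL S.rad u * max ‖S.xi0 q t x - S.xi0 q t' y‖ ‖S.xi1 q t x - S.xi1 q t' y‖ := by
    intro t t' x y hx hy
    obtain ⟨⟨_, _, _, _, a0, -⟩, _, _, _, _, a1, -⟩ := small_xi hq t le_rfl hx
    obtain ⟨⟨_, _, _, _, b0, -⟩, _, _, _, _, b1, -⟩ := small_xi hq t' le_rfl hy
    exact norm_comp_sub_le hrd a0 a1 b0 b1
  refine ⟨fun t n δ gd x hx => ?_, fun t x y hx hy => ?_, fun x hx => ?_, fun t x hx hsym => ?_⟩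
  · obtain ⟨⟨_, _, _, _, a0, a0', a0''⟩, _, _, _, _, a1, a1', a1''⟩ := small_xi hq t gd.1 hx
    refine (Bd_comp gd.1 hrd (gd.2.2.2.2.2 u hu) a0 a1 a0' a0'' a1' a1'').mono ?_
    rw [zpow_zero, mul_one]
    exact (le_abs_self _).trans (le_add_of_nonneg_right (by positivity))
  · refine (lip t t x y hx hy).trans ?_
    set N := S.η q ^ (20 : ℤ) * ‖x.1 - y.1‖ + S.η q ^ (0 : ℤ) * ‖x.2 - y.2‖
    have hN : 0 ≤ N := by positivity
    refine (mul_le_mul_of_nonneg_left (max_le ((l0 t x y hx hy).trans (mul_le_mul_of_nonneg_right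
      (le_add_of_nonneg_right hD) hN)) ((l1 t x y hx hy).trans (mul_le_mul_of_nonneg_right
      (le_add_of_nonneg_left hC) hN))) hK).trans ?_
    rw [← mul_assoc]
    exact mul_le_mul_of_nonneg_right (le_add_of_nonneg_left (abs_nonneg _)) hN
  · refine continuous_iff_continuousAt.2 fun t₀ => ?_
    refine tendsto_iff_norm_sub_tendsto_zero.2 (squeeze_zero (fun _ => norm_nonneg _)
      (fun t => lip t t₀ x x hx hx) ?_)
    have e := (((c0 x hx).sub (continuous_const (y := S.xi0 q t₀ x))).norm.max ((c1 x hx).sub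
      (continuous_const (y := S.xi1 q t₀ x))).norm).tendsto t₀
    simpa using e.const_mul (compL S.rad u)
  · obtain ⟨⟨_, _, _, _, a0, -⟩, _, _, _, _, a1, -⟩ := small_xi hq t le_rfl hx
    exact ⟨conjc_comp hrd hre a0 a1, refl_comp hrd s hs a0 a1
      (by simpa using (s0 t x hx hsym).2) (by simpa using (s1 t x hx hsym).2)⟩

theorem est_vx : Est S 1 0 20 0 (S.cmp S.vx) :=
  est_cmp (by simp) S.real_v.1 (by simpa using S.refl_v.1)

theorem est_vy : Est S (-1) 0 20 0 (S.cmp S.vy) :=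
  est_cmp (by simp) S.real_v.2.1 (by simpa using S.refl_v.2.1)

theorem est_vxx : Est S 1 0 20 0 (S.cmp S.vxx) :=
  est_cmp (by simp) S.real_v.2.2.1 (by simpa using S.refl_v.2.2.1)

theorem est_vxy : Est S (-1) 0 20 0 (S.cmp S.vxy) :=
  est_cmp (by simp) S.real_v.2.2.2.1 (by simpa using S.refl_v.2.2.2.1)

theorem est_vyy : Est S 1 0 20 0 (S.cmp S.vyy) :=
  est_cmp (by simp) S.real_v.2.2.2.2 (by simpa using S.refl_v.2.2.2.2)

/-! ### The profile -/

theorem est_W0 : Est S 1 6 20 20 fun q t _ => S.W0 q t :=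
  Est.const (|S.Cw| + 1) (by positivity) fun q hq => ⟨fun t n δ g => g.2.2.1.mono
    (mul_le_mul_of_nonneg_right (by linarith [le_abs_self S.Cw]) (zpow_nonneg (S.η_pos q hq).le _)),
    (S.cont_W q hq).1, fun t => ⟨(S.real_W q hq t).1, by simpa using (S.refl_W q hq t).1⟩⟩

theorem est_W2 : Est S (-1) 0 20 20 fun q t _ => S.W2 q t :=
  Est.const (|S.Cw| + 1) (by positivity) fun q hq => ⟨fun t n δ g => g.2.2.2.1.mono
    (by simp [le_abs_self S.Cw]),
    (S.cont_W q hq).2.1, fun t => ⟨(S.real_W q hq t).2.1, by simpa using (S.refl_W q hq t).2.1⟩⟩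

theorem est_W22 : Est S 1 (-6) 20 20 fun q t _ => S.W22 q t :=
  Est.const (|S.Cw| + 1) (by positivity) fun q hq => ⟨fun t n δ g => g.2.2.2.2.1.mono
    (mul_le_mul_of_nonneg_right (by linarith [le_abs_self S.Cw]) (zpow_nonneg (S.η_pos q hq).le _)),
    (S.cont_W q hq).2.2, fun t => ⟨(S.real_W q hq t).2.2, by simpa using (S.refl_W q hq t).2.2⟩⟩

theorem Ce_nonneg {q : ℕ} (hq : q ∈ S.Q) : 0 ≤ S.Ce :=
  nonneg_of_mul_nonneg_left ((S.eps_nonneg q hq).trans (S.eps_le q hq))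
    (zpow_pos (S.η_pos q hq) _)

theorem eps_smul (hT : Est S s a b c T) :
    Est S s (12 + a) (12 + b) (12 + c) fun q t x => (S.eps q : ℂ) • T q t x :=
  hT.scal (fun q _ => S.eps q) 12 |S.Ce| (abs_nonneg _) fun q hq =>
    ⟨fun _ => by
      rw [abs_of_nonneg (S.eps_nonneg q hq)]
      exact (S.eps_le q hq).trans (mul_le_mul_of_nonneg_right (le_abs_self _)
        (zpow_nonneg (S.η_pos q hq).le _)), continuous_const⟩

end Setup

end P205.Klein
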