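import Vale.Agent.P205.Klein.VerifyData
import Vale.Agent.P205.Klein.Hodge

/-!
P205, Klein bottle, module Verify: a fixed point with matching periods is a conformal change of
coordinates of the kind the closing step needs.
-/

namespace P205.Klein

open P205.Tori P205.Tori.Fourier

namespace Setup

variable {S : Setup} {v : ℝ × ℝ → ℝ} {q : ℕ} {t : ℝ} {x : Unk}

/-- The remaining entries of the rotated coframe. -/
noncomputable def E12 (S : Setup) (q : ℕ) (t : ℝ) (x : Unk) : L1 :=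
  S.co q t x * S.a12 q t x - S.si q t x * S.a22 q t x
noncomputable def E21 (S : Setup) (q : ℕ) (t : ℝ) (x : Unk) : L1 :=
  S.si q t x * S.a11 q t x + S.co q t x * S.a12 q t x

theorem est_E12 : Est S (-1) 0 0 0 S.E12 :=
  ((est_trig.1.mul est_a12).fit (by norm_num) : Est S (-1) 0 0 0 _).sub
    ((est_trig.2.2.mul est_a22).fit (by norm_num))

theorem est_E21 : Est S (-1) 0 0 0 S.E21 :=
  ((est_trig.2.2.mul est_a11).fit (by norm_num) : Est S (-1) 0 0 0 _).add
    ((est_trig.1.mul est_a12).fit (by norm_num))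

theorem est_E11' : Est S 1 0 0 0 S.E11 :=
  ((est_trig.1.mul est_a11).fit (by norm_num) : Est S 1 0 0 0 _).sub
    ((est_trig.2.2.mul est_a12).fit (by norm_num))

theorem est_E22'' : Est S 1 0 0 0 S.E22 := est_E22.fit (by norm_num)

variable (K : Ctx S v q t x)
include K

theorem real_of {s : ℂ} {a b c : ℤ} {T : ℕ → ℝ → Unk → L1} (hT : Est S s a b c T) :
    Solve.IsR (T q t x) ∧ refl (T q t x) = s • T q t x := by
  obtain ⟨_, _, h⟩ := hT
  exact (h q K.hq).2.2.2 t x K.sol.ball K.sol.sym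

theorem mean_odd {a b c : ℤ} {T : ℕ → ℝ → Unk → L1} (hT : Est S (-1) a b c T) :
    L1.coeff (T q t x) 0 = 0 :=
  Hodge.coeff_zero_of_odd (by rw [(real_of K hT).2, neg_one_smul])

/-- The mean of the equation for `s` vanishes, so the connection form is closed. -/
theorem conn_closed (hι : ‖x.1.2.2 - 1‖ ≤ 1 / 8) (p : ℝ × ℝ) :
    dy (S.fn q t (S.T1 q t x)) p = dx (S.fn q t (S.T2 q t x)) p := by
  set Λ := S.lat q t
  obtain ⟨H, hiota⟩ := hyp K
  set U := S.uf v q t x
  set g := S.gf q t x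
  have e1 : S.fn q t (S.T1 q t x) = Frame.fT1 U (S.sf q t x) (S.wf q t) g (S.eps q) :=
    funext fun y => by rw [fn, Solve.Lat.F, (ev_N K y).2.2.1, Complex.ofReal_re]
  have e2 : S.fn q t (S.T2 q t x) = Frame.fT2 U (S.sf q t x) (S.wf q t) g (S.eps q) :=
    funext fun y => by rw [fn, Solve.Lat.F, (ev_N K y).2.2.2.1, Complex.ofReal_re]
  set i3 : L1 := x.1.2.2 * x.1.2.2 * x.1.2.2
  set f0 := (L1.coeff x.1.1 0).re
  have key : ∀ y, dx (S.fn q t (S.T2 q t x)) y - dy (S.fn q t (S.T1 q t x)) y = -f0 * Λ.F i3 y := by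
    intro y
    have hc := Frame.curl H y
    rw [← e1, ← e2] at hc
    obtain ⟨-, -, s3, -, s5⟩ := ds K y
    have hl := congrArg (fun u => (L1.ev (Λ.W y) u).re) (Λ.lap_eq x.1.1)
    simp only [map_add, map_sub, map_smul, L1.ev_one, smul_eq_mul, mul_one, Complex.add_re,
      Complex.sub_re] at hl
    have hi : Λ.F i3 y = (Frame.fσ U g y)⁻¹ ^ 3 := by
      simp only [i3, Solve.Lat.F, L1.ev_mul, (ev_N K y).2.2.2.2, Λ, U, g]
      norm_cast
      ring
    rw [s3, s5, ← fn_f K y] at hc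
    simp only [fn, sxx, syy, Solve.Lat.F, Λ] at hc hl
    rw [hi, inv_pow, eq_mul_inv_iff_mul_eq₀ (pow_ne_zero 3 (H.ne y))]
    simp only [Λ, fn, f0]
    linarith
  have s1 := K.sol.smooth est_T1
  have s2 := K.sol.smooth est_T2
  have h := Hodge.mean_zero Λ (Λ.contDiff_F s1) (Λ.periodic_F _) (Λ.contDiff_F s2)
    (Λ.periodic_F _) i3 key
  have h3 : ‖i3 - 1‖ < 1 := by
    have e : i3 - 1 = (x.1.2.2 - 1) * (x.1.2.2 - 1) * (x.1.2.2 - 1)
        + ((x.1.2.2 - 1) * (x.1.2.2 - 1) + (x.1.2.2 - 1) * (x.1.2.2 - 1)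
          + (x.1.2.2 - 1) * (x.1.2.2 - 1))
        + ((x.1.2.2 - 1) + (x.1.2.2 - 1) + (x.1.2.2 - 1)) := by simp only [i3]; ring
    rw [e]
    set d := x.1.2.2 - 1
    have n2 : ‖d * d‖ ≤ 1 / 64 := (norm_mul_le _ _).trans
      ((mul_le_mul hι hι (norm_nonneg _) (by norm_num)).trans_eq (by norm_num))
    have n3 : ‖d * d * d‖ ≤ 1 / 512 := (norm_mul_le _ _).trans
      ((mul_le_mul n2 hι (norm_nonneg _) (by norm_num)).trans_eq (by norm_num))
    refine lt_of_le_of_lt (norm_add₃_le.trans (add_le_add (add_le_add n3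
      (norm_add₃_le.trans (add_le_add (add_le_add n2 n2) n2)))
      (norm_add₃_le.trans (add_le_add (add_le_add hι hι) hι)))) (by norm_num)
  have h4 : (L1.coeff i3 0).re ≠ 0 := fun h0 => by
    have := (Complex.abs_re_le_norm _).trans_lt ((L1.norm_coeff_le (i3 - 1) 0).trans_lt h3)
    rw [L1.coeff_sub, L1.one_def, L1.coeff_single, if_pos rfl, Complex.sub_re, h0,
      Complex.one_re] at this
    norm_num at this
  have hf : f0 = 0 := by simpa using (mul_eq_zero.1 h).resolve_right h4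
  have := key p
  rw [hf, neg_zero, zero_mul] at this
  linarith

/-- The change of coordinates is a multiple of the rotated coframe. -/
theorem jacobian (hι : ‖x.1.2.2 - 1‖ ≤ 1 / 8) (hd : S.disc q t x = 0) :
    ∃ θ : ℝ × ℝ → ℝ, ∀ p,
      dx (S.zc1 q t x) p = c₁ x * Frame.r11 (S.uf v q t x) (S.sf q t x) (S.gf q t x) θ p ∧
      dy (S.zc1 q t x) p = c₁ x * Frame.r12 (S.uf v q t x) (S.sf q t x) (S.gf q t x) θ p ∧
      dx (S.zc2 q t x) p = c₁ x * Frame.r21 (S.uf v q t x) (S.sf q t x) (S.gf q t x) θ p ∧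
      dy (S.zc2 q t x) p = c₁ x * Frame.r22 (S.uf v q t x) (S.sf q t x) (S.gf q t x) θ p := by
  set Λ := S.lat q t
  obtain ⟨H, -⟩ := hyp K
  set U := S.uf v q t x
  set s := S.sf q t x
  set g := S.gf q t x
  obtain ⟨hθ, tx, ty⟩ := Hodge.theta Λ (real_of K est_T1).1 (real_of K est_T2).1
    (K.sol.smooth est_T1) (K.sol.smooth est_T2) (conn_closed K hι)
  set θ := Λ.F (Λ.Mx (S.T1 q t x) + Λ.My (S.T2 q t x))
  set m := (L1.coeff (S.T2 q t x) 0).re
  have tx' : ∀ p, dx θ p = Frame.fT1 U s (S.wf q t) g (S.eps q) p := fun p => by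
    rw [tx, mean_odd K est_T1, Complex.zero_re, sub_zero, Solve.Lat.F, (ev_N K p).2.2.1,
      Complex.ofReal_re]
  have ty' : ∀ p, dy θ p = Frame.fT2 U s (S.wf q t) g (S.eps q) p - m := fun p => by
    rw [ty, Solve.Lat.F, (ev_N K p).2.2.2.1, Complex.ofReal_re]
  -- the entries as functions
  have hcs : ∀ p, L1.ev (Λ.W p) (S.co q t x) = ((Real.exp (s p) * Real.cos (θ p) : ℝ) : ℂ) ∧
      L1.ev (Λ.W p) (S.si q t x) = ((Real.exp (s p) * Real.sin (θ p) : ℝ) : ℂ) := fun p =>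
    ev_cexp (ev_est K est_s₀ p) (ev_est K est_th p)
  have f11 : Λ.F (S.E11 q t x) = Frame.r11 U s g θ := funext fun p => by
    obtain ⟨a, b, c, -⟩ := ev_K K p
    simp only [Solve.Lat.F, E11, map_sub, L1.ev_mul, (hcs p).1, (hcs p).2, Λ] at a b c ⊢
    simp only [a, b, c, Frame.r11, U, s, g]
    norm_cast
    ring
  have f12 : Λ.F (S.E12 q t x) = Frame.r12 U s g θ := funext fun p => by
    obtain ⟨a, b, c, -⟩ := ev_K K p
    simp only [Solve.Lat.F, E12, map_sub, L1.ev_mul, (hcs p).1, (hcs p).2, Λ] at a b c ⊢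
    simp only [a, b, c, Frame.r12, U, s, g]
    norm_cast
    ring
  have f21 : Λ.F (S.E21 q t x) = Frame.r21 U s g θ := funext fun p => by
    obtain ⟨a, b, c, -⟩ := ev_K K p
    simp only [Solve.Lat.F, E21, map_add, L1.ev_mul, (hcs p).1, (hcs p).2, Λ] at a b c ⊢
    simp only [a, b, c, Frame.r21, U, s, g]
    norm_cast
    ring
  have f22 : Λ.F (S.E22 q t x) = Frame.r22 U s g θ := funext fun p => by
    obtain ⟨a, b, c, -⟩ := ev_K K p
    simp only [Solve.Lat.F, E22, map_add, L1.ev_mul, (hcs p).1, (hcs p).2, Λ] at a b c ⊢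
    simp only [a, b, c, Frame.r22, U, s, g]
    norm_cast
    ring
  -- the constant
  set e := (L1.coeff (S.E11 q t x) 0).re
  have he : L1.coeff (S.E11 q t x) 0 = (e : ℂ) := by
    have h := congrArg (fun u => L1.coeff u 0) (real_of K est_E11').1
    simp only [L1.coeff_conjc, neg_zero] at h
    exact (Complex.conj_eq_iff_re.1 h).symm
  have hc : (e : ℂ) • x.2.2.2 = 1 := by
    have h : S.Hc q t x = x.2.2.2 := congrArg (fun u : L1 × L1 × L1 => u.2.2) K.sol.eqH
    rw [Hc, P0_eq, L1.coeff_sub, L1.one_def, L1.coeff_single, if_pos rfl, he, ← L1.one_def,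
      smul_one_mul] at h
    rw [sub_smul, one_smul] at h
    calc (e : ℂ) • x.2.2.2 = 1 - (1 - ((e : ℂ) • x.2.2.2 - x.2.2.2) - x.2.2.2) := by abel
      _ = 1 := by rw [h]; abel
  have hec : (e : ℂ) * L1.coeff x.2.2.2 0 = 1 := by
    have := congrArg (fun u => L1.coeff u 0) hc
    simpa only [L1.coeff_smul, L1.one_def, L1.coeff_single, if_true] using this
  have hec' : e * c₁ x = 1 := by
    have := congrArg Complex.re hec
    simpa [c₁] using this
  have hcc : x.2.2.2 = (c₁ x : ℂ) • (1 : L1) := by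
    rw [← hc, smul_smul, ← Complex.ofReal_mul, mul_comm, hec', Complex.ofReal_one, one_smul]
  -- the mean of the connection
  have m0 : m = 0 := by
    have h := Hodge.mean_zero Λ (g₁ := Λ.F (S.E21 q t x)) (g₂ := Λ.F (S.E22 q t x))
      (Λ.contDiff_F (K.sol.smooth est_E21)) (Λ.periodic_F _)
      (Λ.contDiff_F (K.sol.smooth est_E22'')) (Λ.periodic_F _) (S.E11 q t x) fun p => by
        rw [f11, f21, f22]; exact (Frame.closed H hθ tx' ty' p).2
    refine (mul_eq_zero.1 h).resolve_right fun h0 => ?_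
    rw [show e = 0 from h0] at hec'
    simp at hec'
  have cl : ∀ p, dy (Λ.F (S.E11 q t x)) p = dx (Λ.F (S.E12 q t x)) p ∧
      dy (Λ.F (S.E21 q t x)) p = dx (Λ.F (S.E22 q t x)) p := fun p => by
    obtain ⟨a, b⟩ := Frame.closed H hθ tx' ty' p
    rw [m0, zero_mul] at a b
    rw [f11, f12, f21, f22]
    exact ⟨by linarith, by linarith⟩
  have dg : ∀ p, Λ.F x.2.1 p = c₁ x * (dx (Λ.F (S.E11 q t x)) p + dy (Λ.F (S.E12 q t x)) p) ∧
      Λ.F x.2.2.1 p = c₁ x * (dx (Λ.F (S.E21 q t x)) p + dy (Λ.F (S.E22 q t x)) p) := fun p => by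
    obtain ⟨-, -, -, k1, k2⟩ := ev_K K p
    obtain ⟨d1, d2⟩ := Frame.div H hθ tx' ty' m0 p
    have h1 : S.Hg1 q t x = x.2.1 := congrArg Prod.fst K.sol.eqH
    have h2 : S.Hg2 q t x = x.2.2.1 := congrArg (fun u : L1 × L1 × L1 => u.2.1) K.sol.eqH
    rw [f11, f12, f21, f22]
    simp only [U, s, g] at d1 d2
    rw [d1, d2]
    constructor
    · conv_lhs => rw [← h1]
      simp only [Solve.Lat.F, Hg1, map_sub, L1.ev_mul]
      rw [hcc]
      simp only [map_smul, L1.ev_one, (hcs p).1, (hcs p).2, Λ] at k1 k2 ⊢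
      simp only [k1, k2, smul_eq_mul, mul_one, U, s, g]
      norm_cast
      ring
    · conv_lhs => rw [← h2]
      simp only [Solve.Lat.F, Hg2, map_add, L1.ev_mul]
      rw [hcc]
      simp only [map_smul, L1.ev_one, (hcs p).1, (hcs p).2, Λ] at k1 k2 ⊢
      simp only [k1, k2, smul_eq_mul, mul_one, U, s, g]
      norm_cast
      ring
  obtain ⟨g1, g2⟩ := real_g K
  obtain ⟨a1, b1⟩ := Hodge.hodge Λ (real_of K est_E11').1 (real_of K est_E12).1 g1
    (K.sol.smooth est_E11') (K.sol.smooth est_E12) (fun p => (cl p).1) fun p => (dg p).1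
  obtain ⟨a2, b2⟩ := Hodge.hodge Λ (real_of K est_E21).1 (real_of K est_E22'').1 g2
    (K.sol.smooth est_E21) (K.sol.smooth est_E22'') (fun p => (cl p).2) fun p => (dg p).2
  have hν : c₁ x * (L1.coeff (S.E22 q t x) 0).re = S.L / S.P q t := by
    have h := hd
    rw [disc, hcc, smul_one_mul, L1.coeff_smul, Complex.re_ofReal_mul] at h
    linarith
  refine ⟨θ, fun p => ?_⟩
  obtain ⟨d1, d2, d3, d4, -⟩ := dz K
  rw [d1, d2, d3, d4]
  have l := mean_odd K est_E12
  have l' := mean_odd K est_E21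
  simp only [fn, z1x, z1y, z2x, z2y]
  rw [← f11, ← f12, ← f21, ← f22]
  simp only [show ∀ u, (S.lat q t).F u p = (L1.ev (Λ.W p) u).re from fun _ => rfl, Λ] at *
  rw [a1, b1, a2, b2, l, l']
  simp only [zero_smul, sub_zero, map_add, map_sub, map_smul, L1.ev_one, smul_eq_mul, mul_one,
    Complex.add_re, Complex.sub_re, Complex.re_ofReal_mul, Complex.one_re, Complex.ofReal_re,
    he, mul_sub]
  exact ⟨by linarith, trivial, trivial, by linarith⟩

end Setup

/-- Module Verify. -/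
theorem verify : VerifyStmt := by
  intro S v C c₀ D hv hp hg hl q hq δ₀ hδ hc t ht x hx hd
  have K := Setup.ctx hv hl hq hδ hc ht hx
  obtain ⟨H, hiota⟩ := Setup.hyp K
  have hι : ‖x.1.2.2 - 1‖ ≤ 1 / 8 := by
    have e : S.Fi q t x = x.1.2.2 := congrArg (fun u : L1 × L1 × L1 => u.2.2) hx.eqF
    have e' : x.1.2.2 - 1 = -(S.gam q x * S.qq q t x * x.1.2.2) := by
      conv_lhs => rw [← e]
      rw [Setup.Fi]
      ring
    rw [e', norm_neg]
    refine (norm_mul_le _ _).trans ((mul_le_mul ((hc.near t x hx.ball).2.2.trans hδ)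
      (Bd_zero_iff.1 hx.ball.2.2.1) (norm_nonneg _) (by norm_num [tolV])).trans ?_)
    norm_num [tolV]
  obtain ⟨θ, hJ⟩ := Setup.jacobian K hι hd
  obtain ⟨h1, h2⟩ := Setup.contDiff_z K
  have hP := hl.P_eq q hq t ht
  refine ⟨S.uf v q t x, S.zmap q t x, Setup.contDiff_u K, h1.prodMk h2,
    hP ▸ Setup.periodic_u hp, Setup.uf_glide K hg, fun p => hP ▸ Setup.zmap_add p,
    Setup.zmap_glide K, fun p w w' => ?_⟩
  obtain ⟨j1, j2, j3, j4⟩ := hJ p
  have hz : fderiv ℝ (S.zmap q t x) p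
      = (fderiv ℝ (S.zc1 q t x) p).prod (fderiv ℝ (S.zc2 q t x) p) :=
    (hasFDerivAt_pair h1 h2 p).fderiv
  have hu : Real.exp (2 * S.uf v q t x p) = Real.exp (2 * v (S.zmap q t x p))
      * Real.exp (S.sf q t x p) ^ 2 * Real.exp (-2 * S.wf q t p) * Setup.c₁ x ^ 2 := by
    have : Real.exp (2 * S.uf v q t x p) = Real.exp (2 * v (S.zmap q t x p)) *
        (Real.exp (S.sf q t x p) * Real.exp (S.sf q t x p)) * Real.exp (-2 * S.wf q t p) *
        (Real.exp (Real.log (Setup.c₁ x)) * Real.exp (Real.log (Setup.c₁ x))) := by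
      simp only [← Real.exp_add, Setup.uf]
      ring_nf
    rw [this, Real.exp_log K.c_pos]
    ring
  have hw : Real.exp (2 * (D q hq).ω t ((D q hq).k * (p.2 / (D q hq).P t)))
      = Real.exp (2 * S.wf q t p) := by rw [Setup.wf_eq hl hq ht]
  have hee : Real.exp (-2 * S.wf q t p) * Real.exp (2 * S.wf q t p) = 1 := by
    rw [← Real.exp_add]; ring_nf; exact Real.exp_zero
  rw [hu, hw, ← hl.eps_eq q hq, hz]
  simp only [ContinuousLinearMap.prod_apply, dot, fderiv_eq_dx_dy, j1, j2, j3, j4, Frame.r11,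
    Frame.r12, Frame.r21, Frame.r22, Frame.fA11, Frame.fA12, Frame.fA22]
  have he := H.eq p
  simp only [Frame.fQ, Frame.fχ] at he
  set a := dx (S.uf v q t x) p
  set b := dy (S.uf v q t x) p
  set g := S.gf q t x p
  have hcs := Real.sin_sq_add_cos_sq (θ p)
  set K' := Real.exp (2 * v (S.zmap q t x p)) * Real.exp (S.sf q t x p) ^ 2 * Setup.c₁ x ^ 2
  linear_combination K' * ((w.1 * (1 + g * (a * a)) + w.2 * (g * (a * b)))
        * (w'.1 * (1 + g * (a * a)) + w'.2 * (g * (a * b)))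
      + (w.1 * (g * (a * b)) + w.2 * (1 + g * (b * b)))
        * (w'.1 * (g * (a * b)) + w'.2 * (1 + g * (b * b)))) * hcs
    + K' * (w.1 * a + w.2 * b) * (w'.1 * a + w'.2 * b) * he
    - K' * (w.1 * w'.1 + w.2 * w'.2) * hee

end P205.Klein
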