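import Vale.Agent.P205.Klein.BridgeSys

/-!
P205, Klein bottle: the context of the verification and the periods and symmetries of its maps.
-/

namespace P205.Klein

open P205.Tori P205.Tori.Fourier

namespace Setup

variable {S : Setup} {v : ℝ × ℝ → ℝ} {C c₀ : ℝ}
  {D : ∀ q ∈ S.Q, ProfileData S.h S.L C c₀ q}

theorem fn_glide (q : ℕ) (t : ℝ) (a : L1) (p : ℝ × ℝ) :
    S.fn q t a (glide S.h p) = S.fn q t (refl a) p := by
  have hh := S.h_pos
  simp only [fn, Solve.Lat.F, ev_refl, W_lat, glide]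
  congr 3
  simp only [Prod.mk.injEq]
  constructor
  · field_simp
  · ring

theorem wf_eq (hl : Linked S v C c₀ D) {q : ℕ} (hq : q ∈ S.Q) {t : ℝ}
    (ht : t ∈ Set.Icc (0 : ℝ) 1) :
    S.wf q t = fun p => (D q hq).ω t ((D q hq).k * (p.2 / (D q hq).P t)) := by
  funext p
  rw [wf, fn, Solve.Lat.F, (hl.W_eq q hq t ht _).1, Complex.ofReal_re, W_lat, ← hl.P_eq q hq t ht]

theorem ctx (hv : ContDiff ℝ (⊤ : ℕ∞) v) (hl : Linked S v C c₀ D) {q : ℕ} (hq : q ∈ S.Q)
    {δ₀ : ℝ} (hδ : δ₀ ≤ tolV) (hc : S.Contr q δ₀) {t : ℝ} (ht : t ∈ Set.Icc (0 : ℝ) 1) {x : Unk}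
    (hx : S.Sol q t x) : Ctx S v q t x := by
  obtain ⟨n1, -, n3⟩ := hc.near t x hx.ball
  set P := D q hq
  set a := (P.k : ℝ) / P.P t
  have hω := P.smooth_ω t ht
  have hω' : ContDiff ℝ (⊤ : ℕ∞) (deriv (P.ω t)) := ContDiff.deriv' (by exact_mod_cast hω)
  have e0 : S.wf q t = fun y => 1 * P.ω t (a * y.2) := by
    rw [wf_eq hl hq ht]; funext y; simp only [one_mul, a, P]; ring_nf
  have hW : ∀ p, S.fn q t (S.W2 q t) p = a * deriv (P.ω t) (a * p.2) ∧
      S.fn q t (S.W22 q t) p = a ^ 2 * deriv (deriv (P.ω t)) (a * p.2) := fun p => by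
    obtain ⟨-, h2, h22⟩ := hl.W_eq q hq t ht ((S.lat q t).W p)
    simp only [fn, Solve.Lat.F]
    rw [h2, h22, Complex.ofReal_re, Complex.ofReal_re]
    simp only [W_lat, hl.P_eq q hq t ht, a, P]
    ring_nf
    exact ⟨trivial, trivial⟩
  refine ⟨hv, hq, hx, hl.v_eq, ⟨?_, fun p => ?_, fun p => ?_, fun p => ?_⟩, fun p => ?_, ?_⟩
  · rw [e0]
    exact contDiff_const.mul (hω.comp (contDiff_const.mul contDiff_snd))
  · rw [e0]; exact (pd_snd hω 1 a p).1
  · rw [e0, (pd_snd hω 1 a p).2, (hW p).1, one_mul]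
  · have e1 : dy (S.wf q t) = fun y => a * deriv (P.ω t) (a * y.2) := funext fun y => by
      rw [e0, (pd_snd hω 1 a y).2, one_mul]
    rw [e1, (pd_snd hω' a a p).2, (hW p).2, sq]
  · have h := (Complex.abs_re_le_norm _).trans
      ((L1.norm_ev_le ((S.lat q t).W p) _).trans n3)
    have := neg_abs_le (L1.ev ((S.lat q t).W p) (S.gam q x * S.qq q t x)).re
    unfold tolV at hδ
    linarith
  · have e : x.2.2.2 = S.Hc q t x := (congrArg (fun u : L1 × L1 × L1 => u.2.2) hx.eqH).symm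
    have h := (Complex.abs_re_le_norm _).trans ((L1.norm_coeff_le (S.Hc q t x - 1) 0).trans n1)
    rw [L1.coeff_sub, L1.one_def, L1.coeff_single, if_pos rfl, Complex.sub_re, Complex.one_re,
      ← e] at h
    unfold tolV at hδ
    have := neg_abs_le ((L1.coeff x.2.2.2 0).re - 1)
    unfold c₁
    linarith

variable {q : ℕ} {t : ℝ} {x : Unk}

theorem periodic_fn (a : L1) :
    Periodic2 (S.fn q t a) (2 * S.h, 0) (0, S.P q t) := (S.lat q t).periodic_F a

theorem zmap_add (p : ℝ × ℝ) :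
    S.zmap q t x (p + (2 * S.h, 0)) = S.zmap q t x p + (2 * S.h, 0) ∧
      S.zmap q t x (p + (0, S.P q t)) = S.zmap q t x p + (0, S.L) := by
  have hP := S.P_pos q t
  have h1 := periodic_fn (S := S) (q := q) (t := t) ((S.lat q t).M0 x.2.1) p
  have h2 := periodic_fn (S := S) (q := q) (t := t) ((S.lat q t).M0 x.2.2.1) p
  simp only [zmap, zc1, zc2, h1.1, h1.2, h2.1, h2.2, Prod.fst_add, Prod.snd_add, Prod.mk_add_mk,
    Prod.mk.injEq]
  refine ⟨⟨by ring, by ring⟩, by ring, ?_⟩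
  field_simp
  ring

theorem zmap_glide (K : Ctx S v q t x) (p : ℝ × ℝ) :
    S.zmap q t x (glide S.h p) = glide S.h (S.zmap q t x p) := by
  obtain ⟨_, _, h1⟩ := est_M0 (est_g1 (S := S))
  obtain ⟨_, _, h2⟩ := est_M0 (est_g2 (S := S))
  have e1 := ((h1 q K.hq).2.2.2 t x K.sol.ball K.sol.sym).2
  have e2 := ((h2 q K.hq).2.2.2 t x K.sol.ball K.sol.sym).2
  rw [one_smul] at e1
  rw [neg_one_smul] at e2
  simp only [zmap, zc1, zc2, fn_glide, e1, e2]
  simp only [glide, fn, Solve.Lat.F, map_neg, Complex.neg_re, Prod.mk.injEq]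
  constructor <;> ring

theorem periodic_u (hp : Periodic2 v (2 * S.h, 0) (0, S.L)) :
    Periodic2 (S.uf v q t x) (2 * S.h, 0) (0, S.P q t) := fun p => by
  constructor
  · simp only [uf, (zmap_add p).1, (hp _).1, sf, wf, (periodic_fn _ p).1]
  · simp only [uf, (zmap_add p).2, (hp _).2, sf, wf, (periodic_fn _ p).2]

theorem uf_glide (K : Ctx S v q t x) (hg : ∀ p, v (glide S.h p) = v p) (p : ℝ × ℝ) :
    S.uf v q t x (glide S.h p) = S.uf v q t x p := by
  obtain ⟨_, _, h1⟩ := est_s₀ (S := S)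
  have e1 := ((h1 q K.hq).2.2.2 t x K.sol.ball K.sol.sym).2
  rw [one_smul] at e1
  simp only [uf, zmap_glide K, hg, sf, wf, fn_glide, e1, (S.refl_W q K.hq t).1]

end Setup

end P205.Klein
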