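import Vale.Agent.P205.Klein.Parts
import Vale.Agent.P205.Klein.Solve

/-!
P205, Klein bottle: what a fixed point with matching vertical period gives.
-/

namespace P205.Klein

open P205.Tori

/-- The discrepancy of the vertical period. -/
noncomputable def Setup.disc (S : Setup) (q : ℕ) (t : ℝ) (x : Unk) : ℝ :=
  (L1.coeff (x.2.2.2 * S.E22 q t x) 0).re - S.L / S.P q t

/-- The bound of the verification. -/
noncomputable def tolV : ℝ := 1 / 16

/-- Module Verify: a fixed point without discrepancy gives the data of `ClosingStmt`. -/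
def VerifyStmt : Prop :=
  ∀ (S : Setup) (v : ℝ × ℝ → ℝ) (C c₀ : ℝ) (D : ∀ q ∈ S.Q, ProfileData S.h S.L C c₀ q),
    ContDiff ℝ (⊤ : ℕ∞) v → Periodic2 v (2 * S.h, 0) (0, S.L) →
    (∀ p, v (glide S.h p) = v p) → Linked S v C c₀ D →
    ∀ q (hq : q ∈ S.Q) (δ₀ : ℝ), δ₀ ≤ tolV → S.Contr q δ₀ → ∀ t ∈ Set.Icc (0 : ℝ) 1, ∀ x,
      S.Sol q t x → S.disc q t x = 0 →
      ∃ (u : ℝ × ℝ → ℝ) (z : ℝ × ℝ → ℝ × ℝ), ContDiff ℝ (⊤ : ℕ∞) u ∧ ContDiff ℝ (⊤ : ℕ∞) z ∧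
        Periodic2 u (2 * S.h, 0) (0, (D q hq).P t) ∧ (∀ p, u (glide S.h p) = u p) ∧
        (∀ p, z (p + (2 * S.h, 0)) = z p + (2 * S.h, 0) ∧
          z (p + (0, (D q hq).P t)) = z p + (0, S.L)) ∧
        (∀ p, z (glide S.h p) = glide S.h (z p)) ∧
        ∀ p w w', Real.exp (2 * v (z p)) * dot (fderiv ℝ z p w) (fderiv ℝ z p w')
          = Real.exp (2 * u p) * ((S.h / (q * Real.pi)) ^ 2 * (fderiv ℝ u p w * fderiv ℝ u p w')
            + Real.exp (2 * (D q hq).ω t ((D q hq).k * (p.2 / (D q hq).P t))) * dot w w')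

end P205.Klein
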